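import Claimed.Agent.R257.WG.Axis
import Claimed.Agent.Lib.MK.Poincare

/-!
# ROW 257, WALL GEOMETRY (WG), file 9: THE CONTRACT `wg_main` (= Prop. w:geometry of the paper, abstract form)            (architect helper131)            CONTRACT
PAPER-FREE.  Every `sorry` is a leaf `L-WG-*`.  Statements are frozen; auxiliary lemmas directly above your theorem; edit only your block.

`wg_main`: ROBUST WALL (some factor `P i` has both signs on a `1/K`-fraction of the cube `closedBall y r0`) + heavy classes of weighted lines + abstract quadratic exclusion  ⟹  all of `Y` up to `ν`-mass `ν Y / K` lies within `K^C` of `≤ K^C` affine hyperplanes.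
All slacks are one `K ≥ 2`; `C` depends only on `n`; `L ≥ K^C`.
-/

set_option autoImplicit false
open MeasureTheory Set Metric MvPolynomial
open scoped ENNReal BigOperators

namespace Claimed.Agent.R257

/-- the permutation of coordinates which makes the axis `j` vertical: `0 ↦ j`, `i+1 ↦ j.succAbove i` -/
def wgPerm {n : ℕ} (j : Fin (n + 1)) : Equiv.Perm (Fin (n + 1)) := (Fin.cycleRange j).symm

theorem wgPerm_zero {n : ℕ} (j : Fin (n + 1)) : wgPerm j 0 = j := Fin.cycleRange_symm_zero j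

theorem wgPerm_succ {n : ℕ} (j : Fin (n + 1)) (i : Fin n) : wgPerm j i.succ = j.succAbove i := Fin.cycleRange_symm_succ j i

/-- a sign change on a segment parallel to the axis `j` gives a zero. -/
theorem wg_poin_ivt {n : ℕ} (f : (Fin (n + 1) → ℝ) → ℝ) (hf : Continuous f) (j : Fin (n + 1)) (x : Fin n → ℝ)
    (a b lo hi : ℝ) (ha : a ∈ Icc lo hi) (hb : b ∈ Icc lo hi)
    (hs : Real.sign (f (j.insertNth a x)) ≠ Real.sign (f (j.insertNth b x))) :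
    ∃ t ∈ Icc lo hi, f (j.insertNth t x) = 0 := by
  have hg : Continuous fun t : ℝ => f (j.insertNth t x : Fin (n + 1) → ℝ) :=
    hf.comp (Continuous.finInsertNth j continuous_id continuous_const)
  have hsub : uIcc a b ⊆ Icc lo hi := uIcc_subset_Icc ha hb
  have hivt := intermediate_value_uIcc (a := a) (b := b) hg.continuousOn
  rcases lt_trichotomy (f (j.insertNth a x)) 0 with h1 | h1 | h1
  · rcases lt_trichotomy (f (j.insertNth b x)) 0 with h2 | h2 | h2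
    · exact absurd (by rw [Real.sign_of_neg h1, Real.sign_of_neg h2]) hs
    · exact ⟨b, hb, h2⟩
    · obtain ⟨t, ht, h0⟩ := hivt (show (0 : ℝ) ∈ uIcc _ _ from mem_uIcc.2 (Or.inl ⟨h1.le, h2.le⟩))
      exact ⟨t, hsub ht, h0⟩
  · exact ⟨a, ha, h1⟩
  · rcases lt_trichotomy (f (j.insertNth b x)) 0 with h2 | h2 | h2
    · obtain ⟨t, ht, h0⟩ := hivt (show (0 : ℝ) ∈ uIcc _ _ from mem_uIcc.2 (Or.inr ⟨h2.le, h1.le⟩))
      exact ⟨t, hsub ht, h0⟩
    · exact ⟨b, hb, h2⟩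
    · exact absurd (by rw [Real.sign_of_pos h1, Real.sign_of_pos h2]) hs

/-- the lower bound of the two-point integral. -/
theorem wg_poin_lower {m : ℕ} (f : (Fin m → ℝ) → ℝ) (hf : Measurable f) (ν : Measure (Fin m → ℝ)) :
    ν {x | 0 < f x} * ν {x | f x < 0} ≤ ∫⁻ x, ∫⁻ x', MK.sgG f x x' ∂ν ∂ν := by
  have hP : MeasurableSet {x | 0 < f x} := measurableSet_lt measurable_const hf
  have hQ : MeasurableSet {x | f x < 0} := measurableSet_lt hf measurable_const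
  calc ν {x | 0 < f x} * ν {x | f x < 0} = ∫⁻ x, {x | 0 < f x}.indicator (fun _ => ν {x | f x < 0}) x ∂ν := by
        rw [lintegral_indicator_const hP, mul_comm]
    _ ≤ ∫⁻ x, ∫⁻ x', MK.sgG f x x' ∂ν ∂ν := by
        refine lintegral_mono fun x => ?_
        by_cases hx : 0 < f x
        · rw [Set.indicator_of_mem (by exact hx), ← lintegral_indicator_one hQ]
          refine lintegral_mono fun x' => ?_
          by_cases hx' : f x' < 0
          · rw [Set.indicator_of_mem (by exact hx')]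
            simp only [MK.sgG, Real.sign_of_pos hx, Real.sign_of_neg hx']
            norm_num
          · rw [Set.indicator_of_notMem (by exact hx')]
            exact zero_le
        · rw [Set.indicator_of_notMem (by exact hx)]
          exact zero_le

/-- **LEAF L-WG-POIN (box Poincare by axis paths).**  Use `MK.two_point` (hybrid argument; import `Claimed.Agent.Lib.MK.Poincare` in your block's file header if needed, or redo it) with `μ i = volume.restrict (Icc (y i - r) (y i + r))`, `G x x' = if sign (f x) ≠ sign (f x') then 1 else 0`: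
`2 |A⁺| |A⁻| ≤ ∑_j (2r)^n ∫⁻ u ∫⁻ s, G u (update u j s)`.  If `G u (update u j s) = 1` the segment over the base point `u ∘ j.succAbove` contains a zero of `f` (IVT), so the inner double integral is `≤ (2r)² volume (shadow_j)` (Fubini `volume_preserving_piFinSuccAbove`).
Hence `∑_j volume (shadow_j) ≥ 2 θA θB / (2r)^(n+2)`; pigeonhole over the `n+1` axes. -/
theorem wg_poincare {n : ℕ} (f : (Fin (n + 1) → ℝ) → ℝ) (hf : Continuous f) (y : Fin (n + 1) → ℝ) (r θA θB : ℝ) (hr : 0 < r)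
    (hθA : 0 ≤ θA) (hθB : 0 ≤ θB) (hA : ENNReal.ofReal θA ≤ volume {x | x ∈ closedBall y r ∧ 0 < f x})
    (hB : ENNReal.ofReal θB ≤ volume {x | x ∈ closedBall y r ∧ f x < 0}) :
    ∃ j : Fin (n + 1), ENNReal.ofReal (θA * θB / ((n + 1) * (2 * r) ^ (n + 2))) ≤
      volume {x : Fin n → ℝ | (∀ i, |x i - y (j.succAbove i)| ≤ r) ∧ ∃ t : ℝ, |t - y j| ≤ r ∧ f (j.insertNth t x) = 0} := by
  classical
  have hball : closedBall y r = Set.pi univ fun i => Icc (y i - r) (y i + r) := by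
    rw [closedBall_pi y hr.le]
    simp only [Real.closedBall_eq_Icc]
  have hpi : Measure.pi (fun i => (volume : Measure ℝ).restrict (Icc (y i - r) (y i + r)))
      = (volume : Measure (Fin (n + 1) → ℝ)).restrict (closedBall y r) := by
    rw [hball, volume_pi, Measure.restrict_pi_pi]
  have hIv : ∀ i, (volume : Measure ℝ) (Icc (y i - r) (y i + r)) = ENNReal.ofReal (2 * r) := fun i => by
    rw [Real.volume_Icc]
    congr 1
    ring
  have key := MK.two_point (fun i => (volume : Measure ℝ).restrict (Icc (y i - r) (y i + r))) (MK.sgG f)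
    (MK.sgG_measurable f hf.measurable) (MK.sgG_tri f) (fun x => by simp [MK.sgG])
  rw [hpi] at key
  have hP : MeasurableSet {x | 0 < f x} := measurableSet_lt measurable_const hf.measurable
  have hQ : MeasurableSet {x | f x < 0} := measurableSet_lt hf.measurable measurable_const
  -- lower bound
  have hlow : ENNReal.ofReal θA * ENNReal.ofReal θB
      ≤ ∫⁻ x in closedBall y r, ∫⁻ x' in closedBall y r, MK.sgG f x x' := by
    refine le_trans (mul_le_mul' ?_ ?_) (wg_poin_lower f hf.measurable _)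
    · rw [Measure.restrict_apply hP]
      refine hA.trans (le_of_eq ?_)
      congr 1
      ext x
      exact and_comm
    · rw [Measure.restrict_apply hQ]
      refine hB.trans (le_of_eq ?_)
      congr 1
      ext x
      exact and_comm
  -- upper bound
  have hup : ∀ j : Fin (n + 1),
      (∏ i ∈ Finset.univ.erase j, ((volume : Measure ℝ).restrict (Icc (y i - r) (y i + r))) univ) *
        ∫⁻ u in closedBall y r, ∫⁻ s in Icc (y j - r) (y j + r), MK.sgG f u (Function.update u j s)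
      ≤ ENNReal.ofReal ((2 * r) ^ (n + 2)) * volume {x : Fin n → ℝ | (∀ i, |x i - y (j.succAbove i)| ≤ r) ∧
          ∃ t : ℝ, |t - y j| ≤ r ∧ f (j.insertNth t x) = 0} := by
    intro j
    set Sh : Set (Fin n → ℝ) := {x : Fin n → ℝ | (∀ i, |x i - y (j.succAbove i)| ≤ r) ∧
          ∃ t : ℝ, |t - y j| ≤ r ∧ f (j.insertNth t x) = 0} with hSh
    have e1 : (∏ i ∈ Finset.univ.erase j, ((volume : Measure ℝ).restrict (Icc (y i - r) (y i + r))) univ)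
        = ENNReal.ofReal (2 * r) ^ n := by
      simp only [Measure.restrict_apply_univ, hIv, Finset.prod_const]
      rw [Finset.card_erase_of_mem (Finset.mem_univ j), Finset.card_univ, Fintype.card_fin, Nat.add_sub_cancel]
    have hpt : ∀ u ∈ closedBall y r, ∀ s ∈ Icc (y j - r) (y j + r),
        MK.sgG f u (Function.update u j s) ≤ {u : Fin (n + 1) → ℝ | j.removeNth u ∈ Sh}.indicator 1 u := by
      intro u hu s hs
      rw [hball] at hu
      have hu' : ∀ i, u i ∈ Icc (y i - r) (y i + r) := fun i => hu i (mem_univ i)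
      by_cases hsg : Real.sign (f u) ≠ Real.sign (f (Function.update u j s))
      · have hmem : j.removeNth u ∈ Sh := by
          refine ⟨fun i => ?_, ?_⟩
          · have := hu' (j.succAbove i)
            rw [abs_le]
            exact ⟨by simp only [Fin.removeNth_apply]; linarith [this.1], by simp only [Fin.removeNth_apply]; linarith [this.2]⟩
          · rw [← Fin.insertNth_removeNth, ← Fin.insertNth_self_removeNth j u] at hsg
            simp only [Fin.removeNth_insertNth] at hsg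
            obtain ⟨t, ht, h0⟩ := wg_poin_ivt f hf j (j.removeNth u) (u j) s _ _ (hu' j) hs hsg
            exact ⟨t, by rw [abs_le]; exact ⟨by linarith [ht.1], by linarith [ht.2]⟩, h0⟩
        rw [Set.indicator_of_mem (by exact hmem)]
        unfold MK.sgG
        split_ifs <;> simp
      · simp only [MK.sgG, if_neg hsg]
        exact zero_le
    have e2 : ∫⁻ u in closedBall y r, ∫⁻ s in Icc (y j - r) (y j + r), MK.sgG f u (Function.update u j s)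
        ≤ ENNReal.ofReal (2 * r) * (ENNReal.ofReal (2 * r) * volume Sh) := by
      calc ∫⁻ u in closedBall y r, ∫⁻ s in Icc (y j - r) (y j + r), MK.sgG f u (Function.update u j s)
          ≤ ∫⁻ u in closedBall y r, ∫⁻ _ in Icc (y j - r) (y j + r),
              {u : Fin (n + 1) → ℝ | j.removeNth u ∈ Sh}.indicator 1 u :=
            setLIntegral_mono' measurableSet_closedBall fun u hu =>
              setLIntegral_mono' measurableSet_Icc fun s hs => hpt u hu s hs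
        _ = ∫⁻ u in closedBall y r, ENNReal.ofReal (2 * r) *
              {u : Fin (n + 1) → ℝ | j.removeNth u ∈ Sh}.indicator 1 u := by
            refine lintegral_congr fun u => ?_
            rw [setLIntegral_const, hIv, mul_comm]
        _ = ENNReal.ofReal (2 * r) * ∫⁻ u in closedBall y r,
              {u : Fin (n + 1) → ℝ | j.removeNth u ∈ Sh}.indicator 1 u :=
            lintegral_const_mul' _ _ ENNReal.ofReal_ne_top
        _ ≤ ENNReal.ofReal (2 * r) * (volume.restrict (closedBall y r)) {u : Fin (n + 1) → ℝ | j.removeNth u ∈ Sh} :=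
            mul_le_mul' le_rfl (lintegral_indicator_one_le _)
        _ ≤ ENNReal.ofReal (2 * r) * (ENNReal.ofReal (2 * r) * volume Sh) := by
            refine mul_le_mul' le_rfl ?_
            rw [Measure.restrict_apply' measurableSet_closedBall, ← hIv j, ← Measure.prod_prod, ← Measure.volume_eq_prod,
              ← (volume_preserving_piFinSuccAbove (fun _ => ℝ) j).measure_preimage_equiv]
            refine measure_mono ?_
            rintro u ⟨h1, h2⟩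
            rw [hball] at h2
            exact ⟨h2 j (mem_univ j), h1⟩
    rw [e1]
    calc ENNReal.ofReal (2 * r) ^ n * _ ≤ ENNReal.ofReal (2 * r) ^ n * _ := mul_le_mul' le_rfl e2
      _ = _ := by
          rw [ENNReal.ofReal_pow (by positivity : (0 : ℝ) ≤ 2 * r) (n + 2)]
          ring
  have htot : ENNReal.ofReal θA * ENNReal.ofReal θB ≤ ENNReal.ofReal ((2 * r) ^ (n + 2)) *
      ∑ j : Fin (n + 1), volume {x : Fin n → ℝ | (∀ i, |x i - y (j.succAbove i)| ≤ r) ∧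
          ∃ t : ℝ, |t - y j| ≤ r ∧ f (j.insertNth t x) = 0} := by
    rw [Finset.mul_sum]
    exact hlow.trans (key.trans (Finset.sum_le_sum fun j _ => hup j))
  have hpos : (0 : ℝ) < (2 * r) ^ (n + 2) := by positivity
  obtain ⟨j, -, hj⟩ := ENNReal.exists_le_of_sum_le (s := (Finset.univ : Finset (Fin (n + 1))))
    (f := fun _ => ENNReal.ofReal (θA * θB / ((n + 1) * (2 * r) ^ (n + 2))))
    (g := fun j => volume {x : Fin n → ℝ | (∀ i, |x i - y (j.succAbove i)| ≤ r) ∧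
          ∃ t : ℝ, |t - y j| ≤ r ∧ f (j.insertNth t x) = 0}) Finset.univ_nonempty (by
      rw [Finset.sum_const, Finset.card_univ, Fintype.card_fin, nsmul_eq_mul, ← ENNReal.ofReal_natCast,
        ← ENNReal.ofReal_mul (by positivity)]
      have e3 : ((n + 1 : ℕ) : ℝ) * (θA * θB / ((n + 1) * (2 * r) ^ (n + 2))) = θA * θB / (2 * r) ^ (n + 2) := by
        push_cast
        field_simp
      rw [e3, ENNReal.ofReal_div_of_pos hpos, ENNReal.ofReal_mul hθA]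
      exact ENNReal.div_le_of_le_mul' htot)
  exact ⟨j, hj⟩

/-- **LEAF L-WG-LEVEL (small generic level).**  `c ↦ volume {x ∈ ball | 0 < f x ≤ c}` decreases to `0` as `c ↓ 0` (`tendsto_measure_iInter_atTop`-type along `c = 1/(m+1)`; the ball has finite volume, the intersection is empty).  So some `c₁ > 0` works for all `0 < c ≤ c₁` (monotone); `Ioc 0 c₁` is infinite, `bad` is finite. -/
theorem wg_level {m : ℕ} (f : (Fin m → ℝ) → ℝ) (hf : Continuous f) (Λ η : ℝ) (hη : 0 < η) (bad : Set ℝ) (hbad : bad.Finite) :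
    ∃ c : ℝ, 0 < c ∧ c ∉ bad ∧ volume {x | x ∈ closedBall (0 : Fin m → ℝ) Λ ∧ 0 < f x ∧ f x ≤ c} ≤ ENNReal.ofReal η := by
  set S : ℕ → Set (Fin m → ℝ) := fun k => {x | x ∈ closedBall (0 : Fin m → ℝ) Λ ∧ 0 < f x ∧ f x ≤ 1 / ((k : ℝ) + 1)} with hS
  have hmeas : ∀ k, MeasurableSet (S k) := fun k =>
    measurableSet_closedBall.inter ((measurableSet_lt measurable_const hf.measurable).inter
      (measurableSet_le hf.measurable measurable_const))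
  have hanti : Antitone S := by
    intro k l hkl x hx
    refine ⟨hx.1, hx.2.1, hx.2.2.trans ?_⟩
    have : (k : ℝ) ≤ l := by exact_mod_cast hkl
    exact one_div_le_one_div_of_le (by positivity) (by linarith)
  have hfin : ∃ k, volume (S k) ≠ ∞ :=
    ⟨0, ((measure_mono fun x hx => hx.1).trans_lt measure_closedBall_lt_top).ne⟩
  have hempty : ⋂ k, S k = ∅ := by
    ext x
    simp only [mem_iInter, mem_empty_iff_false, iff_false, not_forall]
    by_cases hx : 0 < f x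
    · obtain ⟨k, hk⟩ := exists_nat_one_div_lt hx
      exact ⟨k, fun h => absurd h.2.2 (not_le.2 hk)⟩
    · exact ⟨0, fun h => hx h.2.1⟩
  have htend := tendsto_measure_iInter_atTop (μ := volume) (fun k => (hmeas k).nullMeasurableSet) hanti hfin
  rw [hempty, measure_empty] at htend
  obtain ⟨k, hk⟩ := (htend.eventually (gt_mem_nhds (ENNReal.ofReal_pos.2 hη))).exists
  have hinf : (Ioc (0 : ℝ) (1 / ((k : ℝ) + 1))).Infinite := Ioc_infinite (by positivity)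
  obtain ⟨c, hc, hcb⟩ := (hinf.sdiff hbad).nonempty
  refine ⟨c, hc.1, hcb, le_trans (measure_mono ?_) hk.le⟩
  exact fun x hx => ⟨hx.1, hx.2.1, hx.2.2.trans hc.2⟩

theorem wgp_norm_comp {m : ℕ} (π : Equiv.Perm (Fin m)) (x : Fin m → ℝ) : ‖x ∘ π‖ = ‖x‖ := by
  refine le_antisymm ?_ ?_
  · rw [pi_norm_le_iff_of_nonneg (norm_nonneg _)]
    intro i
    exact norm_le_pi_norm x (π i)
  · rw [pi_norm_le_iff_of_nonneg (norm_nonneg _)]
    intro i
    have := norm_le_pi_norm (x ∘ π) (π.symm i)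
    simpa using this

theorem wgp_tube {m : ℕ} (π : Equiv.Perm (Fin m)) (a v y : Fin m → ℝ) (r : ℝ) :
    y ∘ π ∈ MK.tube (a ∘ π) (v ∘ π) r ↔ y ∈ MK.tube a v r := by
  have e : ∀ t : ℝ, y ∘ π - a ∘ π - t • (v ∘ π) = (y - a - t • v) ∘ π := fun t => rfl
  constructor
  · rintro ⟨t, ht⟩
    refine ⟨t, ?_⟩
    rwa [e, wgp_norm_comp] at ht
  · rintro ⟨t, ht⟩
    refine ⟨t, ?_⟩
    rwa [e, wgp_norm_comp]

theorem wgp_sum1 {m : ℕ} (π : Equiv.Perm (Fin m)) (N u : Fin m → ℝ) :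
    ∑ i, N (π.symm i) * u i = ∑ i, N i * u (π i) := by
  rw [← Equiv.sum_comp π]
  simp

theorem wgp_sum2 {m : ℕ} (π : Equiv.Perm (Fin m)) (B : Fin m → Fin m → ℝ) (u : Fin m → ℝ) :
    ∑ i, ∑ l, B (π.symm i) (π.symm l) * u i * u l = ∑ i, ∑ l, B i l * u (π i) * u (π l) := by
  rw [← Equiv.sum_comp π]
  refine Finset.sum_congr rfl fun i _ => ?_
  rw [← Equiv.sum_comp π]
  simp

theorem wgp_QX {m : ℕ} (π : Equiv.Perm (Fin m)) (Kq : ℝ) (VV VV' : Set (Set (Fin m → ℝ))) (h : WgQX Kq VV)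
    (hVV : ∀ V ∈ VV, ∃ V' ∈ VV', ∀ u' ∈ V', ∃ u ∈ V, u' = u ∘ π) : WgQX Kq VV' := by
  intro N B bb q1 q2 hN hB hbb hq1 hq2 hpass x hx
  have key := h (N ∘ π.symm) (fun i l => B (π.symm i) (π.symm l)) bb q1 q2 ?_ (fun i l => hB _ _) (fun i l => hbb _ _) hq1 hq2 ?_
    (x ∘ π.symm) ?_
  · rw [wgp_norm_comp] at key
    refine le_trans (le_of_eq ?_) key
    congr 1
    have := wgp_sum2 π B (x ∘ π.symm)
    simp only [Function.comp_apply, Equiv.symm_apply_apply] at this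
    simp only [Function.comp_apply]
    exact this.symm
  · rw [← hN, ← Equiv.sum_comp π]
    simp
  · intro V hV
    obtain ⟨V', hV', hsub⟩ := hVV V hV
    obtain ⟨u', hu', h1, h2⟩ := hpass V' hV'
    obtain ⟨u, hu, rfl⟩ := hsub u' hu'
    refine ⟨u, hu, ?_, ?_⟩
    · have := wgp_sum1 π N u
      simp only [Function.comp_apply] at h1 ⊢
      rw [this]
      exact h1
    · have := wgp_sum2 π B u
      simp only [Function.comp_apply] at h2
      rw [this]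
      exact h2
  · have := wgp_sum1 π N (x ∘ π.symm)
    simp only [Function.comp_apply, Equiv.symm_apply_apply] at this
    simp only [Function.comp_apply]
    rw [this]
    exact hx

theorem wgp_insertNth {n : ℕ} (j : Fin (n + 1)) (t : ℝ) (x : Fin n → ℝ) :
    (j.insertNth t x : Fin (n + 1) → ℝ) ∘ wgPerm j = Fin.cons t x := by
  funext i
  refine Fin.cases ?_ (fun l => ?_) i
  · simp [wgPerm_zero]
  · simp [wgPerm_succ]

theorem wgp_eval {n : ℕ} (j : Fin (n + 1)) (P : MvPolynomial (Fin (n + 1)) ℝ) (t : ℝ) (x : Fin n → ℝ) :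
    eval (Fin.cons t x : Fin (n + 1) → ℝ) (rename (wgPerm j).symm P) = eval (j.insertNth t x : Fin (n + 1) → ℝ) P := by
  rw [eval_rename, ← wgp_insertNth j t x]
  congr 2
  funext i
  simp

/-- **LEAF L-WG-PERM (any axis vertical).**  Apply `wg_axis` to the data transported by `x ↦ x ∘ wgPerm j` (a linear isometry of the sup norm and a measure preserving measurable equivalence: `MeasurableEquiv.piCongrLeft`/`volume_measurePreserving_piCongrLeft`; only `ν.map` is needed here):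
`P' = Q`, `ν' = ν.map (· ∘ π)`, `a' α = a α ∘ π`, `v' α = v α ∘ π`, `Y' = (· ∘ π) '' Y`, `heavy' y' = heavy (y' ∘ π.symm)`.   `eval (x ∘ π) (rename π.symm P) = eval x P` (`eval_rename`), `x ∘ π = cons (x j) (x ∘ j.succAbove)` (`wgPerm_zero`, `wgPerm_succ`), `j.insertNth t x ∘ π = cons t x`.
`WgQX` is invariant (`Equiv.sum_comp`, sup norm).   Plates: `(N, h) ↦ (N ∘ π.symm, h)`. -/
theorem wg_axis_perm {n : ℕ} (hn : 1 ≤ n) (j : Fin (n + 1)) (P Q : MvPolynomial (Fin (n + 1)) ℝ)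
    (hQ : Q = rename (wgPerm j).symm P) (D : ℕ) (hD : 1 ≤ D) (hP : P.totalDegree ≤ D)
    (ν : Measure (Fin (n + 1) → ℝ)) [IsFiniteMeasure ν] (ρ A : ℝ) (hρ : 0 < ρ) (hA : 0 ≤ A)
    (hν : ∀ p, ν (closedBall p ρ) ≤ ENNReal.ofReal A)
    {ι β : Type*} [Fintype ι] (w : ι → ℝ) (hw0 : ∀ α, 0 ≤ w α) (hw1 : ∑ α, w α ≤ 1) (a v : ι → Fin (n + 1) → ℝ)
    (k : ι → Fin n) (c0 : ℝ) (hc0 : 0 < c0) (hvk : ∀ α, c0 ≤ |v α (j.succAbove (k α))|) (hv : ∀ α, ‖v α‖ ≤ 1)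
    (Y : Set (Fin (n + 1) → ℝ)) (Λ : ℝ) (hΛ0 : 0 ≤ Λ) (hΛ : Y ⊆ closedBall 0 Λ) (W r : ℝ) (hW : 0 < W) (hr : 0 ≤ r)
    (cls : ι → β) (heavy : (Fin (n + 1) → ℝ) → Set β)
    (H1 : open Classical in ∀ y ∈ Y, ∀ b ∈ heavy y,
      W / 2 ≤ ∑ α, if cls α = b ∧ y ∈ MK.tube (a α) (v α) r then w α else 0)
    (Kq : ℝ) (hKq : 0 ≤ Kq) (QX : ∀ y ∈ Y, WgQX Kq {V | ∃ b ∈ heavy y, V = {u | ∃ α, cls α = b ∧ u = v α}})
    (θ : ℝ) (hθ : 0 < θ)
    (SC : ∀ y ∈ Y, ENNReal.ofReal θ ≤ volume {x : Fin n → ℝ | (∀ i, |x i - y (j.succAbove i)| ≤ ρ) ∧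
      ∃ t : ℝ, |t - y j| ≤ ρ ∧ eval (j.insertNth t x : Fin (n + 1) → ℝ) P = 0})
    (S q1 q2 κ Dd ℓ ε : ℝ) (hS : 0 < S) (hq1 : 0 < q1) (hq2 : 0 < q2) (hℓ : 0 < ℓ) (hε0 : 0 < ε)
    (hSθ : n * (D * ((2 * ρ) ^ (n - 1) * ((147 * D ^ 2 + 1) * (2 * ρ / S)))) ≤ θ / 8)
    (hDd : (r + ρ) * (1 + 1 / c0) ≤ Dd) (hsmall : 3 * Kq * (1 + n * S) ^ 2 * q1 ≤ 1)
    (hκ : κ = 3 * Kq * (1 + n * S) ^ 2 * q2) (hε : n * ε * 2 ^ (n + 1) ≤ 1)
    (hgen : wgRR Q (wgTall Q (fun α => a α ∘ wgPerm j) (fun α => v α ∘ wgPerm j) k q1 q2 Dd S κ) ≠ 0) :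
    ∃ Pl : Finset ((Fin (n + 1) → ℝ) × ℝ), (Pl.card : ℝ) ≤ 2 * D * (2 * (Λ + ρ) / ℓ + 3) ^ n ∧ (∀ π ∈ Pl, π.1 j = 1) ∧
      ∃ Z : Set (Fin (n + 1) → ℝ), (∀ y ∈ Y, y ∉ Z → ∃ π ∈ Pl, |∑ i, π.1 i * y i - π.2| ≤ 6 * n ^ 2 * κ * ℓ ^ 2 + ρ * (1 + n * S)) ∧
      ν Z ≤ ENNReal.ofReal (16 / (W * θ) * (A *
            (D * ((2 * Dd) ^ (n - 1) * ((245 * D ^ 2 + 1) * (2 * Dd / q1 + 4 * Real.sqrt (Dd / q2)))))))
          + ENNReal.ofReal (8 / θ * (A * (D * (n * (1 / ε) ^ n *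
            ((2 * (Λ + ρ + n * ℓ)) ^ (n - 1) * ((49 * D ^ 2 * (n + n ^ 2 + 2) : ℕ) * (2 * ℓ))))))) := by
  classical
  obtain ⟨π, hπ⟩ : ∃ π : Equiv.Perm (Fin (n + 1)), π = wgPerm j := ⟨_, rfl⟩
  have hπ0 : π 0 = j := by rw [hπ]; exact wgPerm_zero j
  have hπs : ∀ i : Fin n, π i.succ = j.succAbove i := by intro i; rw [hπ]; exact wgPerm_succ j i
  rw [← hπ] at hgen
  obtain ⟨T, hT⟩ : ∃ T : (Fin (n + 1) → ℝ) → (Fin (n + 1) → ℝ), T = fun x => x ∘ π := ⟨_, rfl⟩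
  have hTm : Measurable T := by
    rw [hT]
    exact measurable_pi_iff.2 fun i => measurable_pi_apply (π i)
  have hQdeg : Q.totalDegree ≤ D := by
    rw [hQ]
    exact (totalDegree_rename_le _ _).trans hP
  have hν' : ∀ p, (ν.map T) (closedBall p ρ) ≤ ENNReal.ofReal A := by
    intro p
    rw [Measure.map_apply hTm measurableSet_closedBall]
    refine le_trans (measure_mono ?_) (hν (p ∘ π.symm))
    intro x hx
    rw [mem_preimage, mem_closedBall, dist_eq_norm] at hx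
    rw [mem_closedBall, dist_eq_norm, ← wgp_norm_comp π]
    have e : (x - p ∘ π.symm) ∘ π = T x - p := by
      rw [hT]
      funext i
      simp
    rw [e]
    exact hx
  have hvk' : ∀ α, c0 ≤ |(v α ∘ π) (k α).succ| := by
    intro α
    rw [Function.comp_apply, hπs]
    exact hvk α
  have hv' : ∀ α, ‖v α ∘ π‖ ≤ 1 := by
    intro α
    rw [wgp_norm_comp]
    exact hv α
  have hΛ' : T '' Y ⊆ closedBall 0 Λ := by
    rintro _ ⟨y, hy, rfl⟩
    have := hΛ hy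
    rw [mem_closedBall, dist_zero_right] at this ⊢
    rw [hT]
    show ‖y ∘ π‖ ≤ Λ
    rw [wgp_norm_comp]
    exact this
  have hback : ∀ y : Fin (n + 1) → ℝ, T y ∘ π.symm = y := by
    intro y
    rw [hT]
    funext i
    simp
  have H1' : ∀ y' ∈ T '' Y, ∀ b ∈ heavy (y' ∘ π.symm),
      W / 2 ≤ ∑ α, if cls α = b ∧ y' ∈ MK.tube (a α ∘ π) (v α ∘ π) r then w α else 0 := by
    rintro _ ⟨y, hy, rfl⟩ b hb
    rw [hback] at hb
    refine (H1 y hy b hb).trans (le_of_eq ?_)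
    refine Finset.sum_congr rfl fun α _ => ?_
    refine if_congr ?_ rfl rfl
    rw [hT]
    exact and_congr_right fun _ => (wgp_tube π (a α) (v α) y r).symm
  have QX' : ∀ y' ∈ T '' Y, WgQX Kq {V | ∃ b ∈ heavy (y' ∘ π.symm), V = {u | ∃ α, cls α = b ∧ u = v α ∘ π}} := by
    rintro _ ⟨y, hy, rfl⟩
    rw [hback]
    refine wgp_QX π Kq _ _ (QX y hy) ?_
    rintro V ⟨b, hb, rfl⟩
    refine ⟨_, ⟨b, hb, rfl⟩, ?_⟩
    rintro u' ⟨α, hα, rfl⟩
    exact ⟨v α, ⟨α, hα, rfl⟩, rfl⟩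
  have SC' : ∀ y' ∈ T '' Y, ENNReal.ofReal θ ≤ volume {x : Fin n → ℝ | ‖x - Fin.tail y'‖ ≤ ρ ∧
      ∃ t : ℝ, |t - y' 0| ≤ ρ ∧ eval (Fin.cons t x : Fin (n + 1) → ℝ) Q = 0} := by
    rintro _ ⟨y, hy, rfl⟩
    refine (SC y hy).trans (le_of_eq ?_)
    congr 1
    ext x
    simp only [mem_ofPred_eq]
    refine and_congr ?_ ?_
    · rw [pi_norm_le_iff_of_nonneg hρ.le]
      refine forall_congr' fun i => ?_
      rw [Real.norm_eq_abs, hT]
      simp only [Pi.sub_apply, Fin.tail, Function.comp_apply, hπs]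
    · refine exists_congr fun t => ?_
      rw [hQ, ← hπ, hπ, wgp_eval, hT]
      simp only [Function.comp_apply, hπ0]
  obtain ⟨Pl', hcard, h0, Z', hZ1, hZ2⟩ := wg_axis hn Q D hD hQdeg (ν.map T) ρ A hρ hA hν' w hw0 hw1 (fun α => a α ∘ π)
    (fun α => v α ∘ π) k c0 hc0 hvk' hv' (T '' Y) Λ hΛ0 hΛ' W r hW hr cls (fun y' => heavy (y' ∘ π.symm)) H1' Kq hKq QX' θ hθ SC'
    S q1 q2 κ Dd ℓ ε hS hq1 hq2 hℓ hε0 hSθ hDd hsmall hκ hε hgen
  refine ⟨Pl'.image fun τ => (τ.1 ∘ π.symm, τ.2), ?_, ?_, T ⁻¹' Z', ?_, ?_⟩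
  · refine le_trans ?_ hcard
    exact_mod_cast Finset.card_image_le
  · intro τ hτ
    obtain ⟨τ', hτ', rfl⟩ := Finset.mem_image.1 hτ
    show τ'.1 (π.symm j) = 1
    rw [← hπ0, Equiv.symm_apply_apply]
    exact h0 τ' hτ'
  · intro y hy hyZ
    obtain ⟨τ', hτ', hle⟩ := hZ1 (T y) ⟨y, hy, rfl⟩ hyZ
    refine ⟨_, Finset.mem_image_of_mem _ hτ', ?_⟩
    refine le_trans (le_of_eq ?_) hle
    congr 2
    show ∑ i, τ'.1 (π.symm i) * y i = _
    rw [wgp_sum1, hT]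
    rfl
  · exact (Measure.le_map_apply hTm.aemeasurable Z').trans hZ2

/-- `0 ≤ x ≤ K ^ e` -/
def WgNB (K x : ℝ) (e : ℕ) : Prop := 0 ≤ x ∧ x ≤ K ^ e

theorem wgnb_mul {K x y : ℝ} {a b : ℕ} (hx : WgNB K x a) (hy : WgNB K y b) : WgNB K (x * y) (a + b) :=
  ⟨mul_nonneg hx.1 hy.1, by rw [pow_add]; exact mul_le_mul hx.2 hy.2 hy.1 (hx.1.trans hx.2)⟩

theorem wgnb_mono {K x : ℝ} {a b : ℕ} (hK : 2 ≤ K) (hab : a ≤ b) (hx : WgNB K x a) : WgNB K x b :=
  ⟨hx.1, hx.2.trans (pow_le_pow_right₀ (by linarith) hab)⟩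

theorem wgnb_add {K x y : ℝ} {a b : ℕ} (hK : 2 ≤ K) (hx : WgNB K x a) (hy : WgNB K y b) : WgNB K (x + y) (a + b + 1) := by
  have h1 := (wgnb_mono hK (Nat.le_add_right a b) hx).2
  have h2 := (wgnb_mono hK (Nat.le_add_left b a) hy).2
  refine ⟨add_nonneg hx.1 hy.1, ?_⟩
  rw [pow_succ]
  have : 0 ≤ K ^ (a + b) := by positivity
  nlinarith

theorem wgnb_pow {K x : ℝ} {a : ℕ} (hx : WgNB K x a) (k : ℕ) : WgNB K (x ^ k) (a * k) :=
  ⟨pow_nonneg hx.1 k, by rw [pow_mul]; exact pow_le_pow_left₀ hx.1 hx.2 k⟩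

theorem wgnb_le {K x y : ℝ} {a : ℕ} (h0 : 0 ≤ x) (hxy : x ≤ y) (hy : WgNB K y a) : WgNB K x a := ⟨h0, hxy.trans hy.2⟩

theorem wgnb_K {K : ℝ} (hK : 2 ≤ K) : WgNB K K 1 := ⟨by linarith, by rw [pow_one]⟩

theorem wgnb_Kpow {K : ℝ} (hK : 2 ≤ K) (e : ℕ) : WgNB K (K ^ e) e := ⟨by positivity, le_rfl⟩

/-- numerals -/
theorem wgnb_num {K : ℝ} (hK : 2 ≤ K) (x : ℝ) (e : ℕ) (h0 : 0 ≤ x) (hx : x ≤ 2 ^ e) : WgNB K x e :=
  ⟨h0, hx.trans (pow_le_pow_left₀ (by norm_num) hK e)⟩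

theorem wgnb_nat {K : ℝ} (hK : 2 ≤ K) (n : ℕ) : WgNB K (n : ℝ) n :=
  wgnb_num hK _ _ (Nat.cast_nonneg n) (by exact_mod_cast (Nat.lt_two_pow_self (n := n)).le)

/-- the first inequality: the choice of `S` -/
theorem wgn_g1 {r0 N Dr S T : ℝ} (p : ℕ) (hr0 : 0 < r0) (hS : 0 < S) (hT : 0 < T)
    (hb : N * Dr * (147 * Dr ^ 2 + 1) * 2 ^ (p + 1) * T * 8 ≤ S) :
    N * (Dr * ((2 * r0) ^ p * ((147 * Dr ^ 2 + 1) * (2 * r0 / S)))) ≤ r0 ^ (p + 1) / T / 8 := by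
  rw [div_div, le_div_iff₀ (by positivity)]
  have e : N * (Dr * ((2 * r0) ^ p * ((147 * Dr ^ 2 + 1) * (2 * r0 / S)))) * (T * 8)
      = (N * Dr * (147 * Dr ^ 2 + 1) * 2 ^ (p + 1) * T * 8) * r0 ^ (p + 1) / S := by
    field_simp
    ring
  rw [e, div_le_iff₀ hS]
  calc _ ≤ S * r0 ^ (p + 1) := mul_le_mul_of_nonneg_right hb (by positivity)
    _ = _ := mul_comm _ _

/-- the first error term -/
theorem wgn_t1 {K L W m Rn T B Dd Ka G : ℝ} (hK : 0 < K) (hL : 0 < L) (hW : 0 < W) (hm : 0 < m) (hRn : 0 < Rn) (hT : 0 < T) (hB : 0 ≤ B)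
    (hDd : 1 ≤ Dd) (hKa : 0 < Ka) (hG : 0 ≤ G) (hWm : L / K ≤ W * m) (hb : G * 16 * T * K * B * 6 * Dd * K * (2 * K) ≤ Ka) :
    G * (16 / (W * (Rn / T)) * (K * Rn * (B * (2 * Dd / (Ka / L) + 4 * Real.sqrt (Dd / (Ka / L) ^ 2))))) ≤ m / (2 * K) := by
  have hq : 0 < Ka / L := by positivity
  have hs : Real.sqrt (Dd / (Ka / L) ^ 2) ≤ Dd / (Ka / L) := by
    rw [Real.sqrt_le_left (by positivity)]
    have e2 : (Dd / (Ka / L)) ^ 2 = Dd ^ 2 / (Ka / L) ^ 2 := div_pow _ _ _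
    rw [e2]
    exact div_le_div_of_nonneg_right (by nlinarith) (by positivity)
  have hQ : 2 * Dd / (Ka / L) + 4 * Real.sqrt (Dd / (Ka / L) ^ 2) ≤ 6 * Dd * L / Ka := by
    have : 6 * Dd * L / Ka = 2 * Dd / (Ka / L) + 4 * (Dd / (Ka / L)) := by
      field_simp
      ring
    rw [this]
    linarith
  have hW1 : 1 / W ≤ K * m / L := by
    rw [div_le_div_iff₀ hW hL]
    rw [div_le_iff₀ hK] at hWm
    linarith
  have hQ0 : 0 ≤ 2 * Dd / (Ka / L) + 4 * Real.sqrt (Dd / (Ka / L) ^ 2) := by positivity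
  have e : G * (16 / (W * (Rn / T)) * (K * Rn * (B * (2 * Dd / (Ka / L) + 4 * Real.sqrt (Dd / (Ka / L) ^ 2)))))
      = G * 16 * T * K * B * ((2 * Dd / (Ka / L) + 4 * Real.sqrt (Dd / (Ka / L) ^ 2)) * (1 / W)) := by
    generalize 2 * Dd / (Ka / L) + 4 * Real.sqrt (Dd / (Ka / L) ^ 2) = Q
    field_simp
  rw [e]
  have h1 : (2 * Dd / (Ka / L) + 4 * Real.sqrt (Dd / (Ka / L) ^ 2)) * (1 / W) ≤ 6 * Dd * L / Ka * (K * m / L) :=
    mul_le_mul hQ hW1 (by positivity) (by positivity)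
  calc G * 16 * T * K * B * ((2 * Dd / (Ka / L) + 4 * Real.sqrt (Dd / (Ka / L) ^ 2)) * (1 / W))
      ≤ G * 16 * T * K * B * (6 * Dd * L / Ka * (K * m / L)) := mul_le_mul_of_nonneg_left h1 (by positivity)
    _ = (G * 16 * T * K * B * 6 * Dd * K * (2 * K)) * (m / (2 * K)) / Ka := by
        field_simp
    _ ≤ Ka * (m / (2 * K)) / Ka := by gcongr
    _ = m / (2 * K) := by field_simp

/-- the second error term -/
theorem wgn_t2 {K L m Rn T Dr N E r0 Kb c49 G : ℝ} (p : ℕ) (hK : 0 < K) (hL : 0 < L) (hRn : 0 < Rn) (hT : 0 < T) (hDr : 0 ≤ Dr)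
    (hN : 0 ≤ N) (hE : 0 ≤ E) (hr0 : 0 ≤ r0) (hKb : 1 ≤ Kb) (hc : 0 ≤ c49) (hG : 0 ≤ G) (hr0L : r0 ≤ L) (hLm : L ^ (p + 1) / K ≤ m)
    (hb : G * 8 * T * K * Dr * N * E * (2 * (K + 1 + N)) ^ p * c49 * 2 * K * (2 * K) ≤ Kb) :
    G * (8 / (Rn / T) * (K * Rn * (Dr * (N * E * ((2 * (K * L + r0 + N * (L / Kb))) ^ p * (c49 * (2 * (L / Kb)))))))) ≤ m / (2 * K) := by
  have hKb0 : 0 < Kb := by linarith
  have h0 : L / Kb ≤ L := div_le_self hL.le hKb
  have h1 : 2 * (K * L + r0 + N * (L / Kb)) ≤ 2 * (K + 1 + N) * L := by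
    have : N * (L / Kb) ≤ N * L := mul_le_mul_of_nonneg_left h0 hN
    nlinarith
  have h2 : (2 * (K * L + r0 + N * (L / Kb))) ^ p ≤ (2 * (K + 1 + N)) ^ p * L ^ p := by
    rw [← mul_pow]
    exact pow_le_pow_left₀ (by positivity) h1 p
  have hLm' : L ^ (p + 1) ≤ K * m := by
    rw [div_le_iff₀ hK] at hLm
    linarith
  have e : G * (8 / (Rn / T) * (K * Rn * (Dr * (N * E * ((2 * (K * L + r0 + N * (L / Kb))) ^ p * (c49 * (2 * (L / Kb))))))))
      = G * 8 * T * K * Dr * N * E * c49 * 2 * ((2 * (K * L + r0 + N * (L / Kb))) ^ p * L) / Kb := by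
    generalize (2 * (K * L + r0 + N * (L / Kb))) ^ p = Q
    field_simp
  rw [e]
  have h3 : (2 * (K * L + r0 + N * (L / Kb))) ^ p * L ≤ (2 * (K + 1 + N)) ^ p * (K * m) := by
    calc (2 * (K * L + r0 + N * (L / Kb))) ^ p * L ≤ (2 * (K + 1 + N)) ^ p * L ^ p * L := mul_le_mul_of_nonneg_right h2 hL.le
      _ = (2 * (K + 1 + N)) ^ p * L ^ (p + 1) := by ring
      _ ≤ (2 * (K + 1 + N)) ^ p * (K * m) := mul_le_mul_of_nonneg_left hLm' (by positivity)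
  have hm : 0 ≤ m := le_trans (by positivity) hLm
  calc G * 8 * T * K * Dr * N * E * c49 * 2 * ((2 * (K * L + r0 + N * (L / Kb))) ^ p * L) / Kb
      ≤ G * 8 * T * K * Dr * N * E * c49 * 2 * ((2 * (K + 1 + N)) ^ p * (K * m)) / Kb := by gcongr
    _ = (G * 8 * T * K * Dr * N * E * (2 * (K + 1 + N)) ^ p * c49 * 2 * K * (2 * K)) * (m / (2 * K)) / Kb := by
        field_simp
    _ ≤ Kb * (m / (2 * K)) / Kb := by gcongr
    _ = m / (2 * K) := by field_simp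

theorem wgn_g3 {L c Ka : ℝ} (hL : 0 < L) (hb : c * Ka ≤ L) : c * (Ka / L) ≤ 1 := by
  rw [← mul_div_assoc]
  exact div_le_one_of_le₀ hb hL.le

theorem wgn_g6 {K L r0 N Dr Kb KC : ℝ} (n : ℕ) (hK : 0 < K) (hL : 0 < L) (hr0 : 0 ≤ r0) (hN : 0 ≤ N) (hDr : 0 ≤ Dr) (hKb : 0 < Kb) (hr0L : r0 ≤ L)
    (hb : K * (N + 1) * (2 * Dr * (2 * (K + 1) * Kb + 3) ^ n) ≤ KC) :
    K * (N + 1) * (2 * Dr * (2 * (K * L + r0) / (L / Kb) + 3) ^ n) ≤ KC := by
  refine le_trans ?_ hb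
  have h1 : 2 * (K * L + r0) / (L / Kb) ≤ 2 * (K + 1) * Kb := by
    rw [div_le_iff₀ (by positivity)]
    have : 2 * (K + 1) * Kb * (L / Kb) = 2 * (K + 1) * L := by field_simp
    rw [this]
    nlinarith
  have h2 : 0 ≤ 2 * (K * L + r0) / (L / Kb) := by positivity
  gcongr

theorem wgn_g7 {K L r0 N S Ka Kb KC : ℝ} (hK : 0 < K) (hL : 0 < L) (hN : 0 ≤ N) (hS : 0 ≤ S) (hKa : 0 < Ka) (hab : Ka ≤ Kb) (hr0K : r0 ≤ K)
    (hb : 6 * N ^ 2 * (3 * K * (1 + N * S) ^ 2) + K * (1 + N * S) ≤ KC) :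
    6 * N ^ 2 * (3 * K * (1 + N * S) ^ 2 * (Ka / L) ^ 2) * (L / Kb) ^ 2 + r0 * (1 + N * S) ≤ KC := by
  refine le_trans ?_ hb
  have hKb : 0 < Kb := lt_of_lt_of_le hKa hab
  have e : 6 * N ^ 2 * (3 * K * (1 + N * S) ^ 2 * (Ka / L) ^ 2) * (L / Kb) ^ 2 = 6 * N ^ 2 * (3 * K * (1 + N * S) ^ 2) * (Ka / Kb) ^ 2 := by
    field_simp
  have h1 : (Ka / Kb) ^ 2 ≤ 1 := by
    have : Ka / Kb ≤ 1 := div_le_one_of_le₀ hab hKb.le
    have h0 : 0 ≤ Ka / Kb := by positivity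
    nlinarith
  rw [e]
  have h2 : 6 * N ^ 2 * (3 * K * (1 + N * S) ^ 2) * (Ka / Kb) ^ 2 ≤ 6 * N ^ 2 * (3 * K * (1 + N * S) ^ 2) :=
    mul_le_of_le_one_right (by positivity) h1
  have h3 : r0 * (1 + N * S) ≤ K * (1 + N * S) := mul_le_mul_of_nonneg_right hr0K (by positivity)
  linarith

/-- **LEAF L-WG-NUM (choice of the parameters; real numbers only).**  `θ = r0^n / (K² (n+1) 2^(n+4))`.  Take `ε = 1/(n 2^(n+1))`, `Dd = 2 r0 (1+K)`, `S` = equality in the first inequality (a power of `K` bounds it), `q1 = K^a / L`, `q2 = K^a / L²`, `ℓ = L / K^b`, `a`, then `b`, then `C` large (depending on `n` only).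
Use `2 ≤ K`: `n+1 ≤ 2^n.. ≤ K^(n+1)`, `r0, D ≤ K`, `1/W ≤ K m / L`, `L^n ≤ K m`.   First error term `≤ m K^(c₁ - a/2)`, second `≤ K^(c₂ - b) L^n ≤ m K^(c₂ + 1 - b)`. -/
theorem wg_numerics (n : ℕ) (hn : 1 ≤ n) : ∃ C : ℕ, ∀ (K L r0 : ℝ) (D : ℕ), 2 ≤ K → K ^ C ≤ L → 1 ≤ r0 → r0 ≤ K → 1 ≤ D →
    (D : ℝ) ≤ K → ∃ S q1 q2 κ Dd ℓ ε : ℝ, 0 < S ∧ 0 < q1 ∧ 0 < q2 ∧ 0 < ℓ ∧ 0 < ε ∧
      n * (D * ((2 * r0) ^ (n - 1) * ((147 * D ^ 2 + 1) * (2 * r0 / S)))) ≤ r0 ^ n / (K ^ 2 * (n + 1) * 2 ^ (n + 4)) / 8 ∧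
      (r0 + r0) * (1 + 1 / (1 / K)) ≤ Dd ∧ 3 * K * (1 + n * S) ^ 2 * q1 ≤ 1 ∧ κ = 3 * K * (1 + n * S) ^ 2 * q2 ∧
      n * ε * 2 ^ (n + 1) ≤ 1 ∧
      K * (n + 1) * (2 * D * (2 * (K * L + r0) / ℓ + 3) ^ n) ≤ K ^ C ∧
      6 * n ^ 2 * κ * ℓ ^ 2 + r0 * (1 + n * S) ≤ K ^ C ∧
      ∀ W m : ℝ, 0 < W → L / K ≤ W * m → L ^ n / K ≤ m →
        K * (n + 1) * (16 / (W * (r0 ^ n / (K ^ 2 * (n + 1) * 2 ^ (n + 4)))) * (K * r0 ^ n *
            (D * ((2 * Dd) ^ (n - 1) * ((245 * D ^ 2 + 1) * (2 * Dd / q1 + 4 * Real.sqrt (Dd / q2))))))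
          + 8 / (r0 ^ n / (K ^ 2 * (n + 1) * 2 ^ (n + 4))) * (K * r0 ^ n * (D * (n * (1 / ε) ^ n *
            ((2 * (K * L + r0 + n * ℓ)) ^ (n - 1) * ((49 * D ^ 2 * (n + n ^ 2 + 2) : ℕ) * (2 * ℓ))))))) ≤ m / K := by
  obtain ⟨p, rfl⟩ : ∃ p, n = p + 1 := ⟨n - 1, by omega⟩
  simp only [Nat.add_sub_cancel]
  set N : ℝ := ((p + 1 : ℕ) : ℝ) with hNdef
  have hN1 : 1 ≤ N := by rw [hNdef]; exact_mod_cast hn
  have hNB : ∀ K : ℝ, 2 ≤ K → WgNB K N (p + 1) := fun K hK => wgnb_nat hK (p + 1)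
  have one : ∀ K : ℝ, 2 ≤ K → WgNB K 1 0 := fun K hK => wgnb_num hK 1 0 (by norm_num) (by norm_num)
  have num : ∀ (K : ℝ) (_ : 2 ≤ K) (x : ℝ) (e : ℕ), 0 ≤ x → x ≤ 2 ^ e → WgNB K x e := fun K hK x e => wgnb_num hK x e
  -- the polynomial bounds; all exponents depend on `p` only
  obtain ⟨eT, hTB⟩ : ∃ e : ℕ, ∀ K : ℝ, 2 ≤ K → WgNB K (K ^ 2 * (N + 1) * 2 ^ (p + 1 + 4)) e :=
    ⟨_, fun K hK => wgnb_mul (wgnb_mul (wgnb_Kpow hK 2) (wgnb_add hK (hNB K hK) (one K hK))) (num K hK _ (p + 1 + 4) (by positivity) le_rfl)⟩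
  obtain ⟨s, hs⟩ : ∃ e : ℕ, ∀ K Dr : ℝ, 2 ≤ K → 0 ≤ Dr → Dr ≤ K →
      WgNB K (N * Dr * (147 * Dr ^ 2 + 1) * 2 ^ (p + 1) * (K ^ 2 * (N + 1) * 2 ^ (p + 1 + 4)) * 8) e :=
    ⟨_, fun K Dr hK h0 hD =>
      have hDr : WgNB K Dr 1 := wgnb_le h0 hD (wgnb_K hK)
      wgnb_mul (wgnb_mul (wgnb_mul (wgnb_mul (wgnb_mul (hNB K hK) hDr)
        (wgnb_add hK (wgnb_mul (num K hK 147 8 (by norm_num) (by norm_num)) (wgnb_pow hDr 2)) (one K hK)))
        (num K hK _ (p + 1) (by positivity) le_rfl)) (hTB K hK)) (num K hK 8 3 (by norm_num) (by norm_num))⟩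
  obtain ⟨a, ha⟩ : ∃ e : ℕ, ∀ K Dr r0 : ℝ, 2 ≤ K → 0 ≤ Dr → Dr ≤ K → 0 ≤ r0 → r0 ≤ K →
      WgNB K (K * (N + 1) * 16 * (K ^ 2 * (N + 1) * 2 ^ (p + 1 + 4)) * K * (Dr * (2 * (2 * r0 * (1 + K))) ^ p * (245 * Dr ^ 2 + 1)) * 6
        * (2 * r0 * (1 + K)) * K * (2 * K)) e :=
    ⟨_, fun K Dr r0 hK h0 hD hr0 hr =>
      have hDr : WgNB K Dr 1 := wgnb_le h0 hD (wgnb_K hK)
      have hr' : WgNB K r0 1 := wgnb_le hr0 hr (wgnb_K hK)
      have two : WgNB K 2 1 := num K hK 2 1 (by norm_num) (by norm_num)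
      have hDd : WgNB K (2 * r0 * (1 + K)) _ := wgnb_mul (wgnb_mul two hr') (wgnb_add hK (one K hK) (wgnb_K hK))
      wgnb_mul (wgnb_mul (wgnb_mul (wgnb_mul (wgnb_mul (wgnb_mul (wgnb_mul (wgnb_mul
        (wgnb_mul (wgnb_K hK) (wgnb_add hK (hNB K hK) (one K hK))) (num K hK 16 4 (by norm_num) (by norm_num))) (hTB K hK)) (wgnb_K hK))
        (wgnb_mul (wgnb_mul hDr (wgnb_pow (wgnb_mul two hDd) p))
          (wgnb_add hK (wgnb_mul (num K hK 245 8 (by norm_num) (by norm_num)) (wgnb_pow hDr 2)) (one K hK))))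
        (num K hK 6 3 (by norm_num) (by norm_num))) hDd) (wgnb_K hK)) (wgnb_mul two (wgnb_K hK))⟩
  obtain ⟨b0, hb0⟩ : ∃ e : ℕ, ∀ K Dr : ℝ, 2 ≤ K → 0 ≤ Dr → Dr ≤ K →
      WgNB K (K * (N + 1) * 8 * (K ^ 2 * (N + 1) * 2 ^ (p + 1 + 4)) * K * Dr * N * (N * 2 ^ (p + 1 + 1)) ^ (p + 1) * (2 * (K + 1 + N)) ^ p
        * (49 * Dr ^ 2 * (N + N ^ 2 + 2)) * 2 * K * (2 * K)) e :=
    ⟨_, fun K Dr hK h0 hD =>
      have hDr : WgNB K Dr 1 := wgnb_le h0 hD (wgnb_K hK)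
      have two : WgNB K 2 1 := num K hK 2 1 (by norm_num) (by norm_num)
      wgnb_mul (wgnb_mul (wgnb_mul (wgnb_mul (wgnb_mul (wgnb_mul (wgnb_mul (wgnb_mul (wgnb_mul (wgnb_mul (wgnb_mul
        (wgnb_mul (wgnb_K hK) (wgnb_add hK (hNB K hK) (one K hK))) (num K hK 8 3 (by norm_num) (by norm_num))) (hTB K hK)) (wgnb_K hK)) hDr)
        (hNB K hK)) (wgnb_pow (wgnb_mul (hNB K hK) (num K hK _ (p + 1 + 1) (by positivity) le_rfl)) (p + 1)))
        (wgnb_pow (wgnb_mul two (wgnb_add hK (wgnb_add hK (wgnb_K hK) (one K hK)) (hNB K hK))) p))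
        (wgnb_mul (wgnb_mul (num K hK 49 6 (by norm_num) (by norm_num)) (wgnb_pow hDr 2))
          (wgnb_add hK (wgnb_add hK (hNB K hK) (wgnb_pow (hNB K hK) 2)) two))) two) (wgnb_K hK)) (wgnb_mul two (wgnb_K hK))⟩
  obtain ⟨e3, h3⟩ : ∃ e : ℕ, ∀ K : ℝ, 2 ≤ K → WgNB K (3 * K * (1 + N * K ^ s) ^ 2 * K ^ a) e :=
    ⟨_, fun K hK => wgnb_mul (wgnb_mul (wgnb_mul (num K hK 3 2 (by norm_num) (by norm_num)) (wgnb_K hK))
      (wgnb_pow (wgnb_add hK (one K hK) (wgnb_mul (hNB K hK) (wgnb_Kpow hK s))) 2)) (wgnb_Kpow hK a)⟩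
  obtain ⟨e6, h6⟩ : ∃ e : ℕ, ∀ K Dr : ℝ, 2 ≤ K → 0 ≤ Dr → Dr ≤ K →
      WgNB K (K * (N + 1) * (2 * Dr * (2 * (K + 1) * K ^ (b0 + a) + 3) ^ (p + 1))) e :=
    ⟨_, fun K Dr hK h0 hD =>
      have hDr : WgNB K Dr 1 := wgnb_le h0 hD (wgnb_K hK)
      have two : WgNB K 2 1 := num K hK 2 1 (by norm_num) (by norm_num)
      wgnb_mul (wgnb_mul (wgnb_K hK) (wgnb_add hK (hNB K hK) (one K hK))) (wgnb_mul (wgnb_mul two hDr)
        (wgnb_pow (wgnb_add hK (wgnb_mul (wgnb_mul two (wgnb_add hK (wgnb_K hK) (one K hK))) (wgnb_Kpow hK (b0 + a)))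
          (num K hK 3 2 (by norm_num) (by norm_num))) (p + 1)))⟩
  obtain ⟨e7, h7⟩ : ∃ e : ℕ, ∀ K : ℝ, 2 ≤ K → WgNB K (6 * N ^ 2 * (3 * K * (1 + N * K ^ s) ^ 2) + K * (1 + N * K ^ s)) e :=
    ⟨_, fun K hK =>
      have hS : WgNB K (1 + N * K ^ s) _ := wgnb_add hK (one K hK) (wgnb_mul (hNB K hK) (wgnb_Kpow hK s))
      wgnb_add hK (wgnb_mul (wgnb_mul (num K hK 6 3 (by norm_num) (by norm_num)) (wgnb_pow (hNB K hK) 2))
        (wgnb_mul (wgnb_mul (num K hK 3 2 (by norm_num) (by norm_num)) (wgnb_K hK)) (wgnb_pow hS 2))) (wgnb_mul (wgnb_K hK) hS)⟩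
  refine ⟨e3 + e6 + e7 + 1, fun K L r0 D hK hL hr1 hrK hD1 hDK => ?_⟩
  have hK0 : 0 < K := by linarith
  have hK1 : 1 ≤ K := by linarith
  have hr0 : 0 < r0 := by linarith
  have hD0 : (0 : ℝ) ≤ D := Nat.cast_nonneg D
  have hN0 : 0 < N := by linarith
  have mono : ∀ e : ℕ, e ≤ e3 + e6 + e7 + 1 → K ^ e ≤ K ^ (e3 + e6 + e7 + 1) := fun e he => pow_le_pow_right₀ hK1 he
  have hKL : K ≤ L := by
    calc K = K ^ 1 := (pow_one K).symm
      _ ≤ K ^ (e3 + e6 + e7 + 1) := mono 1 (by omega)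
      _ ≤ L := hL
  have hL0 : 0 < L := by linarith
  have hT0 : 0 < K ^ 2 * (N + 1) * 2 ^ (p + 1 + 4) := by positivity
  have hab : K ^ a ≤ K ^ (b0 + a) := pow_le_pow_right₀ hK1 (by omega)
  refine ⟨K ^ s, K ^ a / L, (K ^ a / L) ^ 2, 3 * K * (1 + N * K ^ s) ^ 2 * (K ^ a / L) ^ 2, 2 * r0 * (1 + K), L / K ^ (b0 + a),
    1 / (N * 2 ^ (p + 1 + 1)), by positivity, by positivity, by positivity, by positivity, by positivity, ?_, ?_, ?_, rfl, ?_, ?_, ?_, ?_⟩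
  · exact wgn_g1 p hr0 (by positivity) hT0 (hs K D hK hD0 hDK).2
  · rw [one_div_one_div]
    exact le_of_eq (by ring)
  · exact wgn_g3 hL0 (((h3 K hK).2.trans (mono e3 (by omega))).trans hL)
  · exact le_of_eq (by field_simp)
  · exact wgn_g6 (p + 1) hK0 hL0 hr0.le hN0.le hD0 (by positivity) (hrK.trans hKL) ((h6 K D hK hD0 hDK).2.trans (mono e6 (by omega)))
  · exact wgn_g7 hK0 hL0 hN0.le (by positivity) (by positivity) hab hrK ((h7 K hK).2.trans (mono e7 (by omega)))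
  · intro W m hW hWm hLm
    have hm : 0 < m := lt_of_lt_of_le (by positivity) hLm
    have hc49 : ((49 * D ^ 2 * (p + 1 + (p + 1) ^ 2 + 2) : ℕ) : ℝ) = 49 * (D : ℝ) ^ 2 * (N + N ^ 2 + 2) := by
      rw [hNdef]; push_cast; ring
    have hE : (1 / (1 / (N * 2 ^ (p + 1 + 1)))) ^ (p + 1) = (N * 2 ^ (p + 1 + 1)) ^ (p + 1) := by rw [one_div_one_div]
    have t1 := wgn_t1 (K := K) (L := L) (W := W) (m := m) (Rn := r0 ^ (p + 1)) (T := K ^ 2 * (N + 1) * 2 ^ (p + 1 + 4))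
      (B := D * (2 * (2 * r0 * (1 + K))) ^ p * (245 * (D : ℝ) ^ 2 + 1)) (Dd := 2 * r0 * (1 + K)) (Ka := K ^ a) (G := K * (N + 1))
      hK0 hL0 hW hm (by positivity) hT0 (by positivity) (by nlinarith) (by positivity) (by positivity) hWm (ha K D r0 hK hD0 hDK hr0.le hrK).2
    have t2 := wgn_t2 (K := K) (L := L) (m := m) (Rn := r0 ^ (p + 1)) (T := K ^ 2 * (N + 1) * 2 ^ (p + 1 + 4)) (Dr := D) (N := N)
      (E := (N * 2 ^ (p + 1 + 1)) ^ (p + 1)) (r0 := r0) (Kb := K ^ (b0 + a)) (c49 := 49 * (D : ℝ) ^ 2 * (N + N ^ 2 + 2)) (G := K * (N + 1)) p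
      hK0 hL0 (by positivity) hT0 hD0 hN0.le (by positivity) hr0.le (one_le_pow₀ hK1) (by positivity) (by positivity) (hrK.trans hKL) hLm
      ((hb0 K D hK hD0 hDK).2.trans (pow_le_pow_right₀ hK1 (by omega)))
    rw [hc49, hE]
    calc _ = K * (N + 1) * (16 / (W * (r0 ^ (p + 1) / (K ^ 2 * (N + 1) * 2 ^ (p + 1 + 4)))) * (K * r0 ^ (p + 1) *
            (D * (2 * (2 * r0 * (1 + K))) ^ p * (245 * (D : ℝ) ^ 2 + 1) *
              (2 * (2 * r0 * (1 + K)) / (K ^ a / L) + 4 * Real.sqrt (2 * r0 * (1 + K) / (K ^ a / L) ^ 2)))))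
          + K * (N + 1) * (8 / (r0 ^ (p + 1) / (K ^ 2 * (N + 1) * 2 ^ (p + 1 + 4))) * (K * r0 ^ (p + 1) * (D * (N * (N * 2 ^ (p + 1 + 1)) ^ (p + 1) *
            ((2 * (K * L + r0 + N * (L / K ^ (b0 + a)))) ^ p * (49 * (D : ℝ) ^ 2 * (N + N ^ 2 + 2) * (2 * (L / K ^ (b0 + a))))))))) := by ring
      _ ≤ m / (2 * K) + m / (2 * K) := add_le_add t1 t2
      _ = m / K := by field_simp; ring

theorem wg_half_volume {E : Type*} [MeasurableSpace E] (μ : Measure E) (A A' X : Set E) (x : ℝ) (hx : 0 ≤ x)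
    (hsub : A ⊆ A' ∪ X) (hA : ENNReal.ofReal x ≤ μ A) (hX : μ X ≤ ENNReal.ofReal (x / 2)) :
    ENNReal.ofReal (x / 2) ≤ μ A' := by
  have h1 : ENNReal.ofReal x ≤ μ A' + ENNReal.ofReal (x / 2) :=
    hA.trans ((measure_mono hsub).trans ((measure_union_le _ _).trans (add_le_add le_rfl hX)))
  have h2 : ENNReal.ofReal x = ENNReal.ofReal (x / 2) + ENNReal.ofReal (x / 2) := by
    rw [← ENNReal.ofReal_add (by positivity) (by positivity)]
    congr 1; ring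
  rw [h2] at h1
  exact (ENNReal.add_le_add_iff_right ENNReal.ofReal_ne_top).1 h1

/-- **THE CONTRACT (LEAF L-WG-MAIN = assembly).**
`C` from `wg_numerics`; `D = ⌊K⌋₊`; parameters from `wg_numerics`.  For every `i : Fin J`: bad levels = `⋃_j {c | wgRR (rename π_j.symm (P i) - C c) (wgTall ..) = 0}` (finite: `wg_generic_RR`; `rename` commutes with `- C c`; `wgTall_sub_C`);
`wg_level` with `f = eval · (P i)`, `Λ = K L + r0`, `η = r0^(n+1)/(2K)` gives `c_i`; `P̃ i = P i - C c_i` has both signs on `≥ r0^(n+1)/(2K)` of `closedBall y r0` whenever `P i` has them on `≥ r0^(n+1)/K`.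
`Y_{i,j}` = points of `Y` for which `wg_poincare` (for `P̃ i`) yields the axis `j`; `k α` from `hv2 α j` (`Fin.exists_succAbove_eq`).   `wg_axis_perm` for every `(i,j)`; `Pl = ⋃ Pl_{i,j}`, `Z = ⋃ Z_{i,j}`; `J (n+1)` pairs, `J ≤ K`; `‖π.1‖ ≥ |π.1 j| = 1`; convert `ν Y` to a real `m` (`IsFiniteMeasure`). -/
theorem wg_main (n : ℕ) (hn : 1 ≤ n) : ∃ C : ℕ, ∀ (K L : ℝ), 2 ≤ K → K ^ C ≤ L →
    ∀ (ν : Measure (Fin (n + 1) → ℝ)) [IsFiniteMeasure ν],
    (∀ (z : Fin (n + 1) → ℝ) (r : ℝ), 1 ≤ r → ν (closedBall z r) ≤ ENNReal.ofReal (K * r ^ n)) →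
    ∀ {ι β : Type} [Fintype ι] (w : ι → ℝ), (∀ α, 0 ≤ w α) → ∑ α, w α ≤ 1 →
    ∀ (a v : ι → Fin (n + 1) → ℝ), (∀ α, ‖v α‖ ≤ 1) → (∀ α j, ∃ k, k ≠ j ∧ 1 / K ≤ |v α k|) →
    ∀ (Y : Set (Fin (n + 1) → ℝ)), Y ⊆ closedBall 0 (K * L) → ENNReal.ofReal (L ^ n / K) ≤ ν Y →
    ∀ (W : ℝ), 0 < W → ENNReal.ofReal (L / K) ≤ ENNReal.ofReal W * ν Y →
    ∀ (r0 : ℝ), 1 ≤ r0 → r0 ≤ K →
    ∀ (cls : ι → β) (heavy : (Fin (n + 1) → ℝ) → Set β),
    (open Classical in ∀ y ∈ Y, ∀ b ∈ heavy y, W / 2 ≤ ∑ α, if cls α = b ∧ y ∈ MK.tube (a α) (v α) r0 then w α else 0) →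
    (∀ y ∈ Y, WgQX K {V | ∃ b ∈ heavy y, V = {u | ∃ α, cls α = b ∧ u = v α}}) →
    ∀ (J : ℕ) (P : Fin J → MvPolynomial (Fin (n + 1)) ℝ), (J : ℝ) ≤ K → (∀ i, ((P i).totalDegree : ℝ) ≤ K) →
    (∀ y ∈ Y, ∃ i, ENNReal.ofReal (r0 ^ (n + 1) / K) ≤ volume {x | x ∈ closedBall y r0 ∧ 0 < eval x (P i)} ∧
      ENNReal.ofReal (r0 ^ (n + 1) / K) ≤ volume {x | x ∈ closedBall y r0 ∧ eval x (P i) < 0}) →
    ∃ Pl : Finset ((Fin (n + 1) → ℝ) × ℝ), (Pl.card : ℝ) ≤ K ^ C ∧ (∀ π ∈ Pl, 1 ≤ ‖π.1‖) ∧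
      ∃ Z : Set (Fin (n + 1) → ℝ), ν Z ≤ ENNReal.ofReal (1 / K) * ν Y ∧
        ∀ y ∈ Y, y ∉ Z → ∃ π ∈ Pl, |∑ i, π.1 i * y i - π.2| ≤ K ^ C := by
  classical
  obtain ⟨C0, hC⟩ := wg_numerics n hn
  refine ⟨C0, ?_⟩
  intro K L hK hL ν _ hν ι β _ w hw0 hw1 a v hv1 hv2 Y hYbox hYmass W hW0 hW r0 hr1 hrK cls heavy H1 QX J P hJ hPdeg RW
  have hK0 : 0 < K := by linarith
  have hr0 : 0 < r0 := by linarith
  set D : ℕ := ⌊K⌋₊ with hDdef
  have hD1 : 1 ≤ D := Nat.le_floor (by norm_num; linarith)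
  have hDK : (D : ℝ) ≤ K := Nat.floor_le hK0.le
  obtain ⟨S, q1, q2, κ, Dd, ℓ, ε, hS, hq1, hq2, hℓ, hε0, hSθ, hDd, hsmall, hκ, hε, hcount, hthick, herr⟩ :=
    hC K L r0 D hK hL hr1 hrK hD1 hDK
  set θ : ℝ := r0 ^ n / (K ^ 2 * (n + 1) * 2 ^ (n + 4)) with hθdef
  have hθ : 0 < θ := by rw [hθdef]; positivity
  have hL0 : 0 < L := lt_of_lt_of_le (by positivity) hL
  -- the base coordinate of every label for every axis
  have hk : ∀ (α : ι) (j : Fin (n + 1)), ∃ k : Fin n, 1 / K ≤ |v α (j.succAbove k)| := by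
    intro α j
    obtain ⟨k', hk'j, hk'⟩ := hv2 α j
    obtain ⟨z, hz⟩ := Fin.exists_succAbove_eq hk'j
    exact ⟨z, by rw [hz]; exact hk'⟩
  choose kk hkk using hk
  -- generic small levels
  set Tt : Fin J → Fin (n + 1) → Finset (MvPolynomial (Fin (n + 1)) ℝ) := fun i j =>
    wgTall (rename (wgPerm j).symm (P i)) (fun α => a α ∘ wgPerm j) (fun α => v α ∘ wgPerm j) (fun α => kk α j)
      q1 q2 Dd S κ with hTt
  have hlev : ∀ i : Fin J, ∃ c : ℝ, 0 < c ∧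
      c ∉ (⋃ j : Fin (n + 1), {c : ℝ | wgRR (rename (wgPerm j).symm (P i) - C c) (Tt i j) = 0}) ∧
      volume {x | x ∈ closedBall (0 : Fin (n + 1) → ℝ) (K * L + r0) ∧ 0 < eval x (P i) ∧ eval x (P i) ≤ c}
        ≤ ENNReal.ofReal (r0 ^ (n + 1) / K / 2) := by
    intro i
    exact wg_level (fun x => eval x (P i)) (MvPolynomial.continuous_eval _) (K * L + r0) (r0 ^ (n + 1) / K / 2)
      (by positivity) _ (Set.finite_iUnion fun j => wg_generic_RR _ _)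
  choose cc hcc0 hccbad hccvol using hlev
  set Pt : Fin J → MvPolynomial (Fin (n + 1)) ℝ := fun i => P i - C (cc i) with hPt
  have hPtdeg : ∀ i, (Pt i).totalDegree ≤ D := by
    intro i
    refine (MvPolynomial.totalDegree_sub _ _).trans (max_le ?_ ?_)
    · exact Nat.le_floor (hPdeg i)
    · rw [MvPolynomial.totalDegree_C]; exact Nat.zero_le _
  set YY : Fin J × Fin (n + 1) → Set (Fin (n + 1) → ℝ) := fun ij =>
    {y | y ∈ Y ∧ ENNReal.ofReal θ ≤ volume {x : Fin n → ℝ | (∀ i', |x i' - y (ij.2.succAbove i')| ≤ r0) ∧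
      ∃ t : ℝ, |t - y ij.2| ≤ r0 ∧ eval (ij.2.insertNth t x : Fin (n + 1) → ℝ) (Pt ij.1) = 0}} with hYY
  have hcover : ∀ y ∈ Y, ∃ ij, y ∈ YY ij := by
    intro y hy
    obtain ⟨i, hpos, hneg⟩ := RW y hy
    have hyn : ‖y‖ ≤ K * L := by
      have := hYbox hy
      rwa [mem_closedBall_zero_iff] at this
    have hx0 : (0 : ℝ) ≤ r0 ^ (n + 1) / K := by positivity
    have hA : ENNReal.ofReal (r0 ^ (n + 1) / K / 2) ≤ volume {x | x ∈ closedBall y r0 ∧ 0 < eval x (Pt i)} := by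
      refine wg_half_volume volume _ _ _ _ hx0 ?_ hpos (hccvol i)
      intro x hx
      by_cases hxc : eval x (P i) ≤ cc i
      · right
        refine ⟨?_, hx.2, hxc⟩
        rw [mem_closedBall_zero_iff]
        have h1 : ‖x - y‖ ≤ r0 := by rw [← dist_eq_norm]; exact hx.1
        calc ‖x‖ = ‖y + (x - y)‖ := by congr 1; abel
          _ ≤ ‖y‖ + ‖x - y‖ := norm_add_le _ _
          _ ≤ K * L + r0 := add_le_add hyn h1
      · left
        refine ⟨hx.1, ?_⟩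
        simp only [hPt, map_sub, eval_C]
        linarith [not_le.1 hxc]
    have hB : ENNReal.ofReal (r0 ^ (n + 1) / K / 2) ≤ volume {x | x ∈ closedBall y r0 ∧ eval x (Pt i) < 0} := by
      refine (ENNReal.ofReal_le_ofReal (by linarith)).trans (hneg.trans (measure_mono ?_))
      intro x hx
      refine ⟨hx.1, ?_⟩
      simp only [hPt, map_sub, eval_C]
      linarith [hx.2, hcc0 i]
    obtain ⟨j, hj⟩ := wg_poincare (fun x => eval x (Pt i)) (MvPolynomial.continuous_eval _) y r0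
      (r0 ^ (n + 1) / K / 2) (r0 ^ (n + 1) / K / 2) hr0 (by positivity) (by positivity) hA hB
    refine ⟨(i, j), hy, ?_⟩
    have hθeq : r0 ^ (n + 1) / K / 2 * (r0 ^ (n + 1) / K / 2) / ((n + 1) * (2 * r0) ^ (n + 2)) = θ := by
      rw [hθdef]
      field_simp
      ring
    rw [hθeq] at hj
    exact hj
  -- one polynomial, one axis
  set t1 : ℝ := 16 / (W * θ) * (K * r0 ^ n *
      (D * ((2 * Dd) ^ (n - 1) * ((245 * D ^ 2 + 1) * (2 * Dd / q1 + 4 * Real.sqrt (Dd / q2)))))) with ht1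
  set t2 : ℝ := 8 / θ * (K * r0 ^ n * (D * (n * (1 / ε) ^ n *
      ((2 * (K * L + r0 + n * ℓ)) ^ (n - 1) * ((49 * D ^ 2 * (n + n ^ 2 + 2) : ℕ) * (2 * ℓ)))))) with ht2
  have key : ∀ ij : Fin J × Fin (n + 1), ∃ Pl : Finset ((Fin (n + 1) → ℝ) × ℝ),
      (Pl.card : ℝ) ≤ 2 * D * (2 * (K * L + r0) / ℓ + 3) ^ n ∧ (∀ π ∈ Pl, π.1 ij.2 = 1) ∧
      ∃ Z : Set (Fin (n + 1) → ℝ), (∀ y ∈ YY ij, y ∉ Z →
        ∃ π ∈ Pl, |∑ i, π.1 i * y i - π.2| ≤ 6 * n ^ 2 * κ * ℓ ^ 2 + r0 * (1 + n * S)) ∧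
      ν Z ≤ ENNReal.ofReal t1 + ENNReal.ofReal t2 := by
    rintro ⟨i, j⟩
    have hgen : wgRR (rename (wgPerm j).symm (Pt i)) (wgTall (rename (wgPerm j).symm (Pt i))
        (fun α => a α ∘ wgPerm j) (fun α => v α ∘ wgPerm j) (fun α => kk α j) q1 q2 Dd S κ) ≠ 0 := by
      have h1 : rename (wgPerm j).symm (Pt i) = rename (wgPerm j).symm (P i) - C (cc i) := by
        simp only [hPt, map_sub, rename_C]
      rw [h1, wgTall_sub_C]
      intro h0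
      exact hccbad i (Set.mem_iUnion.2 ⟨j, h0⟩)
    exact wg_axis_perm hn j (Pt i) _ rfl D hD1 (hPtdeg i) ν r0 (K * r0 ^ n) hr0 (by positivity)
      (fun p => hν p r0 hr1) w hw0 hw1 a v (fun α => kk α j) (1 / K) (by positivity) (fun α => hkk α j) hv1
      (YY (i, j)) (K * L) (by positivity) (fun y hy => hYbox hy.1) W r0 hW0 hr0.le cls heavy
      (fun y hy => H1 y hy.1) K hK0.le (fun y hy => QX y hy.1) θ hθ (fun y hy => hy.2)
      S q1 q2 κ Dd ℓ ε hS hq1 hq2 hℓ hε0 hSθ hDd hsmall hκ hε hgen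
  choose Plf hPlcard hPlone Zf hZcov hZmeas using key
  refine ⟨Finset.univ.biUnion Plf, ?_, ?_, ⋃ ij, Zf ij, ?_, ?_⟩
  · have h1 : ((Finset.univ.biUnion Plf).card : ℝ) ≤ ∑ ij : Fin J × Fin (n + 1), ((Plf ij).card : ℝ) := by
      exact_mod_cast Finset.card_biUnion_le
    have h2 : ∑ ij : Fin J × Fin (n + 1), ((Plf ij).card : ℝ)
        ≤ ∑ _ij : Fin J × Fin (n + 1), 2 * D * (2 * (K * L + r0) / ℓ + 3) ^ n :=
      Finset.sum_le_sum fun ij _ => hPlcard ij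
    rw [Finset.sum_const, Finset.card_univ, Fintype.card_prod, Fintype.card_fin, Fintype.card_fin, nsmul_eq_mul] at h2
    have h3 : ((J * (n + 1) : ℕ) : ℝ) ≤ K * (n + 1) := by
      push_cast
      exact mul_le_mul_of_nonneg_right hJ (by positivity)
    have h4 : (0 : ℝ) ≤ 2 * D * (2 * (K * L + r0) / ℓ + 3) ^ n := by positivity
    calc ((Finset.univ.biUnion Plf).card : ℝ) ≤ ((J * (n + 1) : ℕ) : ℝ) * (2 * D * (2 * (K * L + r0) / ℓ + 3) ^ n) :=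
          h1.trans h2
      _ ≤ K * (n + 1) * (2 * D * (2 * (K * L + r0) / ℓ + 3) ^ n) := mul_le_mul_of_nonneg_right h3 h4
      _ ≤ K ^ C0 := hcount
  · intro π hπ
    obtain ⟨ij, -, hij⟩ := Finset.mem_biUnion.1 hπ
    have h1 := norm_le_pi_norm π.1 ij.2
    rw [hPlone ij π hij] at h1
    simpa using h1
  · set m : ℝ := (ν Y).toReal with hm
    have hνY : ν Y = ENNReal.ofReal m := (ENNReal.ofReal_toReal (measure_ne_top ν Y)).symm
    have hm0 : 0 ≤ m := ENNReal.toReal_nonneg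
    have hWm : L / K ≤ W * m := by
      rw [hνY, ← ENNReal.ofReal_mul hW0.le] at hW
      exact (ENNReal.ofReal_le_ofReal_iff (by positivity)).1 hW
    have hLm : L ^ n / K ≤ m := by
      rw [hνY] at hYmass
      exact (ENNReal.ofReal_le_ofReal_iff hm0).1 hYmass
    have herr' := herr W m hW0 hWm hLm
    have hDd0 : 0 ≤ Dd := le_trans (by positivity) hDd
    have ht1' : 0 ≤ t1 := by rw [ht1]; positivity
    have ht2' : 0 ≤ t2 := by rw [ht2]; positivity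
    have h1 : ν (⋃ ij, Zf ij) ≤ ∑ ij : Fin J × Fin (n + 1), ν (Zf ij) := by
      have := measure_biUnion_finset_le (μ := ν) (Finset.univ : Finset (Fin J × Fin (n + 1))) Zf
      simpa using this
    have h2 : ∑ ij : Fin J × Fin (n + 1), ν (Zf ij) ≤ ∑ _ij : Fin J × Fin (n + 1), ENNReal.ofReal (t1 + t2) := by
      refine Finset.sum_le_sum fun ij _ => ?_
      rw [ENNReal.ofReal_add ht1' ht2']
      exact hZmeas ij
    rw [Finset.sum_const, Finset.card_univ, Fintype.card_prod, Fintype.card_fin, Fintype.card_fin, nsmul_eq_mul,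
      ← ENNReal.ofReal_natCast, ← ENNReal.ofReal_mul (Nat.cast_nonneg _)] at h2
    have h3 : ((J * (n + 1) : ℕ) : ℝ) ≤ K * (n + 1) := by
      push_cast
      exact mul_le_mul_of_nonneg_right hJ (by positivity)
    refine h1.trans (h2.trans ?_)
    rw [hνY, ← ENNReal.ofReal_mul (by positivity)]
    refine ENNReal.ofReal_le_ofReal ?_
    calc ((J * (n + 1) : ℕ) : ℝ) * (t1 + t2) ≤ K * (n + 1) * (t1 + t2) :=
          mul_le_mul_of_nonneg_right h3 (by positivity)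
      _ ≤ m / K := herr'
      _ = 1 / K * m := by ring
  · intro y hy hyZ
    obtain ⟨ij, hij⟩ := hcover y hy
    have hyZ' : y ∉ Zf ij := fun h => hyZ (Set.mem_iUnion.2 ⟨ij, h⟩)
    obtain ⟨π, hπ, hπy⟩ := hZcov ij y hij hyZ'
    exact ⟨π, Finset.mem_biUnion.2 ⟨ij, Finset.mem_univ _, hπ⟩, hπy.trans hthick⟩

end Claimed.Agent.R257
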