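import Mathlib

/-!
# ROW 257, WALL GEOMETRY (WG), file 1: the algebraic kit            (architect helper131)            CONTRACT
PAPER-FREE, Mathlib only.  Plan of the whole unit: `git show origin/helper131:notes/BOX257_WALL2.md` (report 896).
Every `sorry` is a leaf `L-WG-*`.  Statements are frozen; auxiliary lemmas directly above your theorem; edit only your block.

Ambient space `Fin (n+1) → ℝ`, coordinate `0` is VERTICAL, the base is `Fin n → ℝ`; a point is `Fin.cons t x`.
* `wgV P x`   : the one-variable polynomial `t ↦ P (t, x)`.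
* `wgRes P G` : resultant of `P, G` in the vertical variable, an element of `ℝ[x]` (`1` if `G = 0`).
* `wgRR P T`  : the CRITICAL POLYNOMIAL of the base: leading coefficient * discriminant-resultant * all `wgRes P G`, `G ∈ T`.
Off `{wgRR = 0}` the wall `{P = 0}` is a finite cover of the base with simple roots on which no test `G ∈ T` vanishes.
`wg_generic_RR`: replacing `P` by `P - c` makes `wgRR ≠ 0` for all but finitely many levels `c` (no squarefree part, no UFD).
-/

set_option autoImplicit false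
open MvPolynomial

namespace Claimed.Agent.R257

/-- the vertical restriction `t ↦ P (t, x)` -/
noncomputable def wgV {n : ℕ} (P : MvPolynomial (Fin (n + 1)) ℝ) (x : Fin n → ℝ) : Polynomial ℝ :=
  (finSuccEquiv ℝ n P).map (eval x)

theorem wgV_eval {n : ℕ} (P : MvPolynomial (Fin (n + 1)) ℝ) (x : Fin n → ℝ) (t : ℝ) :
    (wgV P x).eval t = eval (Fin.cons t x : Fin (n + 1) → ℝ) P :=
  (eval_eq_eval_mv_eval' x t P).symm

open Classical in
/-- resultant in the vertical variable (formal degrees = degrees over `ℝ[x]`); `1` for the zero test -/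
noncomputable def wgRes {n : ℕ} (P G : MvPolynomial (Fin (n + 1)) ℝ) : MvPolynomial (Fin n) ℝ :=
  if G = 0 then 1 else Polynomial.resultant (finSuccEquiv ℝ n P) (finSuccEquiv ℝ n G)

/-- the critical polynomial of the base -/
noncomputable def wgRR {n : ℕ} (P : MvPolynomial (Fin (n + 1)) ℝ) (T : Finset (MvPolynomial (Fin (n + 1)) ℝ)) :
    MvPolynomial (Fin n) ℝ :=
  (finSuccEquiv ℝ n P).leadingCoeff * wgRes P (pderiv 0 P) * ∏ G ∈ T, wgRes P G

/-- degree of a determinant with polynomial entries -/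
theorem wg_det_totalDegree_le {n N : ℕ} (M : Matrix (Fin N) (Fin N) (MvPolynomial (Fin n) ℝ)) (d : ℕ)
    (hM : ∀ i j, (M i j).totalDegree ≤ d) : M.det.totalDegree ≤ N * d := by
  rw [Matrix.det_apply]
  refine (totalDegree_finsetSum _ _).trans (Finset.sup_le fun σ _ => ?_)
  have h1 : (∏ i, M (σ i) i).totalDegree ≤ N * d := by
    refine (totalDegree_finsetProd _ _).trans ?_
    refine (Finset.sum_le_card_nsmul _ _ d fun i _ => hM _ _).trans ?_
    simp
  rcases Int.units_eq_one_or (Equiv.Perm.sign σ) with h | h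
  · rw [h, one_smul]; exact h1
  · rw [h, Units.neg_smul, one_smul, totalDegree_neg]; exact h1

theorem wg_coeff_totalDegree_le {n : ℕ} (P : MvPolynomial (Fin (n + 1)) ℝ) (i : ℕ) :
    ((finSuccEquiv ℝ n P).coeff i).totalDegree ≤ P.totalDegree := by
  by_cases h : (finSuccEquiv ℝ n P).coeff i = 0
  · rw [h, totalDegree_zero]; exact Nat.zero_le _
  · exact (Nat.le_add_right _ _).trans (totalDegree_coeff_finSuccEquiv_add_le P i h)

theorem wg_natDegree_le {n : ℕ} (P : MvPolynomial (Fin (n + 1)) ℝ) : (finSuccEquiv ℝ n P).natDegree ≤ P.totalDegree := by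
  rw [natDegree_finSuccEquiv]
  exact degreeOf_le_totalDegree _ _

/-- **LEAF L-WG-ALG1.**  `resultant = det (sylvester ..)`, `Matrix.det_apply`, `totalDegree_finset_sum`, `totalDegree_finset_prod`, `totalDegree_smul_le`; every entry is `0` or a coefficient of `finSuccEquiv P` / `finSuccEquiv G`
(`totalDegree_coeff_finSuccEquiv_add_le`), the size is `natDegree + natDegree ≤ D + D'` (`natDegree_finSuccEquiv`, `degreeOf_le_totalDegree`). -/
theorem wgRes_totalDegree_le {n : ℕ} (P G : MvPolynomial (Fin (n + 1)) ℝ) (D D' : ℕ) (hP : P.totalDegree ≤ D)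
    (hG : G.totalDegree ≤ D') : (wgRes P G).totalDegree ≤ (D + D') * (D + D') := by
  unfold wgRes
  split_ifs with h
  · simp
  · unfold Polynomial.resultant
    refine (wg_det_totalDegree_le _ (D + D') fun i j => ?_).trans
      (Nat.mul_le_mul_right _ (add_le_add ((wg_natDegree_le P).trans hP) ((wg_natDegree_le G).trans hG)))
    induction j using Fin.addCases with
    | left j =>
      simp only [Polynomial.sylvester, Matrix.of_apply, Fin.addCases_left]
      split_ifs
      · exact ((wg_coeff_totalDegree_le G _).trans hG).trans (Nat.le_add_left _ _)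
      · simp
    | right j =>
      simp only [Polynomial.sylvester, Matrix.of_apply, Fin.addCases_right]
      split_ifs
      · exact ((wg_coeff_totalDegree_le P _).trans hP).trans (Nat.le_add_right _ _)
      · simp

theorem wg_totalDegree_pderiv_le {σ : Type} (i : σ) (P : MvPolynomial σ ℝ) : (pderiv i P).totalDegree ≤ P.totalDegree := by
  classical
  conv_lhs => rw [P.as_sum, map_sum]
  refine (totalDegree_finsetSum _ _).trans (Finset.sup_le fun s hs => ?_)
  rw [pderiv_monomial]
  refine (totalDegree_monomial_le _ _).trans ?_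
  refine le_trans ?_ (le_totalDegree hs)
  exact Finsupp.degree_mono (tsub_le_self)

/-- **LEAF L-WG-ALG2.**  `totalDegree_mul`, `totalDegree_finset_prod`, `wgRes_totalDegree_le` with `D' = 6 D` (also for `pderiv 0 P`: `totalDegree_pderiv_le`/by hand `≤ D ≤ 6 D`), leading coefficient: `totalDegree_coeff_finSuccEquiv_add_le`. -/
theorem wgRR_totalDegree_le {n : ℕ} (P : MvPolynomial (Fin (n + 1)) ℝ) (T : Finset (MvPolynomial (Fin (n + 1)) ℝ)) (D : ℕ)
    (hP : P.totalDegree ≤ D) (hT : ∀ G ∈ T, G.totalDegree ≤ 6 * D) :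
    (wgRR P T).totalDegree ≤ 49 * D ^ 2 * (T.card + 2) := by
  unfold wgRR
  have h1 : (finSuccEquiv ℝ n P).leadingCoeff.totalDegree ≤ D := (wg_coeff_totalDegree_le P _).trans hP
  have h2 : (wgRes P (pderiv 0 P)).totalDegree ≤ (D + 6 * D) * (D + 6 * D) :=
    wgRes_totalDegree_le P _ D (6 * D) hP (((wg_totalDegree_pderiv_le 0 P).trans hP).trans (by omega))
  have h3 : (∏ G ∈ T, wgRes P G).totalDegree ≤ T.card * ((D + 6 * D) * (D + 6 * D)) := by
    refine (totalDegree_finsetProd _ _).trans ?_
    refine (Finset.sum_le_card_nsmul _ _ _ fun G hG => wgRes_totalDegree_le P G D (6 * D) hP (hT G hG)).trans ?_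
    simp
  refine (totalDegree_mul _ _).trans ?_
  have h4 := totalDegree_mul (finSuccEquiv ℝ n P).leadingCoeff (wgRes P (pderiv 0 P))
  have h5 : D ≤ D ^ 2 := by nlinarith [Nat.zero_le D]
  nlinarith

theorem wgRR_ne_zero_mono {n : ℕ} (P : MvPolynomial (Fin (n + 1)) ℝ) {T T' : Finset (MvPolynomial (Fin (n + 1)) ℝ)}
    (hTT : T ⊆ T') (h : wgRR P T' ≠ 0) : wgRR P T ≠ 0 := by
  classical
  unfold wgRR at h ⊢
  rw [← Finset.prod_sdiff hTT] at h
  intro h0
  apply h
  have : (finSuccEquiv ℝ n P).leadingCoeff * wgRes P (pderiv 0 P) * ((∏ G ∈ T' \ T, wgRes P G) * ∏ G ∈ T, wgRes P G)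
      = (∏ G ∈ T' \ T, wgRes P G) * ((finSuccEquiv ℝ n P).leadingCoeff * wgRes P (pderiv 0 P) * ∏ G ∈ T, wgRes P G) := by
    ring
  rw [this, h0, mul_zero]

theorem wgRR_eval_mono {n : ℕ} (P : MvPolynomial (Fin (n + 1)) ℝ) {T T' : Finset (MvPolynomial (Fin (n + 1)) ℝ)}
    (hTT : T ⊆ T') (x : Fin n → ℝ) (h : eval x (wgRR P T') ≠ 0) : eval x (wgRR P T) ≠ 0 := by
  classical
  unfold wgRR at h ⊢
  rw [← Finset.prod_sdiff hTT] at h
  intro h0
  apply h
  have : (finSuccEquiv ℝ n P).leadingCoeff * wgRes P (pderiv 0 P) * ((∏ G ∈ T' \ T, wgRes P G) * ∏ G ∈ T, wgRes P G)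
      = (∏ G ∈ T' \ T, wgRes P G) * ((finSuccEquiv ℝ n P).leadingCoeff * wgRes P (pderiv 0 P) * ∏ G ∈ T, wgRes P G) := by
    ring
  rw [this, map_mul, h0, mul_zero]

/-- the vertical partial derivative is the derivative in the vertical variable -/
theorem wg_finSuccEquiv_pderiv {n : ℕ} (P : MvPolynomial (Fin (n + 1)) ℝ) :
    finSuccEquiv ℝ n (pderiv 0 P) = Polynomial.derivative (finSuccEquiv ℝ n P) := by
  induction P using MvPolynomial.induction_on with
  | C a => simp [finSuccEquiv_apply]
  | add p q hp hq => simp only [map_add, hp, hq]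
  | mul_X p j hp =>
    rw [Derivation.leibniz, smul_eq_mul, smul_eq_mul, map_add, map_mul, map_mul, map_mul, hp, Polynomial.derivative_mul]
    induction j using Fin.cases with
    | zero => rw [pderiv_X_self, finSuccEquiv_X_zero, Polynomial.derivative_X, map_one]; ring
    | succ k =>
      rw [pderiv_X_of_ne (Fin.succ_ne_zero k), finSuccEquiv_X_succ, Polynomial.derivative_C, map_zero]; ring

/-- one test: the resultant does not vanish at `x`, the leading coefficient neither: no common zero on the vertical line -/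
theorem wg_res_spec {n : ℕ} (P G : MvPolynomial (Fin (n + 1)) ℝ) (x : Fin n → ℝ)
    (hlc : eval x (finSuccEquiv ℝ n P).leadingCoeff ≠ 0) (hG : G ≠ 0) (h : eval x (wgRes P G) ≠ 0) (t : ℝ)
    (h0 : eval (Fin.cons t x : Fin (n + 1) → ℝ) P = 0) : eval (Fin.cons t x : Fin (n + 1) → ℝ) G ≠ 0 := by
  intro hG0
  rw [wgRes, if_neg hG] at h
  by_cases hm : (finSuccEquiv ℝ n P).natDegree = 0
  · -- constant in the vertical variable
    rw [Polynomial.leadingCoeff, hm] at hlc
    apply hlc
    rw [← wgV_eval, wgV, Polynomial.eq_C_of_natDegree_eq_zero hm] at h0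
    simpa using h0
  · obtain ⟨p, q, -, -, e⟩ := Polynomial.exists_mul_add_mul_eq_C_resultant (finSuccEquiv ℝ n P) (finSuccEquiv ℝ n G) le_rfl le_rfl (Or.inl hm)
    apply h
    have e2 := congrArg (fun r => (r.map (eval x)).eval t) e
    simp only [Polynomial.map_add, Polynomial.map_mul, Polynomial.eval_add, Polynomial.eval_mul, Polynomial.map_C, Polynomial.eval_C] at e2
    have a1 : ((finSuccEquiv ℝ n P).map (eval x)).eval t = 0 := by rw [← h0, ← wgV_eval, wgV]
    have a2 : ((finSuccEquiv ℝ n G).map (eval x)).eval t = 0 := by rw [← hG0, ← wgV_eval, wgV]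
    rw [a1, a2] at e2
    simpa using e2.symm

/-- **LEAF L-WG-ALG3 (specialisation).**  `eval x (leadingCoeff) ≠ 0` gives (1),(2) (`Polynomial.natDegree_map_of_leadingCoeff_ne_zero`).
(3),(4): let `f = finSuccEquiv P`, `g = finSuccEquiv G`, `m, k` their natDegrees.  If `m = 0` then `wgV P x` is the nonzero constant `eval x lc`: no root.  Otherwise `Polynomial.exists_mul_add_mul_eq_C_resultant f g le_rfl le_rfl (Or.inl hm)`:
`f * p + g * q = C (resultant f g)`; map by `eval x`, evaluate at `t` (`wgV_eval`): `0 + 0 = eval x (resultant f g) ≠ 0`.  For (3): `finSuccEquiv (pderiv 0 P) = derivative (finSuccEquiv P)` (`MvPolynomial.finSuccEquiv`-lemma `finSuccEquiv_pderiv`? else prove by `induction_on`);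
only `eval (cons t x) (pderiv 0 P)` is needed, so (3) is (4) for `G = pderiv 0 P` (which is `≠ 0` when `m ≠ 0`; if it is `0`, then `m = 0`). -/
theorem wgRR_spec {n : ℕ} (P : MvPolynomial (Fin (n + 1)) ℝ) (T : Finset (MvPolynomial (Fin (n + 1)) ℝ)) (x : Fin n → ℝ)
    (h : eval x (wgRR P T) ≠ 0) :
    wgV P x ≠ 0 ∧ (wgV P x).natDegree = (finSuccEquiv ℝ n P).natDegree ∧
      (∀ t : ℝ, eval (Fin.cons t x : Fin (n + 1) → ℝ) P = 0 → eval (Fin.cons t x : Fin (n + 1) → ℝ) (pderiv 0 P) ≠ 0) ∧
      (∀ G ∈ T, G ≠ 0 → ∀ t : ℝ, eval (Fin.cons t x : Fin (n + 1) → ℝ) P = 0 →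
        eval (Fin.cons t x : Fin (n + 1) → ℝ) G ≠ 0) := by
  unfold wgRR at h
  rw [map_mul, map_mul, map_prod] at h
  have hlc : eval x (finSuccEquiv ℝ n P).leadingCoeff ≠ 0 := fun h0 => h (by rw [h0]; ring)
  have hd : eval x (wgRes P (pderiv 0 P)) ≠ 0 := fun h0 => h (by rw [h0]; ring)
  have hT : ∀ G ∈ T, eval x (wgRes P G) ≠ 0 := by
    intro G hG h0
    apply h
    rw [Finset.prod_eq_zero hG h0, mul_zero]
  have hdeg : (wgV P x).natDegree = (finSuccEquiv ℝ n P).natDegree := Polynomial.natDegree_map_of_leadingCoeff_ne_zero _ hlc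
  have hne : wgV P x ≠ 0 := by
    intro h0
    apply hlc
    have : (wgV P x).coeff (finSuccEquiv ℝ n P).natDegree = 0 := by rw [h0]; simp
    rwa [wgV, Polynomial.coeff_map] at this
  refine ⟨hne, hdeg, fun t ht => ?_, fun G hG hG0 t ht => wg_res_spec P G x hlc hG0 (hT G hG) t ht⟩
  by_cases hp : pderiv 0 P = 0
  · exfalso
    have h1 : Polynomial.derivative (finSuccEquiv ℝ n P) = 0 := by rw [← wg_finSuccEquiv_pderiv, hp, map_zero]
    have hm : (finSuccEquiv ℝ n P).natDegree = 0 := Polynomial.derivative_eq_zero.1 h1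
    rw [Polynomial.leadingCoeff, hm] at hlc
    apply hlc
    rw [← wgV_eval, wgV, Polynomial.eq_C_of_natDegree_eq_zero hm] at ht
    simpa using ht
  · exact wg_res_spec P _ x hlc hp hd t ht

/-- **LEAF L-WG-ALG4 (one variable).**  `h_c = gcd (f - C c) g` (`EuclideanDomain.gcd`); for `c ≠ c'` the polynomials `f - C c`, `f - C c'` are coprime (their difference is a unit), hence so are `h_c, h_c'`;
all `h_c` divide `g ≠ 0`, so `∏_{c ∈ s} h_c ∣ g` (`Finset.prod_dvd_of_coprime`) and `∑_{c ∈ s} natDegree h_c ≤ natDegree g`; not coprime means `natDegree h_c ≥ 1`.  So every finite set of bad `c` has `≤ natDegree g` elements (`Set.finite_of_forall_card_le`-type argument / `Set.Finite` via `Set.infinite` + `exists_subset_card_eq`). -/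
theorem wg_coprime_level (f g : Polynomial ℝ) (hg : g ≠ 0) : {c : ℝ | ¬ IsCoprime (f - Polynomial.C c) g}.Finite := by
  classical
  have hfin : ((fun a : ℂ => Polynomial.aeval a f) '' {a : ℂ | a ∈ g.aroots ℂ}).Finite :=
    Set.Finite.image _ (Multiset.finite_toSet _)
  refine Set.Finite.subset (hfin.preimage (Complex.ofReal_injective.injOn)) ?_
  intro c hc
  rw [Set.mem_ofPred_eq, Polynomial.isCoprime_iff_aeval_ne_zero_of_isAlgClosed ℝ ℂ] at hc
  push Not at hc
  obtain ⟨a, h1, h2⟩ := hc
  refine ⟨a, ?_, ?_⟩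
  · rw [Set.mem_ofPred_eq, Polynomial.mem_aroots]
    exact ⟨hg, h2⟩
  · simp only [map_sub, Polynomial.aeval_C, sub_eq_zero] at h1
    simpa using h1

theorem wg_finSuccEquiv_sub_C {n : ℕ} (P : MvPolynomial (Fin (n + 1)) ℝ) (c : ℝ) :
    finSuccEquiv ℝ n (P - C c) = finSuccEquiv ℝ n P - Polynomial.C (C c) := by
  rw [map_sub]
  congr 1
  simp [finSuccEquiv_apply]

theorem wg_exists_eval_ne_zero {n : ℕ} {Q : MvPolynomial (Fin n) ℝ} (hQ : Q ≠ 0) : ∃ x : Fin n → ℝ, eval x Q ≠ 0 := by
  by_contra hcon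
  push Not at hcon
  exact hQ (MvPolynomial.funext fun x => by rw [hcon x, map_zero])

/-- **LEAF L-WG-ALG5 (generic level, one test).**  `G = 0`: `wgRes = 1`.  Let `f = finSuccEquiv P`, `g = finSuccEquiv G ≠ 0`, `m = natDegree f`.
`m = 0`: `finSuccEquiv (P - C c) = C (a - C c)` with `a = f.coeff 0`, `resultant_C_left`/`resultant_zero_left_deg`: `(a - C c)^k`, zero only if `a = C c` (at most one `c`).
`m ≥ 1`: `natDegree (f - C (C c)) = m`, same leading coefficient.  Choose `x₀` with `eval x₀ (lc f * lc g) ≠ 0` (`MvPolynomial.funext`-contrapositive / `exists_eval_ne_zero`); `Polynomial.resultant_map_map`: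
`eval x₀ (resultant (f - c) g) = resultant (f₀ - C c) g₀ m k` with `f₀ = f.map (eval x₀)` etc. of exact degrees `m, k`; `Polynomial.resultant_eq_zero_iff` + `wg_coprime_level`. -/
theorem wg_generic_level {n : ℕ} (P G : MvPolynomial (Fin (n + 1)) ℝ) : {c : ℝ | wgRes (P - C c) G = 0}.Finite := by
  by_cases hG : G = 0
  · have : {c : ℝ | wgRes (P - C c) G = 0} = ∅ := by
      ext c
      simp [wgRes, hG]
    rw [this]
    exact Set.finite_empty
  set f := finSuccEquiv ℝ n P with hf
  set g := finSuccEquiv ℝ n G with hgd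
  have hg : g ≠ 0 := by
    rw [hgd]
    exact (map_ne_zero_iff _ (finSuccEquiv ℝ n).injective).2 hG
  have hres : ∀ c : ℝ, wgRes (P - C c) G = Polynomial.resultant (f - Polynomial.C (C c)) g f.natDegree g.natDegree := by
    intro c
    rw [wgRes, if_neg hG, wg_finSuccEquiv_sub_C, Polynomial.natDegree_sub_C]
  by_cases hm : f.natDegree = 0
  · -- `f` is constant in the vertical variable
    refine Set.Subsingleton.finite ?_
    intro c hc c' hc'
    rw [Set.mem_ofPred_eq, hres, hm] at hc hc'
    rw [Polynomial.resultant_zero_left_deg] at hc hc'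
    have h1 := eq_zero_of_pow_eq_zero hc
    have h2 := eq_zero_of_pow_eq_zero hc'
    simp only [Polynomial.coeff_sub, Polynomial.coeff_C_zero, sub_eq_zero] at h1 h2
    exact C_injective _ _ (h1.symm.trans h2)
  · have hf0 : f ≠ 0 := by
      intro h0
      rw [h0] at hm
      simp at hm
    obtain ⟨x₀, hx⟩ := wg_exists_eval_ne_zero (mul_ne_zero (Polynomial.leadingCoeff_ne_zero.2 hf0) (Polynomial.leadingCoeff_ne_zero.2 hg))
    rw [map_mul] at hx
    have hx1 : eval x₀ f.leadingCoeff ≠ 0 := left_ne_zero_of_mul hx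
    have hx2 : eval x₀ g.leadingCoeff ≠ 0 := right_ne_zero_of_mul hx
    have hd1 : (f.map (eval x₀)).natDegree = f.natDegree := Polynomial.natDegree_map_of_leadingCoeff_ne_zero _ hx1
    have hd2 : (g.map (eval x₀)).natDegree = g.natDegree := Polynomial.natDegree_map_of_leadingCoeff_ne_zero _ hx2
    have hg0 : g.map (eval x₀) ≠ 0 := by
      intro h0
      apply hx2
      have : (g.map (eval x₀)).coeff g.natDegree = 0 := by rw [h0]; simp
      rwa [Polynomial.coeff_map] at this
    refine (wg_coprime_level (f.map (eval x₀)) (g.map (eval x₀)) hg0).subset ?_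
    intro c hc
    rw [Set.mem_ofPred_eq, hres] at hc
    have h1 := congrArg (eval x₀) hc
    rw [← Polynomial.resultant_map_map, map_zero, Polynomial.map_sub, Polynomial.map_C, eval_C] at h1
    have h2 : Polynomial.resultant (f.map (eval x₀) - Polynomial.C c) (g.map (eval x₀)) = 0 := by
      rw [Polynomial.natDegree_sub_C, hd1, hd2]
      exact h1
    exact (Polynomial.resultant_eq_zero_iff.1 h2).2

/-- **LEAF L-WG-ALG6 (generic level).**  `MvPolynomial (Fin n) ℝ` is a domain: `wgRR = 0` iff one factor is `0`; finite union of finite sets: `wg_generic_level` for `G ∈ T` and for `G = pderiv 0 (P - C c) = pderiv 0 P` (`pderiv_C`, `map_sub`);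
leading coefficient of `finSuccEquiv (P - C c)` is `0` only if `P = C c` (at most one `c`). -/
theorem wg_generic_RR {n : ℕ} (P : MvPolynomial (Fin (n + 1)) ℝ) (T : Finset (MvPolynomial (Fin (n + 1)) ℝ)) :
    {c : ℝ | wgRR (P - C c) T = 0}.Finite := by
  have h1 : {c : ℝ | (finSuccEquiv ℝ n (P - C c)).leadingCoeff = 0}.Finite := by
    refine Set.Subsingleton.finite ?_
    intro c hc c' hc'
    rw [Set.mem_ofPred_eq, Polynomial.leadingCoeff_eq_zero, map_eq_zero_iff _ (finSuccEquiv ℝ n).injective, sub_eq_zero] at hc hc'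
    exact C_injective _ _ (hc.symm.trans hc')
  have h2 : {c : ℝ | wgRes (P - C c) (pderiv 0 P) = 0}.Finite := wg_generic_level P _
  have h3 : (⋃ G ∈ T, {c : ℝ | wgRes (P - C c) G = 0}).Finite := Set.Finite.biUnion T.finite_toSet fun G _ => wg_generic_level P G
  refine ((h1.union h2).union h3).subset ?_
  intro c hc
  rw [Set.mem_ofPred_eq, wgRR, mul_eq_zero, mul_eq_zero, Finset.prod_eq_zero_iff] at hc
  rcases hc with (hc | hc) | ⟨G, hG, hc⟩
  · exact Or.inl (Or.inl hc)
  · refine Or.inl (Or.inr ?_)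
    rw [map_sub, pderiv_C, sub_zero] at hc
    exact hc
  · exact Or.inr (Set.mem_biUnion hG hc)

end Claimed.Agent.R257
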