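import Claimed.Agent.R257.WG.Base

/-!
# ROW 257, WALL GEOMETRY (WG), file 8: one polynomial, vertical axis `0`            (architect helper131)            CONTRACT
PAPER-FREE.  Every `sorry` is a leaf `L-WG-*`.  Statements are frozen; auxiliary lemmas directly above your theorem; edit only your block.

`wg_axis`: all parameters explicit.  Data: measure `ν` with a ball bound, weighted lines (labels) grouped in classes, a set `Y` of points each of which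
(H1) sees weight `≥ W/2` of every heavy class within distance `r`, (QX) has quadratically spanning heavy classes, (SC) has a wall `{P = 0}` with shadow `≥ θ` in the cube `closedBall y ρ`.
Conclusion: up to a small `ν`-mass, `Y` lies in few thin plates.
-/

set_option autoImplicit false
open MeasureTheory Set Metric MvPolynomial
open scoped ENNReal BigOperators

namespace Claimed.Agent.R257

open Classical in
/-- all tests used for one polynomial -/
noncomputable def wgTall {n : ℕ} {ι : Type*} [Fintype ι] (P : MvPolynomial (Fin (n + 1)) ℝ) (a v : ι → Fin (n + 1) → ℝ)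
    (k : ι → Fin n) (q1 q2 Dd S κ : ℝ) : Finset (MvPolynomial (Fin (n + 1)) ℝ) :=
  wgTgg P S κ ∪ Finset.univ.biUnion fun α => wgTline P (a α) (v α) (k α) q1 q2 Dd

/-- **LEAF L-WG-AX0.**  All tests are built from `pderiv j P` (and from polynomials not involving `P`): `map_sub`, `pderiv_C`, `sub_zero`; unfold `wgTall, wgTgg, wgTline, wgT1, wgT2, wgTs, wgTh, wgDv, wgNumV, wgNum`. -/
theorem wgTall_sub_C {n : ℕ} {ι : Type*} [Fintype ι] (P : MvPolynomial (Fin (n + 1)) ℝ) (c : ℝ) (a v : ι → Fin (n + 1) → ℝ)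
    (k : ι → Fin n) (q1 q2 Dd S κ : ℝ) : wgTall (P - C c) a v k q1 q2 Dd S κ = wgTall P a v k q1 q2 Dd S κ := by
  have h : ∀ j, pderiv j (P - C c) = pderiv j P := by
    intro j
    rw [map_sub, pderiv_C, sub_zero]
  simp only [wgTall, wgTgg, wgTline, wgT1, wgT2, wgTs, wgTh, wgDv, wgNumV, wgNum, h]

/-- **LEAF L-WG-AX1 (a rich, non-steep wall point is in the good part of the wall).**  `∂₀P(p) ≠ 0`: `wgRR_spec`.  Slopes: `wg_tests_meaning`.  For `b ∈ heavy y`: by `H1` and `hrich` some `α` with `cls α = b`, `y ∈ tube`, is NOT counted in the failing sum (otherwise the failing sum is `≥ W/2`: `Finset.sum_le_sum`, all terms `≥ 0`);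
`y ∈ wgNear` and `p ∈ wgNear` by `wg_near_of_tube` (with `ρ = 0` resp. `ρ`), so `p ∉ wgBad` means both tests pass; `wg_tests_meaning`.  `wg_phi_bound` with `g = wgG P · p`, `Φ = wgPhi P · · p` (symmetric: `wgNum_symm`). -/
theorem wg_axis_good_point {n : ℕ} (P : MvPolynomial (Fin (n + 1)) ℝ) {ι β : Type*} [Fintype ι] (w : ι → ℝ)
    (hw0 : ∀ α, 0 ≤ w α) (a v : ι → Fin (n + 1) → ℝ) (k : ι → Fin n) (c0 : ℝ) (hc0 : 0 < c0)
    (hvk : ∀ α, c0 ≤ |v α (k α).succ|) (hv : ∀ α, ‖v α‖ ≤ 1) (W r ρ : ℝ) (hr : 0 ≤ r) (hρ : 0 ≤ ρ) (cls : ι → β)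
    (hvy : Set β) (y : Fin (n + 1) → ℝ)
    (H1 : open Classical in ∀ b ∈ hvy, W / 2 ≤ ∑ α, if cls α = b ∧ y ∈ MK.tube (a α) (v α) r then w α else 0)
    (Kq : ℝ) (hKq : 0 ≤ Kq) (QX : WgQX Kq {V | ∃ b ∈ hvy, V = {u | ∃ α, cls α = b ∧ u = v α}})
    (S q1 q2 κ Dd : ℝ) (hS : 0 < S) (hq1 : 0 < q1) (hq2 : 0 < q2) (hDd : (r + ρ) * (1 + 1 / c0) ≤ Dd)
    (hsmall : 3 * Kq * (1 + n * S) ^ 2 * q1 ≤ 1) (hκ : κ = 3 * Kq * (1 + n * S) ^ 2 * q2)
    (p : Fin (n + 1) → ℝ) (hpy : p ∈ closedBall y ρ) (hP0 : eval p P = 0)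
    (hU : eval (Fin.tail p) (wgRR P (wgTall P a v k q1 q2 Dd S κ)) ≠ 0) (hst : ∀ l, eval p (wgTs P l S) ≤ 0)
    (hrich : open Classical in
      (∑ α, if y ∈ wgNear (a α) (v α) (k α) Dd ∧ p ∈ wgBad P (a α) (v α) (k α) q1 q2 Dd then w α else 0) < W / 2) :
    p ∈ wgGG P S κ := by
  classical
  have hκ0 : 0 ≤ κ := by rw [hκ]; positivity
  have h0 : eval p (pderiv 0 P) ≠ 0 := by
    have h := (wgRR_spec P _ (Fin.tail p) hU).2.2.1 (p 0)
    rw [Fin.cons_self_tail] at h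
    exact h hP0
  have hg : ∀ l, |wgG P l p| ≤ S := fun l =>
    (wg_tests_meaning P p h0 0 l l l q1 q2 S κ hq1.le hq2.le hS.le hκ0).2.2.1.1 (hst l)
  refine ⟨hP0, h0, hg, ?_⟩
  rw [hκ]
  refine wg_phi_bound Kq hKq _ QX (fun l => wgG P l p) (fun i l => wgPhi P i l p) ?_ S hS.le hg q1 q2 hq1.le hq2.le
    hsmall ?_
  · intro i l
    show wgPhi P i l p = wgPhi P l i p
    unfold wgPhi
    rw [wgNum_symm]
  · rintro V ⟨b, hb, rfl⟩
    obtain ⟨α, hα1, hα2, hα3⟩ : ∃ α, cls α = b ∧ y ∈ MK.tube (a α) (v α) r ∧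
        ¬ (y ∈ wgNear (a α) (v α) (k α) Dd ∧ p ∈ wgBad P (a α) (v α) (k α) q1 q2 Dd) := by
      by_contra hcon
      push Not at hcon
      have h1 := H1 b hb
      have h2 : (∑ α, if cls α = b ∧ y ∈ MK.tube (a α) (v α) r then w α else 0)
          ≤ ∑ α, if y ∈ wgNear (a α) (v α) (k α) Dd ∧ p ∈ wgBad P (a α) (v α) (k α) q1 q2 Dd then w α else 0 := by
        refine Finset.sum_le_sum fun α _ => ?_
        by_cases hc : cls α = b ∧ y ∈ MK.tube (a α) (v α) r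
        · rw [if_pos hc, if_pos (hcon α hc.1 hc.2)]
        · rw [if_neg hc]
          split_ifs
          · exact hw0 α
          · exact le_rfl
      linarith
    have hyN : y ∈ wgNear (a α) (v α) (k α) Dd :=
      wg_near_of_tube (a α) (v α) (k α) c0 hc0 (hvk α) (hv α) y y r ρ hα2 (by simpa using hρ) Dd hDd
    have hpN : p ∈ wgNear (a α) (v α) (k α) Dd :=
      wg_near_of_tube (a α) (v α) (k α) c0 hc0 (hvk α) (hv α) y p r ρ hα2
        (by rw [← dist_eq_norm]; exact hpy) Dd hDd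
    have hnb : p ∉ wgBad P (a α) (v α) (k α) q1 q2 Dd := fun h => hα3 ⟨hyN, h⟩
    have ht : ¬ (0 < eval p (wgT1 P (v α) q1) ∨ 0 < eval p (wgT2 P (v α) q2)) := fun h => hnb ⟨hpN, h⟩
    rw [not_or, not_lt, not_lt] at ht
    have hm := wg_tests_meaning P p h0 (v α) (k α) (k α) (k α) q1 q2 S κ hq1.le hq2.le hS.le hκ0
    exact ⟨v α, ⟨α, hα1, rfl⟩, hm.1.1 ht.1, hm.2.1.1 ht.2⟩

/-- **LEAF L-WG-AX2 (a good wall point exists near `y`).**  Suppose not: `closedBall y ρ` is covered by (0) the `σ`-null set of `wgSigma_ae`, (1) `⋃ l, {wgTs > 0} ∩ ball` (`wg_steep_sigma`, `hSθ`: total `≤ θ/8`), (2) the failing set (`< θ/8` by `h1`), (3) `{tail p ∉ G_n} ∩ ball` (`< θ/8` by `h2`).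
But `σ (closedBall y ρ) ≥ θ` (`wgSigma_ge_shadow`, `SC`; in the sup norm `cons t x ∈ closedBall y ρ ↔ |t - y 0| ≤ ρ ∧ ‖x - tail y‖ ≤ ρ`).  `measure_union_le`; `θ ≤ 3θ/8` is absurd. -/
theorem wg_axis_exists_point {n : ℕ} (P : MvPolynomial (Fin (n + 1)) ℝ) (D : ℕ) (hD : 1 ≤ D) (hP : P.totalDegree ≤ D)
    (T : Finset (MvPolynomial (Fin (n + 1)) ℝ)) (hgen : wgRR P T ≠ 0) (S : ℝ) (hS : 0 < S) (hT : ∀ l, wgTs P l S ∈ T)
    (y : Fin (n + 1) → ℝ) (ρ θ : ℝ) (hρ : 0 < ρ) (hθ : 0 < θ)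
    (SC : ENNReal.ofReal θ ≤ volume {x : Fin n → ℝ | ‖x - Fin.tail y‖ ≤ ρ ∧
      ∃ t : ℝ, |t - y 0| ≤ ρ ∧ eval (Fin.cons t x : Fin (n + 1) → ℝ) P = 0})
    (hSθ : n * (D * ((2 * ρ) ^ (n - 1) * ((147 * D ^ 2 + 1) * (2 * ρ / S)))) ≤ θ / 8)
    (B1 B2 : Set (Fin (n + 1) → ℝ)) (hB1 : MeasurableSet B1) (hB2 : MeasurableSet B2)
    (h1 : wgSigma P (B1 ∩ closedBall y ρ) < ENNReal.ofReal (θ / 8))
    (h2 : wgSigma P (B2 ∩ closedBall y ρ) < ENNReal.ofReal (θ / 8)) :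
    ∃ p ∈ closedBall y ρ, eval p P = 0 ∧ eval (Fin.tail p) (wgRR P T) ≠ 0 ∧ (∀ l, eval p (wgTs P l S) ≤ 0) ∧
      p ∉ B1 ∧ p ∉ B2 := by
  classical
  by_contra hcon
  push Not at hcon
  have hcov : closedBall y ρ ⊆ (({p | ¬ (eval p P = 0 ∧ eval (Fin.tail p) (wgRR P T) ≠ 0)} ∪
      ⋃ l : Fin n, ({p | 0 < eval p (wgTs P l S)} ∩ closedBall y ρ)) ∪ (B1 ∩ closedBall y ρ)) ∪ (B2 ∩ closedBall y ρ) := by
    intro p hp
    by_cases hA : eval p P = 0 ∧ eval (Fin.tail p) (wgRR P T) ≠ 0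
    · by_cases hB : ∀ l, eval p (wgTs P l S) ≤ 0
      · by_cases hC : p ∈ B1
        · exact Or.inl (Or.inr ⟨hC, hp⟩)
        · exact Or.inr ⟨hcon p hp hA.1 hA.2 hB hC, hp⟩
      · push Not at hB
        obtain ⟨l, hl⟩ := hB
        exact Or.inl (Or.inl (Or.inr (mem_iUnion.2 ⟨l, hl, hp⟩)))
    · exact Or.inl (Or.inl (Or.inl hA))
  set cst : ℝ := D * ((2 * ρ) ^ (n - 1) * ((147 * D ^ 2 + 1) * (2 * ρ / S))) with hcst
  have hcst0 : 0 ≤ cst := by rw [hcst]; positivity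
  have hsteep : wgSigma P (⋃ l : Fin n, ({p | 0 < eval p (wgTs P l S)} ∩ closedBall y ρ)) ≤ ENNReal.ofReal (θ / 8) := by
    calc wgSigma P (⋃ l : Fin n, ({p | 0 < eval p (wgTs P l S)} ∩ closedBall y ρ))
        ≤ ∑ l : Fin n, wgSigma P ({p | 0 < eval p (wgTs P l S)} ∩ closedBall y ρ) := measure_iUnion_fintype_le _ _
      _ ≤ ∑ _l : Fin n, ENNReal.ofReal cst := by
          refine Finset.sum_le_sum fun l _ => ?_
          exact wg_steep_sigma P D hD hP l S hS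
            (wgRR_ne_zero_mono P (Finset.singleton_subset_iff.2 (hT l)) hgen) y ρ hρ.le
      _ = ENNReal.ofReal (n * cst) := by
          rw [Finset.sum_const, Finset.card_univ, Fintype.card_fin, nsmul_eq_mul,
            ENNReal.ofReal_mul (Nat.cast_nonneg n), ENNReal.ofReal_natCast]
      _ ≤ ENNReal.ofReal (θ / 8) := ENNReal.ofReal_le_ofReal hSθ
  have hup : wgSigma P (closedBall y ρ) ≤ ENNReal.ofReal (3 * (θ / 8)) := by
    calc wgSigma P (closedBall y ρ) ≤ _ := measure_mono hcov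
      _ ≤ _ := measure_union_le _ _
      _ ≤ _ := add_le_add (measure_union_le _ _) le_rfl
      _ ≤ _ := add_le_add (add_le_add (measure_union_le _ _) le_rfl) le_rfl
      _ ≤ ((0 + ENNReal.ofReal (θ / 8)) + ENNReal.ofReal (θ / 8)) + ENNReal.ofReal (θ / 8) :=
          add_le_add (add_le_add (add_le_add (wgSigma_ae P T hgen).le hsteep) h1.le) h2.le
      _ = ENNReal.ofReal (3 * (θ / 8)) := by
          rw [zero_add, ← ENNReal.ofReal_add (by positivity) (by positivity),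
            ← ENNReal.ofReal_add (by positivity) (by positivity)]
          congr 1; ring
  have hlow : ENNReal.ofReal θ ≤ wgSigma P (closedBall y ρ) := by
    refine SC.trans (le_trans (measure_mono ?_)
      (wgSigma_ge_shadow P (wgRR_ne_zero_mono P (Finset.empty_subset T) hgen) (closedBall y ρ)
        isClosed_closedBall.measurableSet))
    rintro x ⟨hx, t, ht, hPt⟩
    refine ⟨t, hPt, ?_⟩
    rw [mem_closedBall, dist_pi_le_iff hρ.le]
    intro i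
    refine Fin.cases ?_ (fun j => ?_) i
    · rw [Fin.cons_zero, Real.dist_eq]; exact ht
    · rw [Fin.cons_succ, Real.dist_eq]
      have := (norm_le_pi_norm (x - Fin.tail y) j).trans hx
      rwa [Real.norm_eq_abs] at this
  have := hlow.trans hup
  rw [ENNReal.ofReal_le_ofReal_iff (by positivity)] at this
  linarith

theorem wg_grid_point (y : ℝ) (M : ℕ) (hy : |y| ≤ M) :
    ∃ m : ℤ, m ∈ Finset.Icc (-(M : ℤ)) M ∧ |y - m| ≤ 1 / 2 := by
  refine ⟨⌊y + 1 / 2⌋, ?_, ?_⟩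
  · rw [Finset.mem_Icc]
    have h := abs_le.1 hy
    constructor
    · rw [Int.le_floor]
      push_cast
      linarith [h.1]
    · have : ⌊y + 1 / 2⌋ < (M : ℤ) + 1 := by
        rw [Int.floor_lt]
        push_cast
        linarith [h.2]
      omega
  · have h1 := Int.floor_le (y + 1 / 2)
    have h2 := Int.lt_floor_add_one (y + 1 / 2)
    rw [abs_le]
    constructor <;> linarith

/-- **LEAF L-WG-AX3 (plates for the whole box).**  Cover `closedBall 0 Λ'` (sup norm) by the cubes `closedBall c (ℓ/2)`, `c ∈ ℓ • (integer points with |m_i| ≤ ⌈Λ'/ℓ⌉)` (`Fintype.piFinset (fun _ => Finset.Icc (-M) M)`, `M = ⌈Λ'/ℓ⌉`, `round`): `(2M+1)^n ≤ (2Λ'/ℓ + 3)^n` cubes; `wg_pack` in each; plate of `p'`: `N = cons 1 (fun k => - g_k(p'))`, `h = p' 0 - ∑ g_k(p') p'_{k+1}`;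
`∑ i, N i * p i - h = p 0 - p' 0 - ∑ g_k(p') (p_{k+1} - p'_{k+1})` (`Fin.sum_univ_succ`).  `Finset.card_biUnion_le`, `Finset.card_image_le`. -/
theorem wg_plates_box {n : ℕ} (hn : 1 ≤ n) (P : MvPolynomial (Fin (n + 1)) ℝ) (D : ℕ) (hP : P.totalDegree ≤ D) (S κ ℓ ε : ℝ)
    (hS : 0 ≤ S) (hκ : 0 ≤ κ) (hℓ : 0 < ℓ) (hε0 : 0 < ε) (hε : n * ε * 2 ^ (n + 1) ≤ 1) (Λ' : ℝ) (hΛ' : 0 ≤ Λ') :
    ∃ Pl : Finset ((Fin (n + 1) → ℝ) × ℝ), (Pl.card : ℝ) ≤ 2 * D * (2 * Λ' / ℓ + 3) ^ n ∧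
      (∀ π ∈ Pl, π.1 0 = 1 ∧ ∀ l : Fin n, |π.1 l.succ| ≤ S) ∧
      ∀ p ∈ wgGG P S κ, Fin.tail p ∈ closedBall 0 Λ' →
        Fin.tail p ∈ wgGood (fun x => eval x (wgRR P (wgTgg P S κ))) ℓ ε n →
        ∃ π ∈ Pl, |∑ i, π.1 i * p i - π.2| ≤ 6 * n ^ 2 * κ * ℓ ^ 2 := by
  classical
  set M : ℕ := ⌈Λ' / ℓ⌉₊ with hM
  have hMle : (M : ℝ) ≤ Λ' / ℓ + 1 := (Nat.ceil_lt_add_one (by positivity)).le
  have hMge : Λ' / ℓ ≤ M := Nat.le_ceil _
  set idx : Finset (Fin n → ℤ) := Fintype.piFinset fun _ : Fin n => Finset.Icc (-(M : ℤ)) M with hidx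
  have hpack := fun m : Fin n → ℤ => wg_pack hn P D hP S κ ℓ ε hS hκ hℓ hε0 hε (fun i => ℓ * (m i : ℝ))
  choose F hFcard hFGG hFcov using hpack
  set pl : (Fin (n + 1) → ℝ) → (Fin (n + 1) → ℝ) × ℝ := fun p' =>
    (Fin.cons 1 (fun l => - wgG P l p'), p' 0 - ∑ l, wgG P l p' * p' l.succ) with hpl
  refine ⟨idx.biUnion fun m => (F m).image pl, ?_, ?_, ?_⟩
  · have h1 : ((idx.biUnion fun m => (F m).image pl).card : ℝ) ≤ ∑ m ∈ idx, (((F m).image pl).card : ℝ) := by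
      exact_mod_cast Finset.card_biUnion_le
    have h2 : ∑ m ∈ idx, (((F m).image pl).card : ℝ) ≤ ∑ _m ∈ idx, (2 * D : ℝ) := by
      refine Finset.sum_le_sum fun m _ => ?_
      have : ((F m).image pl).card ≤ 2 * D := Finset.card_image_le.trans (hFcard m)
      exact_mod_cast this
    have h3 : (idx.card : ℝ) = (2 * M + 1 : ℝ) ^ n := by
      rw [hidx, Fintype.card_piFinset]
      simp only [Int.card_Icc, Finset.prod_const, Finset.card_univ, Fintype.card_fin]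
      have : ((M : ℤ) + 1 - -(M : ℤ)).toNat = 2 * M + 1 := by omega
      rw [this]
      push_cast
      ring
    rw [Finset.sum_const, nsmul_eq_mul, h3] at h2
    have h4 : (2 * M + 1 : ℝ) ^ n ≤ (2 * Λ' / ℓ + 3) ^ n := by
      refine pow_le_pow_left₀ (by positivity) ?_ n
      have : 2 * Λ' / ℓ = 2 * (Λ' / ℓ) := by ring
      rw [this]
      linarith
    calc ((idx.biUnion fun m => (F m).image pl).card : ℝ) ≤ (2 * M + 1 : ℝ) ^ n * (2 * D) := h1.trans h2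
      _ ≤ (2 * Λ' / ℓ + 3) ^ n * (2 * D) := mul_le_mul_of_nonneg_right h4 (by positivity)
      _ = 2 * D * (2 * Λ' / ℓ + 3) ^ n := by ring
  · intro π hπ
    obtain ⟨m, -, hm⟩ := Finset.mem_biUnion.1 hπ
    obtain ⟨p', hp', rfl⟩ := Finset.mem_image.1 hm
    refine ⟨by simp [hpl], fun l => ?_⟩
    simp only [hpl, Fin.cons_succ, abs_neg]
    exact (hFGG m p' hp').2.2.1 l
  · intro p hp htp hG
    have hcoord : ∀ i : Fin n, |(Fin.tail p : Fin n → ℝ) i / ℓ| ≤ M := by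
      intro i
      rw [mem_closedBall_zero_iff] at htp
      have h1 : |(Fin.tail p : Fin n → ℝ) i| ≤ Λ' := (norm_le_pi_norm (Fin.tail p : Fin n → ℝ) i).trans htp
      rw [abs_div, abs_of_pos hℓ]
      exact (div_le_div_of_nonneg_right h1 hℓ.le).trans hMge
    choose m hmI hmc using fun i => wg_grid_point _ M (hcoord i)
    have hmidx : m ∈ idx := by
      rw [hidx, Fintype.mem_piFinset]
      exact hmI
    have hball : (Fin.tail p : Fin n → ℝ) ∈ closedBall (fun i => ℓ * (m i : ℝ)) (ℓ / 2) := by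
      rw [mem_closedBall, dist_pi_le_iff (by positivity)]
      intro i
      rw [Real.dist_eq]
      have h1 := hmc i
      have h2 : (Fin.tail p : Fin n → ℝ) i - ℓ * (m i : ℝ) = ℓ * ((Fin.tail p : Fin n → ℝ) i / ℓ - m i) := by
        field_simp
      rw [h2, abs_mul, abs_of_pos hℓ]
      nlinarith
    obtain ⟨p', hp', hclose⟩ := hFcov m p hp hball hG
    refine ⟨pl p', Finset.mem_biUnion.2 ⟨m, hmidx, Finset.mem_image_of_mem _ hp'⟩, ?_⟩
    have heq : ∑ i, (pl p').1 i * p i - (pl p').2 = p 0 - p' 0 - ∑ l, wgG P l p' * (p l.succ - p' l.succ) := by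
      simp only [hpl, Fin.sum_univ_succ, Fin.cons_zero, Fin.cons_succ, one_mul]
      have : ∑ l : Fin n, wgG P l p' * (p l.succ - p' l.succ)
          = ∑ l : Fin n, wgG P l p' * p l.succ - ∑ l : Fin n, wgG P l p' * p' l.succ := by
        rw [← Finset.sum_sub_distrib]
        exact Finset.sum_congr rfl fun l _ => by ring
      rw [this]
      have h2 : ∑ l : Fin n, -wgG P l p' * p l.succ = - ∑ l : Fin n, wgG P l p' * p l.succ := by
        rw [← Finset.sum_neg_distrib]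
        exact Finset.sum_congr rfl fun l _ => by ring
      rw [h2]
      ring
    rw [heq]
    exact hclose

theorem wgNear_measurableSet {n : ℕ} (a v : Fin (n + 1) → ℝ) (k : Fin n) (Dd : ℝ) : MeasurableSet (wgNear a v k Dd) := by
  have : wgNear a v k Dd = ⋂ j, {p : Fin (n + 1) → ℝ | |p j - a j - ((p k.succ - a k.succ) / v k.succ) * v j| ≤ Dd} := by
    ext p; simp [wgNear]
  rw [this]
  refine MeasurableSet.iInter fun j => measurableSet_le ?_ measurable_const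
  have h1 : Measurable fun p : Fin (n + 1) → ℝ => p j := measurable_pi_apply j
  have h2 : Measurable fun p : Fin (n + 1) → ℝ => p k.succ := measurable_pi_apply k.succ
  have h3 : Measurable fun p : Fin (n + 1) → ℝ => p j - a j - ((p k.succ - a k.succ) / v k.succ) * v j :=
    (h1.sub_const _).sub (((h2.sub_const _).div_const _).mul_const _)
  exact continuous_abs.measurable.comp h3

theorem wg_enn_div_bound (x y z : ℝ) (hx : 0 < x) (hz : 0 ≤ z) (u : ℝ≥0∞)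
    (h : ENNReal.ofReal x * u ≤ ENNReal.ofReal z) (hy : y = 1 / x * z) : u ≤ ENNReal.ofReal y := by
  have hx' : ENNReal.ofReal x ≠ 0 := by simpa using hx
  have hx'' : ENNReal.ofReal x ≠ ∞ := ENNReal.ofReal_ne_top
  have h1 : u ≤ ENNReal.ofReal z / ENNReal.ofReal x := by
    rw [ENNReal.le_div_iff_mul_le (Or.inl hx') (Or.inl hx''), mul_comm]
    exact h
  rw [← ENNReal.ofReal_div_of_pos hx] at h1
  rw [hy]
  convert h1 using 2
  field_simp

theorem wgTgg_card_le {n : ℕ} (P : MvPolynomial (Fin (n + 1)) ℝ) (S κ : ℝ) : (wgTgg P S κ).card ≤ n + n ^ 2 := by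
  classical
  unfold wgTgg
  refine (Finset.card_union_le _ _).trans ?_
  refine add_le_add ?_ ?_
  · refine Finset.card_image_le.trans ?_
    simp
  · refine Finset.card_image_le.trans ?_
    simp [sq]

theorem wgTgg_degree {n : ℕ} (P : MvPolynomial (Fin (n + 1)) ℝ) (D : ℕ) (hD : 1 ≤ D) (hP : P.totalDegree ≤ D) (S κ : ℝ) :
    ∀ G ∈ wgTgg P S κ, G.totalDegree ≤ 6 * D := by
  classical
  intro G hG
  unfold wgTgg at hG
  rcases Finset.mem_union.1 hG with h | h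
  · obtain ⟨l, -, rfl⟩ := Finset.mem_image.1 h
    exact (wg_tests_degree P D hD hP 0 0 l l l 0 0 0 S κ).2.2.2.1
  · obtain ⟨q, -, rfl⟩ := Finset.mem_image.1 h
    exact (wg_tests_degree P D hD hP 0 0 q.1 q.1 q.2 0 0 0 S κ).2.2.2.2

/-- **LEAF L-WG-AXIS (assembly for one polynomial and the vertical axis `0`).**
`σ = wgSigma P` (`wgSigma_sFinite`), `T = wgTall ..`, `f = eval · (wgRR P (wgTgg P S κ))` (`MK.tame_of_poly`, `wgRR_ne_zero_mono`, `wgRR_totalDegree_le`, `card (wgTgg) ≤ n + n²`, `wg_tests_degree`), `G = wgGood f ℓ ε n`.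
`B1(y) = {p | W/2 ≤ failing sum}`, `B2 = {p | tail p ∈ closedBall 0 (Λ+ρ) \ G}`.
`Ybad1 = {y | θ/8 ≤ σ (B1(y) ∩ ball)}`: `wg_markov_two` with `Near α = wgNear ..` (closed), `Bad α = wgBad ..`, `β` from `wg_bad_sigma` (`wgRR_ne_zero_mono`).
`Ybad2 = {y | θ/8 ≤ σ (B2 ∩ ball)}`: `wg_markov_one`, `wgSigma_base_le`, `wgGood_compl_volume`.
For `y ∈ Y` outside both: `wg_axis_exists_point`, `wg_axis_good_point`, `‖tail p‖ ≤ Λ + ρ`, so `tail p ∈ G`; `wg_plates_box` (`Λ' = Λ + ρ`) gives `π`; `|∑ π_i y_i - π.2| ≤ |∑ π_i p_i - π.2| + ∑ |π_i| |y_i - p_i| ≤ 6n²κℓ² + ρ (1 + n S)`. -/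
theorem wg_axis {n : ℕ} (hn : 1 ≤ n) (P : MvPolynomial (Fin (n + 1)) ℝ) (D : ℕ) (hD : 1 ≤ D) (hP : P.totalDegree ≤ D)
    (ν : Measure (Fin (n + 1) → ℝ)) [IsFiniteMeasure ν] (ρ A : ℝ) (hρ : 0 < ρ) (hA : 0 ≤ A)
    (hν : ∀ p, ν (closedBall p ρ) ≤ ENNReal.ofReal A)
    {ι β : Type*} [Fintype ι] (w : ι → ℝ) (hw0 : ∀ α, 0 ≤ w α) (hw1 : ∑ α, w α ≤ 1) (a v : ι → Fin (n + 1) → ℝ)
    (k : ι → Fin n) (c0 : ℝ) (hc0 : 0 < c0) (hvk : ∀ α, c0 ≤ |v α (k α).succ|) (hv : ∀ α, ‖v α‖ ≤ 1)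
    (Y : Set (Fin (n + 1) → ℝ)) (Λ : ℝ) (hΛ0 : 0 ≤ Λ) (hΛ : Y ⊆ closedBall 0 Λ) (W r : ℝ) (hW : 0 < W) (hr : 0 ≤ r)
    (cls : ι → β) (heavy : (Fin (n + 1) → ℝ) → Set β)
    (H1 : open Classical in ∀ y ∈ Y, ∀ b ∈ heavy y,
      W / 2 ≤ ∑ α, if cls α = b ∧ y ∈ MK.tube (a α) (v α) r then w α else 0)
    (Kq : ℝ) (hKq : 0 ≤ Kq) (QX : ∀ y ∈ Y, WgQX Kq {V | ∃ b ∈ heavy y, V = {u | ∃ α, cls α = b ∧ u = v α}})
    (θ : ℝ) (hθ : 0 < θ)
    (SC : ∀ y ∈ Y, ENNReal.ofReal θ ≤ volume {x : Fin n → ℝ | ‖x - Fin.tail y‖ ≤ ρ ∧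
      ∃ t : ℝ, |t - y 0| ≤ ρ ∧ eval (Fin.cons t x : Fin (n + 1) → ℝ) P = 0})
    (S q1 q2 κ Dd ℓ ε : ℝ) (hS : 0 < S) (hq1 : 0 < q1) (hq2 : 0 < q2) (hℓ : 0 < ℓ) (hε0 : 0 < ε)
    (hSθ : n * (D * ((2 * ρ) ^ (n - 1) * ((147 * D ^ 2 + 1) * (2 * ρ / S)))) ≤ θ / 8)
    (hDd : (r + ρ) * (1 + 1 / c0) ≤ Dd) (hsmall : 3 * Kq * (1 + n * S) ^ 2 * q1 ≤ 1)
    (hκ : κ = 3 * Kq * (1 + n * S) ^ 2 * q2) (hε : n * ε * 2 ^ (n + 1) ≤ 1)
    (hgen : wgRR P (wgTall P a v k q1 q2 Dd S κ) ≠ 0) :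
    ∃ Pl : Finset ((Fin (n + 1) → ℝ) × ℝ), (Pl.card : ℝ) ≤ 2 * D * (2 * (Λ + ρ) / ℓ + 3) ^ n ∧ (∀ π ∈ Pl, π.1 0 = 1) ∧
      ∃ Z : Set (Fin (n + 1) → ℝ), (∀ y ∈ Y, y ∉ Z → ∃ π ∈ Pl, |∑ i, π.1 i * y i - π.2| ≤ 6 * n ^ 2 * κ * ℓ ^ 2 + ρ * (1 + n * S)) ∧
      ν Z ≤ ENNReal.ofReal (16 / (W * θ) * (A *
            (D * ((2 * Dd) ^ (n - 1) * ((245 * D ^ 2 + 1) * (2 * Dd / q1 + 4 * Real.sqrt (Dd / q2)))))))
          + ENNReal.ofReal (8 / θ * (A * (D * (n * (1 / ε) ^ n *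
            ((2 * (Λ + ρ + n * ℓ)) ^ (n - 1) * ((49 * D ^ 2 * (n + n ^ 2 + 2) : ℕ) * (2 * ℓ))))))) := by
  classical
  have := wgSigma_sFinite P
  have hκ0 : 0 ≤ κ := by rw [hκ]; positivity
  have hε1 : ε ≤ 1 := by
    have h1 : (1 : ℝ) ≤ n := by exact_mod_cast hn
    have h2 : (1 : ℝ) ≤ 2 ^ (n + 1) := one_le_pow₀ (by norm_num)
    have h3 : ε ≤ n * ε * 2 ^ (n + 1) := by
      have : ε * 1 * 1 ≤ n * ε * 2 ^ (n + 1) := by
        have h4 : ε * 1 ≤ n * ε := by nlinarith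
        exact mul_le_mul h4 h2 (by norm_num) (by positivity)
      linarith
    linarith
  set T := wgTall P a v k q1 q2 Dd S κ with hTdef
  have hTgT : wgTgg P S κ ⊆ T := Finset.subset_union_left
  have hgenG : wgRR P (wgTgg P S κ) ≠ 0 := wgRR_ne_zero_mono P hTgT hgen
  set f : (Fin n → ℝ) → ℝ := fun x => eval x (wgRR P (wgTgg P S κ)) with hfdef
  set N0 : ℕ := 49 * D ^ 2 * (n + n ^ 2 + 2) with hN0
  have hdegG : (wgRR P (wgTgg P S κ)).totalDegree ≤ N0 := by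
    refine (wgRR_totalDegree_le P _ D hP (wgTgg_degree P D hD hP S κ)).trans ?_
    rw [hN0]
    exact Nat.mul_le_mul_left _ (Nat.add_le_add_right (wgTgg_card_le P S κ) 2)
  have hf : MK.Tame n N0 f := MK.tame_of_poly _ hgenG hdegG
  set G := wgGood f ℓ ε n with hGdef
  have hGm : MeasurableSet G := wgGood_measurable f hf.cont ℓ ε n
  have hΛρ : 0 ≤ Λ + ρ := by positivity
  obtain ⟨Pl, hcard, hPl1, hPl2⟩ := wg_plates_box hn P D hP S κ ℓ ε hS.le hκ0 hℓ hε0 hε (Λ + ρ) hΛρ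
  have hgenL : ∀ α, wgRR P (wgTline P (a α) (v α) (k α) q1 q2 Dd) ≠ 0 := by
    intro α
    refine wgRR_ne_zero_mono P ?_ hgen
    refine Finset.Subset.trans ?_ Finset.subset_union_right
    exact Finset.subset_biUnion_of_mem (fun α => wgTline P (a α) (v α) (k α) q1 q2 Dd) (Finset.mem_univ α)
  have hvk0 : ∀ α, v α (k α).succ ≠ 0 := by
    intro α h0
    have := hvk α
    rw [h0, abs_zero] at this
    linarith
  have hDd0 : 0 ≤ Dd := by
    refine le_trans ?_ hDd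
    positivity
  set βr : ℝ := D * ((2 * Dd) ^ (n - 1) * ((245 * D ^ 2 + 1) * (2 * Dd / q1 + 4 * Real.sqrt (Dd / q2)))) with hβr
  have hβr0 : 0 ≤ βr := by rw [hβr]; positivity
  have hbad := fun α => wg_bad_sigma P D hD hP (a α) (v α) (k α) (hvk0 α) (hv α) q1 q2 Dd hq1 hq2 hDd0 (hgenL α)
  set B1 : (Fin (n + 1) → ℝ) → Set (Fin (n + 1) → ℝ) := fun y =>
    {p | W / 2 ≤ ∑ α, if y ∈ wgNear (a α) (v α) (k α) Dd ∧ p ∈ wgBad P (a α) (v α) (k α) q1 q2 Dd then w α else 0} with hB1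
  set B2 : Set (Fin (n + 1) → ℝ) := {p | Fin.tail p ∈ closedBall (0 : Fin n → ℝ) (Λ + ρ) \ G} with hB2
  have hB1m : ∀ y, MeasurableSet (B1 y) := by
    intro y
    refine measurableSet_le measurable_const (Finset.measurable_sum _ fun α _ => ?_)
    by_cases hy : y ∈ wgNear (a α) (v α) (k α) Dd
    · simp only [hy, true_and]
      exact Measurable.ite (hbad α).1 measurable_const measurable_const
    · simp only [hy, false_and, if_false]
      exact measurable_const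
  have htail : Measurable (fun p : Fin (n + 1) → ℝ => (Fin.tail p : Fin n → ℝ)) :=
    measurable_pi_lambda _ fun i => measurable_pi_apply i.succ
  have hB2m : MeasurableSet B2 := htail (isClosed_closedBall.measurableSet.diff hGm)
  set Z1 : Set (Fin (n + 1) → ℝ) := {y | ENNReal.ofReal (θ / 8) ≤ wgSigma P (B1 y ∩ closedBall y ρ)} with hZ1
  set Z2 : Set (Fin (n + 1) → ℝ) := {y | ENNReal.ofReal (θ / 8) ≤ wgSigma P (B2 ∩ closedBall y ρ)} with hZ2
  refine ⟨Pl, hcard, fun π hπ => (hPl1 π hπ).1, Z1 ∪ Z2, ?_, ?_⟩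
  · intro y hy hyZ
    have h1 : wgSigma P (B1 y ∩ closedBall y ρ) < ENNReal.ofReal (θ / 8) :=
      not_le.1 fun h => hyZ (Or.inl h)
    have h2 : wgSigma P (B2 ∩ closedBall y ρ) < ENNReal.ofReal (θ / 8) :=
      not_le.1 fun h => hyZ (Or.inr h)
    have hT : ∀ l, wgTs P l S ∈ T := by
      intro l
      refine hTgT ?_
      unfold wgTgg
      exact Finset.mem_union_left _ (Finset.mem_image_of_mem _ (Finset.mem_univ l))
    obtain ⟨p, hpy, hP0, hU, hst, hp1, hp2⟩ :=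
      wg_axis_exists_point P D hD hP T hgen S hS hT y ρ θ hρ hθ (SC y hy) hSθ (B1 y) B2 (hB1m y) hB2m h1 h2
    have hrich : (∑ α, if y ∈ wgNear (a α) (v α) (k α) Dd ∧ p ∈ wgBad P (a α) (v α) (k α) q1 q2 Dd then w α else 0) < W / 2 :=
      not_le.1 hp1
    have hGG : p ∈ wgGG P S κ :=
      wg_axis_good_point P w hw0 a v k c0 hc0 hvk hv W r ρ hr hρ.le cls (heavy y) y (H1 y hy) Kq hKq (QX y hy)
        S q1 q2 κ Dd hS hq1 hq2 hDd hsmall hκ p hpy hP0 hU hst hrich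
    have hpy' : ‖p - y‖ ≤ ρ := by
      rw [← dist_eq_norm]; exact hpy
    have hyΛ : ‖y‖ ≤ Λ := by
      have := hΛ hy
      rwa [mem_closedBall_zero_iff] at this
    have hpn : ‖p‖ ≤ Λ + ρ := by
      calc ‖p‖ = ‖y + (p - y)‖ := by congr 1; abel
        _ ≤ ‖y‖ + ‖p - y‖ := norm_add_le _ _
        _ ≤ Λ + ρ := add_le_add hyΛ hpy'
    have htp : (Fin.tail p : Fin n → ℝ) ∈ closedBall (0 : Fin n → ℝ) (Λ + ρ) := by
      rw [mem_closedBall_zero_iff, pi_norm_le_iff_of_nonneg hΛρ]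
      intro i
      exact (norm_le_pi_norm p i.succ).trans hpn
    have htG : (Fin.tail p : Fin n → ℝ) ∈ G := by
      by_contra hcon
      exact hp2 ⟨htp, hcon⟩
    obtain ⟨π, hπ, hπp⟩ := hPl2 p hGG htp htG
    refine ⟨π, hπ, ?_⟩
    have hdiff : ∑ i, π.1 i * y i - π.2 = (∑ i, π.1 i * p i - π.2) + ∑ i, π.1 i * (y i - p i) := by
      have : ∑ i, π.1 i * (y i - p i) = ∑ i, π.1 i * y i - ∑ i, π.1 i * p i := by
        rw [← Finset.sum_sub_distrib]
        exact Finset.sum_congr rfl fun i _ => by ring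
      rw [this]; ring
    have hcoord : ∀ i, |y i - p i| ≤ ρ := by
      intro i
      have := (norm_le_pi_norm (p - y) i).trans hpy'
      rw [Real.norm_eq_abs, Pi.sub_apply, abs_sub_comm] at this
      exact this
    have hsum : |∑ i, π.1 i * (y i - p i)| ≤ ρ * (1 + n * S) := by
      rw [Fin.sum_univ_succ, (hPl1 π hπ).1, one_mul]
      have h3 : |∑ l : Fin n, π.1 l.succ * (y l.succ - p l.succ)| ≤ n * (S * ρ) := by
        refine (Finset.abs_sum_le_sum_abs _ _).trans ?_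
        have : ∑ l : Fin n, |π.1 l.succ * (y l.succ - p l.succ)| ≤ ∑ _l : Fin n, S * ρ := by
          refine Finset.sum_le_sum fun l _ => ?_
          rw [abs_mul]
          exact mul_le_mul ((hPl1 π hπ).2 l) (hcoord l.succ) (abs_nonneg _) hS.le
        simpa using this
      have h4 := abs_add_le (y 0 - p 0) (∑ l : Fin n, π.1 l.succ * (y l.succ - p l.succ))
      have h5 := hcoord 0
      nlinarith
    rw [hdiff]
    exact (abs_add_le _ _).trans (add_le_add hπp hsum)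
  · refine (measure_union_le _ _).trans (add_le_add ?_ ?_)
    · have hm := wg_markov_two ν (wgSigma P) w hw0 hw1 (fun α => wgBad P (a α) (v α) (k α) q1 q2 Dd)
        (fun α => wgNear (a α) (v α) (k α) Dd) (fun α => (hbad α).1) (fun α => wgNear_measurableSet _ _ _ _) ρ
        (ENNReal.ofReal A) (ENNReal.ofReal βr) hν (fun α => (hbad α).2) W hW (ENNReal.ofReal (θ / 8))
      rw [← ENNReal.ofReal_mul (by positivity), ← ENNReal.ofReal_mul hA] at hm
      refine wg_enn_div_bound (W / 2 * (θ / 8)) _ (A * βr) (by positivity) (by positivity) _ hm ?_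
      field_simp
      ring
    · have hm := wg_markov_one ν (wgSigma P) B2 hB2m ρ (ENNReal.ofReal A) hν (ENNReal.ofReal (θ / 8))
      have hs : wgSigma P B2 ≤ D * volume (closedBall (0 : Fin n → ℝ) (Λ + ρ) \ G) :=
        wgSigma_base_le P D hP _ (isClosed_closedBall.measurableSet.diff hGm)
      have hv := wgGood_compl_volume f hf ℓ ε hℓ hε0 hε1 n le_rfl (Λ + ρ) hΛρ
      set br : ℝ := n * (1 / ε) ^ n * ((2 * (Λ + ρ + n * ℓ)) ^ (n - 1) * ((N0 : ℝ) * (2 * ℓ))) with hbr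
      have hbr0 : 0 ≤ br := by rw [hbr]; positivity
      have hs2 : wgSigma P B2 ≤ ENNReal.ofReal (D * br) := by
        refine hs.trans ?_
        rw [ENNReal.ofReal_mul (Nat.cast_nonneg D), ENNReal.ofReal_natCast]
        exact mul_le_mul' le_rfl hv
      have hm2 : ENNReal.ofReal (θ / 8) * ν Z2 ≤ ENNReal.ofReal (A * (D * br)) := by
        rw [ENNReal.ofReal_mul hA]
        exact hm.trans (mul_le_mul' le_rfl hs2)
      refine wg_enn_div_bound (θ / 8) _ (A * (D * br)) (by positivity) (by positivity) _ hm2 ?_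
      field_simp

end Claimed.Agent.R257
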