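import Claimed.Agent.R257.WG.Tests

/-!
# ROW 257, WALL GEOMETRY (WG), file 7: quadratic exclusion, good base sets, lifted axis paths, packing            (architect helper131)            CONTRACT
PAPER-FREE.  Every `sorry` is a leaf `L-WG-*`.  Statements are frozen; auxiliary lemmas directly above your theorem; edit only your block.

This file replaces "cells in which any two points are joined by a path of length X^C" (cylindrical decomposition) of the paper: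
paths are AXIS PATHS IN THE BASE which avoid the critical hypersurface `{wgRR = 0}`; they lift to every sheet, and along the lift all tests keep their sign.
-/

set_option autoImplicit false
open MeasureTheory Set Metric MvPolynomial
open scoped ENNReal BigOperators

namespace Claimed.Agent.R257

/-- ABSTRACT QUADRATIC EXCLUSION for a family `VV` of sets of directions: if a hyperplane `N^⊥` and a quadratic form `B` are almost annihilated by one direction of every `V ∈ VV`, then `B` is small on `N^⊥`. -/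
def WgQX {m : ℕ} (Kq : ℝ) (VV : Set (Set (Fin m → ℝ))) : Prop :=
  ∀ (N : Fin m → ℝ) (B : Fin m → Fin m → ℝ) (bb q1 q2 : ℝ), ∑ i, N i ^ 2 = 1 → (∀ i j, B i j = B j i) →
    (∀ i j, |B i j| ≤ bb) → 0 ≤ q1 → 0 ≤ q2 →
    (∀ V ∈ VV, ∃ v ∈ V, |∑ i, N i * v i| ≤ q1 ∧ |∑ i, ∑ j, B i j * v i * v j| ≤ q2) →
    ∀ x : Fin m → ℝ, ∑ i, N i * x i = 0 → |∑ i, ∑ j, B i j * x i * x j| ≤ Kq * (q2 + q1 * bb) * ‖x‖ ^ 2

/-- value of the quadratic form at `e_i` -/
theorem wgqx_single {n : ℕ} (Φ : Fin n → Fin n → ℝ) (i : Fin n) :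
    ∑ a, ∑ b, Φ a b * (Pi.single i (1 : ℝ) : Fin n → ℝ) a * (Pi.single i (1 : ℝ) : Fin n → ℝ) b = Φ i i := by
  classical
  simp [Pi.single_apply]

/-- value of the quadratic form at `e_i + e_l` -/
theorem wgqx_pair {n : ℕ} (Φ : Fin n → Fin n → ℝ) (i l : Fin n) :
    ∑ a, ∑ b, Φ a b * ((Pi.single i (1 : ℝ) : Fin n → ℝ) a + (Pi.single l (1 : ℝ) : Fin n → ℝ) a)
        * ((Pi.single i (1 : ℝ) : Fin n → ℝ) b + (Pi.single l (1 : ℝ) : Fin n → ℝ) b)
      = Φ i i + Φ i l + Φ l i + Φ l l := by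
  classical
  simp [Pi.single_apply, mul_add, add_mul, Finset.sum_add_distrib]
  ring

/-- the pure arithmetic at the end -/
theorem wgqx_arith (K q1 q2 bb : ℝ) (hK : 0 ≤ K) (hbb : 0 ≤ bb) (hsmall : 3 * K * q1 ≤ 1)
    (h : bb ≤ 3 / 2 * (K * (q2 + q1 * bb))) : bb ≤ 3 * K * q2 := by
  nlinarith [mul_le_mul_of_nonneg_right hsmall hbb]

/-- **LEAF L-WG-QX (Hessian bound from the exclusion).**  `N = (1, -g)/sqrt(1+|g|²)`, `B (i+1) (l+1) = Φ i l`, `B 0 _ = B _ 0 = 0` (`Fin.cases`), `bb = φ* = max |Φ i l|` (`Finset.exists_max_image` / `Finset.sup'`; `n = 0` trivial).  `|N·v| ≤ |v 0 - g·v̄|`.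
For `x̄` with `‖x̄‖ ≤ 1`: `x = (g·x̄, x̄)`, `N·x = 0`, `‖x‖ ≤ 1 + n S`: `|Φ[x̄,x̄]| ≤ M := Kq (q2 + q1 φ*) (1+nS)²`.  `x̄ = e_i`: `|Φ_ii| ≤ M`; `x̄ = e_i + e_l`: `|Φ_ii + 2Φ_il + Φ_ll| ≤ M`, so `|Φ_il| ≤ 3M/2`.  Hence `φ* ≤ (3/2) Kq (1+nS)² q2 + φ*/2`. -/
theorem wg_phi_bound {n : ℕ} (Kq : ℝ) (hKq : 0 ≤ Kq) (VV : Set (Set (Fin (n + 1) → ℝ))) (hQX : WgQX Kq VV)
    (g : Fin n → ℝ) (Φ : Fin n → Fin n → ℝ) (hsym : ∀ i l, Φ i l = Φ l i) (S : ℝ) (hS : 0 ≤ S) (hg : ∀ k, |g k| ≤ S)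
    (q1 q2 : ℝ) (hq1 : 0 ≤ q1) (hq2 : 0 ≤ q2) (hsmall : 3 * Kq * (1 + n * S) ^ 2 * q1 ≤ 1)
    (hpass : ∀ V ∈ VV, ∃ v ∈ V, |v 0 - ∑ l, g l * v l.succ| ≤ q1 ∧ |∑ i, ∑ l, Φ i l * v i.succ * v l.succ| ≤ q2) :
    ∀ i l, |Φ i l| ≤ 3 * Kq * (1 + n * S) ^ 2 * q2 := by
  classical
  intro i0 l0
  obtain ⟨p, -, hp⟩ := Finset.exists_max_image (Finset.univ : Finset (Fin n × Fin n))
    (fun p => |Φ p.1 p.2|) ⟨(i0, l0), Finset.mem_univ _⟩
  obtain ⟨bb, hbb⟩ : ∃ bb, bb = |Φ p.1 p.2| := ⟨_, rfl⟩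
  have hbb0 : 0 ≤ bb := hbb ▸ abs_nonneg _
  have hmax : ∀ i l, |Φ i l| ≤ bb := fun i l => hbb ▸ hp (i, l) (Finset.mem_univ _)
  obtain ⟨r, hr⟩ : ∃ r, r = Real.sqrt (1 + ∑ k, g k ^ 2) := ⟨_, rfl⟩
  have hsum0 : 0 ≤ ∑ k, g k ^ 2 := Finset.sum_nonneg fun k _ => sq_nonneg _
  have hr2 : r ^ 2 = 1 + ∑ k, g k ^ 2 := by rw [hr]; exact Real.sq_sqrt (by linarith)
  have hr1 : 1 ≤ r := by
    rw [hr]; exact Real.one_le_sqrt.2 (by linarith)
  have hr0 : 0 < r := by linarith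
  let N : Fin (n + 1) → ℝ := Fin.cons (1 / r) (fun k => - g k / r)
  let B : Fin (n + 1) → Fin (n + 1) → ℝ :=
    fun i j => Fin.cases 0 (fun i' => Fin.cases 0 (fun j' => Φ i' j') j) i
  have hN : ∑ i, N i ^ 2 = 1 := by
    rw [Fin.sum_univ_succ]
    simp only [N, Fin.cons_zero, Fin.cons_succ, div_pow, neg_sq, one_pow]
    rw [← Finset.sum_div, ← add_div, ← hr2]
    exact div_self (by positivity)
  have hBsym : ∀ i j, B i j = B j i := by
    intro i j
    refine Fin.cases ?_ (fun i' => ?_) i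
    · refine Fin.cases rfl (fun j' => rfl) j
    · refine Fin.cases rfl (fun j' => hsym i' j') j
  have hBbd : ∀ i j, |B i j| ≤ bb := by
    intro i j
    refine Fin.cases ?_ (fun i' => ?_) i
    · simpa [B] using hbb0
    · refine Fin.cases ?_ (fun j' => ?_) j
      · simpa [B] using hbb0
      · simpa [B] using hmax i' j'
  have hBq : ∀ v : Fin (n + 1) → ℝ,
      ∑ i, ∑ j, B i j * v i * v j = ∑ i, ∑ l, Φ i l * v i.succ * v l.succ := by
    intro v
    rw [Fin.sum_univ_succ]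
    simp [B, Fin.sum_univ_succ]
  have hNv : ∀ v : Fin (n + 1) → ℝ, ∑ i, N i * v i = (v 0 - ∑ l, g l * v l.succ) / r := by
    intro v
    rw [Fin.sum_univ_succ]
    simp only [N, Fin.cons_zero, Fin.cons_succ]
    rw [sub_div, Finset.sum_div, sub_eq_add_neg, ← Finset.sum_neg_distrib]
    congr 1
    · ring
    · exact Finset.sum_congr rfl fun k _ => by ring
  have key := hQX N B bb q1 q2 hN hBsym hBbd hq1 hq2 (by
    intro V hV
    obtain ⟨v, hv, h1, h2⟩ := hpass V hV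
    refine ⟨v, hv, ?_, ?_⟩
    · rw [hNv, abs_div, abs_of_pos hr0]
      exact (div_le_self (abs_nonneg _) hr1).trans h1
    · rw [hBq]; exact h2)
  have hnS : 0 ≤ (n : ℝ) * S := by positivity
  have hM : ∀ xb : Fin n → ℝ, ‖xb‖ ≤ 1 →
      |∑ i, ∑ l, Φ i l * xb i * xb l| ≤ Kq * (q2 + q1 * bb) * (1 + n * S) ^ 2 := by
    intro xb hxb
    have hx := key (Fin.cons (∑ l, g l * xb l) xb) (by
      rw [hNv]; simp)
    rw [hBq] at hx
    simp only [Fin.cons_succ] at hx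
    refine hx.trans ?_
    have hnorm : ‖(Fin.cons (∑ l, g l * xb l) xb : Fin (n + 1) → ℝ)‖ ≤ 1 + n * S := by
      rw [pi_norm_le_iff_of_nonneg (by linarith)]
      intro i
      refine Fin.cases ?_ (fun i' => ?_) i
      · simp only [Fin.cons_zero, Real.norm_eq_abs]
        calc |∑ l, g l * xb l| ≤ ∑ l, |g l * xb l| := Finset.abs_sum_le_sum_abs _ _
          _ ≤ ∑ _l : Fin n, S := by
              refine Finset.sum_le_sum fun l _ => ?_
              rw [abs_mul]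
              have h1 : |xb l| ≤ 1 := (norm_le_pi_norm xb l).trans hxb
              calc |g l| * |xb l| ≤ S * 1 := mul_le_mul (hg l) h1 (abs_nonneg _) hS
                _ = S := mul_one _
          _ = n * S := by simp
          _ ≤ 1 + n * S := by linarith
      · simp only [Fin.cons_succ]
        exact ((norm_le_pi_norm xb i').trans hxb).trans (by linarith)
    have hK0 : 0 ≤ Kq * (q2 + q1 * bb) := by positivity
    exact mul_le_mul_of_nonneg_left (pow_le_pow_left₀ (norm_nonneg _) hnorm 2) hK0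
  obtain ⟨M, hMdef⟩ : ∃ M, M = Kq * (q2 + q1 * bb) * (1 + n * S) ^ 2 := ⟨_, rfl⟩
  rw [← hMdef] at hM
  have hM0 : 0 ≤ M := by rw [hMdef]; positivity
  have hdiag : ∀ i, |Φ i i| ≤ M := by
    intro i
    have h := hM (Pi.single i 1) (by
      rw [pi_norm_le_iff_of_nonneg zero_le_one]
      intro a
      by_cases ha : a = i
      · subst ha; simp
      · simp [Pi.single_apply, ha])
    rwa [wgqx_single] at h
  have hall : ∀ i l, |Φ i l| ≤ 3 / 2 * M := by
    intro i l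
    by_cases hil : i = l
    · subst hil; exact (hdiag i).trans (by linarith)
    · have h := hM (Pi.single i 1 + Pi.single l 1) (by
        rw [pi_norm_le_iff_of_nonneg zero_le_one]
        intro a
        by_cases ha : a = i
        · subst ha; simp [Pi.single_apply, hil]
        · by_cases ha' : a = l
          · subst ha'; simp [Pi.single_apply, ha]
          · simp [Pi.single_apply, ha, ha'])
      simp only [Pi.add_apply] at h
      rw [wgqx_pair, ← hsym i l] at h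
      have h1 := abs_le.1 (hdiag i)
      have h2 := abs_le.1 (hdiag l)
      have h3 := abs_le.1 h
      rw [abs_le]
      constructor <;> linarith [h1.1, h1.2, h2.1, h2.2, h3.1, h3.2]
  have hfin : bb ≤ 3 * (Kq * (1 + n * S) ^ 2) * q2 := by
    refine wgqx_arith (Kq * (1 + n * S) ^ 2) q1 q2 bb (by positivity) hbb0 (by linarith) ?_
    have := hall p.1 p.2
    rw [← hbb, hMdef] at this
    linarith
  calc |Φ i0 l0| ≤ bb := hmax i0 l0
    _ ≤ 3 * (Kq * (1 + n * S) ^ 2) * q2 := hfin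
    _ = 3 * Kq * (1 + n * S) ^ 2 * q2 := by ring

/-- basis vector with an index in `ℕ` (zero if `j ≥ n`) -/
def wgE {n : ℕ} (j : ℕ) : Fin n → ℝ := fun i => if (i : ℕ) = j then 1 else 0

/-- GOOD BASE SETS.  `x ∈ wgGood f ℓ ε (j+1)`: the segment `x + [-ℓ,ℓ] e_j` avoids `{f = 0}` and all but an `ε`-fraction of it lies in `wgGood f ℓ ε j`. -/
noncomputable def wgGood {n : ℕ} (f : (Fin n → ℝ) → ℝ) (ℓ ε : ℝ) : ℕ → Set (Fin n → ℝ)
  | 0 => univ
  | (j + 1) => {x | (∀ s ∈ Icc (-ℓ) ℓ, f (x + s • wgE j) ≠ 0) ∧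
      volume {s : ℝ | s ∈ Icc (-ℓ) ℓ ∧ x + s • wgE j ∉ wgGood f ℓ ε j} ≤ ENNReal.ofReal (ε * (2 * ℓ))}

/-- the axis path from `x` (`j = n`) to `z` (`j = 0`): coordinates `≥ j` already replaced -/
def wgPath {n : ℕ} (x z : Fin n → ℝ) (j : ℕ) : Fin n → ℝ := fun i => if j ≤ (i : ℕ) then z i else x i

/-- base points whose segment meets the zero set: a closed set -/
theorem wg_gb_closed {n : ℕ} (f : (Fin n → ℝ) → ℝ) (hf : Continuous f) (ℓ : ℝ) (e : Fin n → ℝ) :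
    IsClosed {x : Fin n → ℝ | ∃ s ∈ Icc (-ℓ) ℓ, f (x + s • e) = 0} := by
  have h1 : IsClosed {z : (Fin n → ℝ) × (Icc (-ℓ) ℓ) | f (z.1 + (z.2 : ℝ) • e) = 0} :=
    isClosed_eq (hf.comp (continuous_fst.add ((continuous_subtype_val.comp continuous_snd).smul continuous_const)))
      continuous_const
  have h2 := isClosedMap_fst_of_compactSpace _ h1
  convert h2 using 1
  ext x
  constructor
  · rintro ⟨s, hs, h⟩
    exact ⟨(x, ⟨s, hs⟩), h, rfl⟩
  · rintro ⟨⟨y, s⟩, h, rfl⟩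
    exact ⟨s, s.2, h⟩

/-- **LEAF L-WG-GB1.**  Induction on `j`.  First condition: the complement `{x | ∃ s ∈ Icc, f (x + s • e) = 0}` is closed (projection of a closed set along the compact `Icc`: `IsCompact.isClosed`-type: `isClosed_iff_clusterPt`/sequences, or `IsClosedMap` `isClosedMap_fst_of_compactSpace` on `X × Icc`).
Second: `{(x, s) | s ∈ Icc ∧ x + s • e ∉ G_j}` is measurable in the product, `measurable_measure_prodMk_left`, `measurableSet_le`. -/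
theorem wgGood_measurable {n : ℕ} (f : (Fin n → ℝ) → ℝ) (hf : Continuous f) (ℓ ε : ℝ) (j : ℕ) :
    MeasurableSet (wgGood f ℓ ε j) := by
  induction j with
  | zero => exact MeasurableSet.univ
  | succ j ih =>
    have h1 : MeasurableSet {x : Fin n → ℝ | ∀ s ∈ Icc (-ℓ) ℓ, f (x + s • wgE j) ≠ 0} := by
      have := (wg_gb_closed f hf ℓ (wgE j)).measurableSet.compl
      convert this using 1
      ext x
      simp only [Set.mem_ofPred_eq, mem_compl_iff, not_exists, not_and, ne_eq]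
    have hT : MeasurableSet {z : (Fin n → ℝ) × ℝ | z.2 ∈ Icc (-ℓ) ℓ ∧ z.1 + z.2 • wgE j ∉ wgGood f ℓ ε j} := by
      have hc : Measurable fun z : (Fin n → ℝ) × ℝ => z.1 + z.2 • (wgE j : Fin n → ℝ) :=
        (continuous_fst.add (continuous_snd.smul continuous_const)).measurable
      exact (measurable_snd measurableSet_Icc).inter (hc ih).compl
    have hm := measurable_measure_prodMk_left (ν := (volume : Measure ℝ)) hT
    exact h1.inter (measurableSet_le hm measurable_const)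

/-- **LEAF L-WG-GB2 (segments meeting the critical set).**  `wg_slab_bound` with `k = j`, `v = Pi.single j 1 = wgE j`, `c = 0`, `ρ = Λ`; on a generic line the zeros lie in a finset `Z`, `card ≤ N` (`hf.line`), and the section is contained in `⋃ c ∈ Z, Icc (c - ℓ) (c + ℓ)`.  Measurable: closed, as in `wgGood_measurable`. -/
theorem wg_crit_segment_volume {n N : ℕ} (f : (Fin n → ℝ) → ℝ) (hf : MK.Tame n N f) (ℓ : ℝ) (hℓ : 0 ≤ ℓ) (j : Fin n) (Λ : ℝ)
    (hΛ : 0 ≤ Λ) :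
    volume {x : Fin n → ℝ | x ∈ closedBall 0 Λ ∧ ∃ s ∈ Icc (-ℓ) ℓ, f (x + s • wgE (j : ℕ)) = 0}
      ≤ ENNReal.ofReal ((2 * Λ) ^ (n - 1) * (N * (2 * ℓ))) := by
  have hvj : (wgE (j : ℕ) : Fin n → ℝ) j = 1 := by simp [wgE]
  have hvi : ∀ i : Fin n, i ≠ j → (wgE (j : ℕ) : Fin n → ℝ) i = 0 := by
    intro i hi
    simp only [wgE]
    rw [if_neg fun h => hi (Fin.ext h)]
  have hS : MeasurableSet {x : Fin n → ℝ | x ∈ closedBall 0 Λ ∧ ∃ s ∈ Icc (-ℓ) ℓ, f (x + s • wgE (j : ℕ)) = 0} :=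
    measurableSet_closedBall.inter (wg_gb_closed f hf.cont ℓ (wgE (j : ℕ))).measurableSet
  have h := wg_slab_bound j (wgE (j : ℕ)) 0 (by rw [hvj]; exact one_ne_zero) Λ (N * (2 * ℓ)) hΛ (by positivity) _ hS
    (fun x hx i hi => ?_) f hf (fun a ha => ?_)
  · rw [hvj, abs_one, one_mul] at h
    exact h
  · rw [hvi i hi, mul_zero, sub_zero, Pi.zero_apply, sub_zero]
    exact (norm_le_pi_norm x i).trans (mem_closedBall_zero_iff.1 hx.1)
  · rcases hf.line a (wgE (j : ℕ)) with h0 | ⟨Z, hZ, hZm⟩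
    · exact absurd h0 ha
    · have hsub : {s : ℝ | a + s • wgE (j : ℕ) ∈ {x : Fin n → ℝ | x ∈ closedBall 0 Λ ∧
          ∃ s ∈ Icc (-ℓ) ℓ, f (x + s • wgE (j : ℕ)) = 0}} ⊆ ⋃ c ∈ Z, Icc (c - ℓ) (c + ℓ) := by
        rintro s ⟨-, s', hs', h0⟩
        rw [add_assoc, ← add_smul] at h0
        have hc := hZm _ h0
        simp only [mem_iUnion, exists_prop]
        exact ⟨s + s', hc, by constructor <;> linarith [hs'.1, hs'.2]⟩
      refine (measure_mono hsub).trans ((measure_biUnion_finset_le Z _).trans ?_)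
      have e : ∀ c : ℝ, c + ℓ - (c - ℓ) = 2 * ℓ := fun c => by ring
      simp only [Real.volume_Icc, e]
      rw [Finset.sum_const, nsmul_eq_mul, ENNReal.ofReal_mul (Nat.cast_nonneg N), ENNReal.ofReal_natCast]
      gcongr

/-- **LEAF L-WG-GB3 (Markov on lines).**  `∫⁻ x in closedBall 0 Λ, volume {s ∈ Icc | x + s • e ∉ G} = ∫⁻ s in Icc, volume {x ∈ closedBall 0 Λ | x + s • e ∉ G} ≤ 2ℓ volume (closedBall 0 (Λ+ℓ) \ G)` (Tonelli, translation invariance `measure_preimage_add_right`, `‖e‖ ≤ 1`), then `mul_meas_ge_le_lintegral`. -/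
theorem wg_markov_segment {n : ℕ} (G : Set (Fin n → ℝ)) (hG : MeasurableSet G) (e : Fin n → ℝ) (he : ‖e‖ ≤ 1) (ℓ ε Λ : ℝ)
    (hℓ : 0 < ℓ) (hε : 0 < ε) :
    volume {x : Fin n → ℝ | x ∈ closedBall 0 Λ ∧
        ENNReal.ofReal (ε * (2 * ℓ)) < volume {s : ℝ | s ∈ Icc (-ℓ) ℓ ∧ x + s • e ∉ G}}
      ≤ ENNReal.ofReal (1 / ε) * volume (closedBall (0 : Fin n → ℝ) (Λ + ℓ) \ G) := by
  have hT : MeasurableSet {z : (Fin n → ℝ) × ℝ | z.1 ∈ closedBall (0 : Fin n → ℝ) Λ ∧ z.2 ∈ Icc (-ℓ) ℓ ∧ z.1 + z.2 • e ∉ G} := by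
    have hc : Measurable fun z : (Fin n → ℝ) × ℝ => z.1 + z.2 • e :=
      (continuous_fst.add (continuous_snd.smul continuous_const)).measurable
    exact (measurable_fst measurableSet_closedBall).inter ((measurable_snd measurableSet_Icc).inter (hc hG).compl)
  have hm := measurable_measure_prodMk_left (ν := (volume : Measure ℝ)) hT
  have h1 : ENNReal.ofReal (ε * (2 * ℓ)) * volume {x : Fin n → ℝ | x ∈ closedBall 0 Λ ∧
        ENNReal.ofReal (ε * (2 * ℓ)) < volume {s : ℝ | s ∈ Icc (-ℓ) ℓ ∧ x + s • e ∉ G}}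
      ≤ ((volume : Measure (Fin n → ℝ)).prod (volume : Measure ℝ))
          {z : (Fin n → ℝ) × ℝ | z.1 ∈ closedBall (0 : Fin n → ℝ) Λ ∧ z.2 ∈ Icc (-ℓ) ℓ ∧ z.1 + z.2 • e ∉ G} := by
    rw [Measure.prod_apply hT]
    refine le_trans ?_ (mul_meas_ge_le_lintegral hm (ENNReal.ofReal (ε * (2 * ℓ))))
    refine mul_le_mul' le_rfl (measure_mono ?_)
    rintro x ⟨hx, hlt⟩
    refine hlt.le.trans (measure_mono fun s hs => ?_)
    exact ⟨hx, hs.1, hs.2⟩
  have h2 : ((volume : Measure (Fin n → ℝ)).prod (volume : Measure ℝ))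
          {z : (Fin n → ℝ) × ℝ | z.1 ∈ closedBall (0 : Fin n → ℝ) Λ ∧ z.2 ∈ Icc (-ℓ) ℓ ∧ z.1 + z.2 • e ∉ G}
      ≤ ENNReal.ofReal (2 * ℓ) * volume (closedBall (0 : Fin n → ℝ) (Λ + ℓ) \ G) := by
    rw [Measure.prod_apply_symm hT]
    calc _ ≤ ∫⁻ s : ℝ, (Icc (-ℓ) ℓ).indicator (fun _ => volume (closedBall (0 : Fin n → ℝ) (Λ + ℓ) \ G)) s := by
          refine lintegral_mono fun s => ?_
          by_cases hs : s ∈ Icc (-ℓ) ℓ
          · rw [indicator_of_mem hs, ← measure_preimage_add_right volume (s • e) (closedBall (0 : Fin n → ℝ) (Λ + ℓ) \ G)]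
            refine measure_mono fun x hx => ?_
            refine ⟨?_, hx.2.2⟩
            have hx1 : ‖x‖ ≤ Λ := mem_closedBall_zero_iff.1 hx.1
            rw [mem_closedBall_zero_iff]
            refine (norm_add_le _ _).trans (add_le_add hx1 ?_)
            rw [norm_smul, Real.norm_eq_abs]
            have h3 : |s| ≤ ℓ := abs_le.2 hs
            calc |s| * ‖e‖ ≤ ℓ * 1 := mul_le_mul h3 he (norm_nonneg _) hℓ.le
              _ = ℓ := mul_one _
          · rw [indicator_of_notMem hs]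
            exact le_of_eq (measure_mono_null (fun x hx => hs hx.2.1) measure_empty)
      _ = ENNReal.ofReal (2 * ℓ) * volume (closedBall (0 : Fin n → ℝ) (Λ + ℓ) \ G) := by
          rw [lintegral_indicator measurableSet_Icc, setLIntegral_const, Real.volume_Icc, mul_comm]
          congr 2
          ring
  have h3 := h1.trans h2
  generalize volume {x : Fin n → ℝ | x ∈ closedBall 0 Λ ∧
        ENNReal.ofReal (ε * (2 * ℓ)) < volume {s : ℝ | s ∈ Icc (-ℓ) ℓ ∧ x + s • e ∉ G}} = X at h3 ⊢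
  rw [mul_comm ε, ENNReal.ofReal_mul (by positivity), mul_assoc] at h3
  have h4 := (ENNReal.mul_le_mul_iff_right (ENNReal.ofReal_pos.2 (by positivity : 0 < 2 * ℓ)).ne' ENNReal.ofReal_ne_top).1 h3
  calc X = ENNReal.ofReal (1 / ε) * (ENNReal.ofReal ε * X) := by
        rw [← mul_assoc, ← ENNReal.ofReal_mul (by positivity), one_div, inv_mul_cancel₀ hε.ne', ENNReal.ofReal_one, one_mul]
    _ ≤ _ := by gcongr

/-- helper of GB4/GB5: the basis vectors have sup norm at most one -/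
theorem wg_gb4_normE {n : ℕ} (j : ℕ) : ‖(wgE j : Fin n → ℝ)‖ ≤ 1 := by
  rw [pi_norm_le_iff_of_nonneg zero_le_one]
  intro i
  unfold wgE
  split_ifs <;> simp

/-- **LEAF L-WG-GB4 (most base points are good).**  Induction on `j` (for all `Λ`): `closedBall 0 Λ \ G_{j+1}` is contained in the union of the sets of `wg_crit_segment_volume` and `wg_markov_segment` (`G = G_j`);
`b_{j+1}(Λ) ≤ (2Λ)^(n-1) N 2ℓ + (1/ε) b_j(Λ+ℓ)`, and `1 ≤ (1/ε)^(j+1)`, monotonicity in `Λ`. -/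
theorem wgGood_compl_volume {n N : ℕ} (f : (Fin n → ℝ) → ℝ) (hf : MK.Tame n N f) (ℓ ε : ℝ) (hℓ : 0 < ℓ) (hε : 0 < ε)
    (hε1 : ε ≤ 1) (j : ℕ) (hj : j ≤ n) (Λ : ℝ) (hΛ : 0 ≤ Λ) :
    volume (closedBall (0 : Fin n → ℝ) Λ \ wgGood f ℓ ε j)
      ≤ ENNReal.ofReal (j * (1 / ε) ^ j * ((2 * (Λ + j * ℓ)) ^ (n - 1) * (N * (2 * ℓ)))) := by
  induction j generalizing Λ with
  | zero => simp [wgGood]
  | succ j ih =>
    have hjn : j < n := hj
    have ih' := ih (by omega) (Λ + ℓ) (by linarith)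
    have hsub : closedBall (0 : Fin n → ℝ) Λ \ wgGood f ℓ ε (j + 1) ⊆
        {x : Fin n → ℝ | x ∈ closedBall 0 Λ ∧ ∃ s ∈ Icc (-ℓ) ℓ, f (x + s • wgE ((⟨j, hjn⟩ : Fin n) : ℕ)) = 0} ∪
        {x : Fin n → ℝ | x ∈ closedBall 0 Λ ∧
          ENNReal.ofReal (ε * (2 * ℓ)) < volume {s : ℝ | s ∈ Icc (-ℓ) ℓ ∧ x + s • wgE j ∉ wgGood f ℓ ε j}} := by
      rintro x ⟨hx1, hx2⟩
      by_contra hcon
      apply hx2
      rw [mem_union, not_or] at hcon
      obtain ⟨c1, c2⟩ := hcon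
      refine ⟨fun s hs h0 => c1 ⟨hx1, s, hs, h0⟩, ?_⟩
      by_contra hlt
      exact c2 ⟨hx1, not_le.1 hlt⟩
    have hE : 1 ≤ (1 / ε) ^ (j + 1) := one_le_pow₀ (by rw [le_div_iff₀ hε]; linarith)
    have hN0 : (0 : ℝ) ≤ N := Nat.cast_nonneg N
    have hj0 : (0 : ℝ) ≤ j := Nat.cast_nonneg j
    have ha0 : 0 ≤ (2 * Λ) ^ (n - 1) * (N * (2 * ℓ)) := by positivity
    have hb0 : 0 ≤ j * (1 / ε) ^ j * ((2 * (Λ + ℓ + j * ℓ)) ^ (n - 1) * (N * (2 * ℓ))) := by positivity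
    calc volume (closedBall (0 : Fin n → ℝ) Λ \ wgGood f ℓ ε (j + 1)) ≤ _ := measure_mono hsub
      _ ≤ _ := measure_union_le _ _
      _ ≤ ENNReal.ofReal ((2 * Λ) ^ (n - 1) * (N * (2 * ℓ)))
            + ENNReal.ofReal (1 / ε) * volume (closedBall (0 : Fin n → ℝ) (Λ + ℓ) \ wgGood f ℓ ε j) :=
          add_le_add (wg_crit_segment_volume f hf ℓ hℓ.le ⟨j, hjn⟩ Λ hΛ)
            (wg_markov_segment _ (wgGood_measurable f hf.cont ℓ ε j) _ (wg_gb4_normE j) ℓ ε Λ hℓ hε)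
      _ ≤ ENNReal.ofReal ((2 * Λ) ^ (n - 1) * (N * (2 * ℓ)))
            + ENNReal.ofReal (1 / ε) * ENNReal.ofReal (j * (1 / ε) ^ j * ((2 * (Λ + ℓ + j * ℓ)) ^ (n - 1) * (N * (2 * ℓ)))) := by
          gcongr
      _ = ENNReal.ofReal ((2 * Λ) ^ (n - 1) * (N * (2 * ℓ))
            + 1 / ε * (j * (1 / ε) ^ j * ((2 * (Λ + ℓ + j * ℓ)) ^ (n - 1) * (N * (2 * ℓ))))) := by
          rw [← ENNReal.ofReal_mul (by positivity), ← ENNReal.ofReal_add ha0 (by positivity)]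
      _ ≤ _ := by
          apply ENNReal.ofReal_le_ofReal
          push_cast
          have e1 : Λ + ℓ + j * ℓ = Λ + (j + 1) * ℓ := by ring
          rw [e1]
          have hX : (2 * Λ) ^ (n - 1) * (N * (2 * ℓ)) ≤ (2 * (Λ + (j + 1) * ℓ)) ^ (n - 1) * (N * (2 * ℓ)) := by
            gcongr
            nlinarith
          have hX0 : 0 ≤ (2 * (Λ + (j + 1) * ℓ)) ^ (n - 1) * (N * (2 * ℓ)) := by positivity
          set X := (2 * (Λ + (j + 1) * ℓ)) ^ (n - 1) * (N * (2 * ℓ)) with hXdef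
          have e2 : 1 / ε * (j * (1 / ε) ^ j * X) = j * (1 / ε) ^ (j + 1) * X := by ring
          rw [e2]
          have : X ≤ (1 / ε) ^ (j + 1) * X := le_mul_of_one_le_left hX0 hE
          nlinarith

/-- helper of GB5: the constant `1` is tame -/
theorem wg_gb5_tame (n : ℕ) : MK.Tame n 0 (fun _ : Fin n → ℝ => (1 : ℝ)) :=
  ⟨continuous_const, by simp, fun _ _ => Or.inr ⟨∅, by simp, fun t h => absurd h one_ne_zero⟩⟩

/-- helper of GB5: the path is continuous in the end point -/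
theorem wg_gb5_path_cont {n : ℕ} (x : Fin n → ℝ) (j : ℕ) : Continuous fun z : Fin n → ℝ => wgPath x z j := by
  refine continuous_pi fun i => ?_
  unfold wgPath
  by_cases h : j ≤ (i : ℕ)
  · simp only [h, if_true]; exact continuous_apply i
  · simp only [h, if_false]; exact continuous_const

/-- helper of GB5: one step of the path -/
theorem wg_gb5_path_step {n : ℕ} (x z : Fin n → ℝ) (j : Fin n) :
    wgPath x z (j : ℕ) = wgPath x z ((j : ℕ) + 1) + (z j - x j) • wgE (j : ℕ) := by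
  funext i
  simp only [wgPath, wgE, Pi.add_apply, Pi.smul_apply, smul_eq_mul]
  rcases lt_trichotomy (i : ℕ) (j : ℕ) with h | h | h
  · have h1 : ¬ (j : ℕ) ≤ i := by omega
    have h2 : ¬ (j : ℕ) + 1 ≤ i := by omega
    have h3 : ¬ (i : ℕ) = j := by omega
    simp [h1, h2, h3]
  · have h1 : (j : ℕ) ≤ i := by omega
    have h2 : ¬ (j : ℕ) + 1 ≤ i := by omega
    have hij : i = j := Fin.ext h
    simp [hij]
  · have h1 : (j : ℕ) ≤ i := by omega
    have h2 : (j : ℕ) + 1 ≤ i := by omega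
    have h3 : ¬ (i : ℕ) = j := by omega
    simp [h1, h2, h3]

/-- helper of GB5: the later part of the path does not see the coordinate `j` -/
theorem wg_gb5_path_indep {n : ℕ} (x a : Fin n → ℝ) (j : Fin n) (s : ℝ) :
    wgPath x (a + s • (Pi.single j 1 : Fin n → ℝ)) ((j : ℕ) + 1) = wgPath x a ((j : ℕ) + 1) := by
  funext i
  simp only [wgPath, Pi.add_apply, Pi.smul_apply, smul_eq_mul]
  by_cases h : (j : ℕ) + 1 ≤ i
  · have hij : i ≠ j := by intro hij; rw [hij] at h; omega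
    simp [h, Pi.single_eq_of_ne hij]
  · simp [h]

/-- helper of GB5: the bad set of one step -/
theorem wg_gb5_step {n : ℕ} (f : (Fin n → ℝ) → ℝ) (hf : Continuous f) (ℓ ε : ℝ) (hℓ : 0 < ℓ) (hε : 0 < ε)
    (x : Fin n → ℝ) (j : Fin n) :
    volume {z : Fin n → ℝ | z ∈ closedBall x ℓ ∧ wgPath x z ((j : ℕ) + 1) ∈ wgGood f ℓ ε ((j : ℕ) + 1) ∧
        wgPath x z (j : ℕ) ∉ wgGood f ℓ ε (j : ℕ)} ≤ ENNReal.ofReal (ε * (2 * ℓ) ^ n) := by
  have hmeas : MeasurableSet {z : Fin n → ℝ | z ∈ closedBall x ℓ ∧ wgPath x z ((j : ℕ) + 1) ∈ wgGood f ℓ ε ((j : ℕ) + 1) ∧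
        wgPath x z (j : ℕ) ∉ wgGood f ℓ ε (j : ℕ)} := by
    have h1 : MeasurableSet ((fun z : Fin n → ℝ => wgPath x z ((j : ℕ) + 1)) ⁻¹' wgGood f ℓ ε ((j : ℕ) + 1)) :=
      (wg_gb5_path_cont x _).measurable (wgGood_measurable f hf ℓ ε _)
    have h2 : MeasurableSet ((fun z : Fin n → ℝ => wgPath x z (j : ℕ)) ⁻¹' wgGood f ℓ ε (j : ℕ)) :=
      (wg_gb5_path_cont x _).measurable (wgGood_measurable f hf ℓ ε _)
    exact measurableSet_closedBall.inter (h1.inter h2.compl)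
  have key := wg_slab_bound (N := 0) j (Pi.single j 1 : Fin n → ℝ) x (by simp) ℓ (ε * (2 * ℓ)) hℓ.le (by positivity) _ hmeas
    ?_ (fun _ => (1 : ℝ)) (wg_gb5_tame n) ?_
  · refine key.trans (le_of_eq ?_)
    congr 1
    have hn : n = (n - 1) + 1 := by have := j.2; omega
    simp only [Pi.single_eq_same, abs_one, one_mul]
    conv_rhs => rw [hn, pow_succ]
    ring
  · rintro z ⟨hz, -⟩ i hi
    rw [Pi.single_eq_of_ne hi, mul_zero, sub_zero]
    have := (dist_pi_le_iff hℓ.le).1 (mem_closedBall.1 hz) i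
    rwa [Real.dist_eq] at this
  · intro a _
    by_cases hu : wgPath x a ((j : ℕ) + 1) ∈ wgGood f ℓ ε ((j : ℕ) + 1)
    · have hu2 : volume {s : ℝ | s ∈ Icc (-ℓ) ℓ ∧ wgPath x a ((j : ℕ) + 1) + s • wgE (j : ℕ) ∉ wgGood f ℓ ε (j : ℕ)}
          ≤ ENNReal.ofReal (ε * (2 * ℓ)) := hu.2
      refine le_trans ?_ hu2
      have hsub : {s : ℝ | a + s • (Pi.single j 1 : Fin n → ℝ) ∈ {z : Fin n → ℝ | z ∈ closedBall x ℓ ∧
          wgPath x z ((j : ℕ) + 1) ∈ wgGood f ℓ ε ((j : ℕ) + 1) ∧ wgPath x z (j : ℕ) ∉ wgGood f ℓ ε (j : ℕ)}} ⊆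
          (fun s : ℝ => s + (a j - x j)) ⁻¹' {s : ℝ | s ∈ Icc (-ℓ) ℓ ∧ wgPath x a ((j : ℕ) + 1) + s • wgE (j : ℕ) ∉ wgGood f ℓ ε (j : ℕ)} := by
        rintro s ⟨hz, -, hbad⟩
        have hzj : (a + s • (Pi.single j 1 : Fin n → ℝ)) j - x j = s + (a j - x j) := by
          simp only [Pi.add_apply, Pi.smul_apply, smul_eq_mul, Pi.single_eq_same]; ring
        constructor
        · have := (dist_pi_le_iff hℓ.le).1 (mem_closedBall.1 hz) j
          rw [Real.dist_eq, hzj] at this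
          exact abs_le.1 this
        · rw [wg_gb5_path_step, wg_gb5_path_indep, hzj] at hbad
          exact hbad
      refine (measure_mono hsub).trans (le_of_eq ?_)
      exact measure_preimage_add_right volume (a j - x j) _
    · have hempty : {s : ℝ | a + s • (Pi.single j 1 : Fin n → ℝ) ∈ {z : Fin n → ℝ | z ∈ closedBall x ℓ ∧
          wgPath x z ((j : ℕ) + 1) ∈ wgGood f ℓ ε ((j : ℕ) + 1) ∧ wgPath x z (j : ℕ) ∉ wgGood f ℓ ε (j : ℕ)}} = ∅ := by
        ext s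
        simp only [mem_ofPred_eq, mem_empty_iff_false, iff_false]
        rintro ⟨-, h2, -⟩
        rw [wg_gb5_path_indep] at h2
        exact hu h2
      rw [hempty]; simp

/-- **LEAF L-WG-GB5 (most axis paths from a good point are good).**  If some `wgPath x z j ∉ G_j`, take the LARGEST such `j` (`j < n` since `wgPath x z n = x ∈ G_n`): `u = wgPath x z (j+1) ∈ G_{j+1}` and `wgPath x z j = u + (z j - x j) • e_j ∉ G_j`.  `u` does not depend on the coordinate `z j`.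
Fubini in the coordinate `j` (`volume_preserving_piFinSuccAbove`/`lmarginal`, as in `MK.om_axis_le`): for fixed other coordinates the set of `z j ∈ [x j - ℓ, x j + ℓ]` has measure `≤ ε 2ℓ` (definition of `G_{j+1}`, translation by `x j`); the other coordinates range over a cube of volume `(2ℓ)^(n-1)`.  Sum over `j < n`. -/
theorem wg_path_bad_volume {n : ℕ} (f : (Fin n → ℝ) → ℝ) (hf : Continuous f) (ℓ ε : ℝ) (hℓ : 0 < ℓ) (hε : 0 < ε)
    (x : Fin n → ℝ) (hx : x ∈ wgGood f ℓ ε n) :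
    volume {z : Fin n → ℝ | z ∈ closedBall x ℓ ∧ ∃ j, j ≤ n ∧ wgPath x z j ∉ wgGood f ℓ ε j}
      ≤ ENNReal.ofReal (n * ε * (2 * ℓ) ^ n) := by
  have hsub : {z : Fin n → ℝ | z ∈ closedBall x ℓ ∧ ∃ j, j ≤ n ∧ wgPath x z j ∉ wgGood f ℓ ε j} ⊆
      ⋃ j : Fin n, {z : Fin n → ℝ | z ∈ closedBall x ℓ ∧ wgPath x z ((j : ℕ) + 1) ∈ wgGood f ℓ ε ((j : ℕ) + 1) ∧
        wgPath x z (j : ℕ) ∉ wgGood f ℓ ε (j : ℕ)} := by
    rintro z ⟨hz, hex⟩
    have hxn : wgPath x z n = x := by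
      funext i
      have : ¬ n ≤ (i : ℕ) := by have := i.2; omega
      simp [wgPath, this]
    -- the largest bad index
    classical
    obtain ⟨j, hj, hmax⟩ : ∃ j, (j ≤ n ∧ wgPath x z j ∉ wgGood f ℓ ε j) ∧
        ∀ k, (k ≤ n ∧ wgPath x z k ∉ wgGood f ℓ ε k) → k ≤ j := by
      have hne : ((Finset.range (n + 1)).filter fun j => wgPath x z j ∉ wgGood f ℓ ε j).Nonempty := by
        obtain ⟨j, hj1, hj2⟩ := hex
        exact ⟨j, Finset.mem_filter.2 ⟨Finset.mem_range.2 (by omega), hj2⟩⟩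
      refine ⟨((Finset.range (n + 1)).filter fun j => wgPath x z j ∉ wgGood f ℓ ε j).max' hne, ?_, ?_⟩
      · have := Finset.max'_mem _ hne
        rw [Finset.mem_filter, Finset.mem_range] at this
        exact ⟨by omega, this.2⟩
      · intro k hk
        exact Finset.le_max' _ _ (Finset.mem_filter.2 ⟨Finset.mem_range.2 (by omega), hk.2⟩)
    have hjn : j < n := by
      rcases Nat.lt_or_ge j n with h | h
      · exact h
      · exfalso
        have : j = n := le_antisymm hj.1 h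
        rw [this, hxn] at hj
        exact hj.2 hx
    refine mem_iUnion.2 ⟨⟨j, hjn⟩, hz, ?_, hj.2⟩
    by_contra hbad
    have := hmax (j + 1) ⟨hjn, hbad⟩
    omega
  calc volume _ ≤ _ := measure_mono hsub
    _ ≤ ∑ j : Fin n, _ := measure_iUnion_fintype_le _ _
    _ ≤ ∑ _j : Fin n, ENNReal.ofReal (ε * (2 * ℓ) ^ n) := Finset.sum_le_sum fun j _ => wg_gb5_step f hf ℓ ε hℓ hε x j
    _ = ENNReal.ofReal (n * ε * (2 * ℓ) ^ n) := by
        rw [Finset.sum_const, Finset.card_univ, Fintype.card_fin, nsmul_eq_mul, mul_assoc,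
          ENNReal.ofReal_mul (Nat.cast_nonneg n), ENNReal.ofReal_natCast]

open Classical in
/-- tests defining the good part of the wall -/
noncomputable def wgTgg {n : ℕ} (P : MvPolynomial (Fin (n + 1)) ℝ) (S κ : ℝ) : Finset (MvPolynomial (Fin (n + 1)) ℝ) :=
  (Finset.univ.image fun k : Fin n => wgTs P k S) ∪ (Finset.univ.image fun q : Fin n × Fin n => wgTh P q.1 q.2 κ)

/-- the good part of the wall: regular, slope `≤ S`, formal Hessian `≤ κ` -/
def wgGG {n : ℕ} (P : MvPolynomial (Fin (n + 1)) ℝ) (S κ : ℝ) : Set (Fin (n + 1) → ℝ) :=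
  {p | eval p P = 0 ∧ eval p (pderiv 0 P) ≠ 0 ∧ (∀ k, |wgG P k p| ≤ S) ∧ ∀ i l, |wgPhi P i l p| ≤ κ}

theorem wg_sum_mul_wgE {n : ℕ} (c : Fin n → ℝ) (j : Fin n) : ∑ l, c l * (wgE (j : ℕ) : Fin n → ℝ) l = c j := by
  rw [Finset.sum_eq_single j]
  · simp [wgE]
  · intro l _ hl
    have : (l : ℕ) ≠ (j : ℕ) := fun h => hl (Fin.ext h)
    simp [wgE, this]
  · intro h; exact absurd (Finset.mem_univ j) h

/-- **LEAF L-WG-LEG (one leg).**  `q = wgPt P i (tail q)` for some `i < wgNr` (`wgRt_basic`, `wgRR_spec`, `Fin.cons_self_tail`).  `I = Icc (-ℓ) ℓ`, line `tail q + s • e_j`.  `wg_branch_const`: same branch, all tests of `wgTgg` keep their sign `≤ 0`, so the lifted segment stays in `wgGG` (`wg_tests_meaning`).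
`wg_G_hasDerivAt`: `(g_k)' = Φ_kj`, `|Φ_kj| ≤ κ`: mean value inequality (`Convex.norm_image_sub_le_of_norm_hasDerivWithin_le`/`image_le_of_deriv..`) gives `|g_k(q') - g_k(q)| ≤ κ |t|`.  `wg_branch_hasDerivAt`: `τ' = g_j`; `r ↦ τ r - τ 0 - g_j(q) r` has derivative bounded by `κ |r| ≤ κ |t|`: `≤ κ t²`. -/
theorem wg_leg {n : ℕ} (P : MvPolynomial (Fin (n + 1)) ℝ) (S κ : ℝ) (hS : 0 ≤ S) (hκ : 0 ≤ κ) (q : Fin (n + 1) → ℝ)
    (hq : q ∈ wgGG P S κ) (j : Fin n) (ℓ : ℝ)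
    (hseg : ∀ s ∈ Icc (-ℓ) ℓ, eval (Fin.tail q + s • wgE (j : ℕ)) (wgRR P (wgTgg P S κ)) ≠ 0) (t : ℝ) (ht : t ∈ Icc (-ℓ) ℓ) :
    ∃ q' ∈ wgGG P S κ, Fin.tail q' = Fin.tail q + t • wgE (j : ℕ) ∧ (∀ k, |wgG P k q' - wgG P k q| ≤ κ * |t|) ∧
      |q' 0 - q 0 - wgG P j q * t| ≤ κ * t ^ 2 := by
  obtain ⟨hq1, hq2, hq3, hq4⟩ := hq
  set x : Fin n → ℝ := Fin.tail q with hx
  set e : Fin n → ℝ := wgE (j : ℕ) with he
  set T := wgTgg P S κ with hT
  have h0I : (0 : ℝ) ∈ Icc (-ℓ) ℓ := ⟨by linarith [ht.1, ht.2], by linarith [ht.1, ht.2]⟩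
  have hx0 : x + (0 : ℝ) • e = x := by simp
  have hU0 : eval x (wgRR P T) ≠ 0 := by have := hseg 0 h0I; rwa [hx0] at this
  have hqc : (Fin.cons (q 0) x : Fin (n + 1) → ℝ) = q := Fin.cons_self_tail q
  obtain ⟨hV0, -, -, -⟩ := wgRR_spec P T x hU0
  have hroot : (wgV P x).eval (q 0) = 0 := by rw [wgV_eval, hqc]; exact hq1
  obtain ⟨i, hi, hiq⟩ := (wgRt_basic (wgV P x) hV0).2.2.1 (q 0) hroot
  set pt : ℝ → Fin (n + 1) → ℝ := fun s => wgPt P i (x + s • e) with hpt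
  have hpt0 : pt 0 = q := by
    simp only [hpt, hx0, wgPt, hiq, hqc]
  obtain ⟨hc1, hc2⟩ := wg_branch_const P T x e (Icc (-ℓ) ℓ) ordConnected_Icc hseg 0 h0I
  rw [hx0] at hc1 hc2
  have hiI : ∀ s ∈ Icc (-ℓ) ℓ, i < wgNr (wgV P (x + s • e)) := fun s hs => by rw [hc1 s hs]; exact hi
  have hpx : wgPt P i x = q := by rw [← hpt0]; simp only [hpt, hx0]
  have hsg : ∀ G ∈ T, ∀ s ∈ Icc (-ℓ) ℓ, SignType.sign (eval (pt s) G) = SignType.sign (eval q G) :=
    fun G hG s hs => (hc2 i hi G hG s hs).trans (by rw [hpx])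
  -- the lifted segment stays in the good part
  have hGG : ∀ s ∈ Icc (-ℓ) ℓ, pt s ∈ wgGG P S κ := by
    intro s hs
    obtain ⟨b1, b2, -⟩ := wg_branch_hasDerivAt P T x e i s (hseg s hs) (hiI s hs)
    refine ⟨b1, b2, fun k => ?_, fun a b => ?_⟩
    · have m0 := (wg_tests_meaning P q hq2 0 k k k 0 0 S 0 le_rfl le_rfl hS le_rfl).2.2.1
      have m1 := (wg_tests_meaning P (pt s) b2 0 k k k 0 0 S 0 le_rfl le_rfl hS le_rfl).2.2.1
      have hmem : wgTs P k S ∈ T := by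
        rw [hT]; unfold wgTgg
        exact Finset.mem_union_left _ (Finset.mem_image_of_mem _ (Finset.mem_univ k))
      have h1 := hsg _ hmem s hs
      have h2 : eval q (wgTs P k S) ≤ 0 := m0.2 (hq3 k)
      refine m1.1 ?_
      rw [← sign_nonpos_iff, h1, sign_nonpos_iff]
      exact h2
    · have m0 := (wg_tests_meaning P q hq2 0 a a b 0 0 0 κ le_rfl le_rfl le_rfl hκ).2.2.2
      have m1 := (wg_tests_meaning P (pt s) b2 0 a a b 0 0 0 κ le_rfl le_rfl le_rfl hκ).2.2.2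
      have hmem : wgTh P a b κ ∈ T := by
        rw [hT]; unfold wgTgg
        exact Finset.mem_union_right _ (Finset.mem_image.2 ⟨(a, b), Finset.mem_univ _, rfl⟩)
      have h1 := hsg _ hmem s hs
      have h2 : eval q (wgTh P a b κ) ≤ 0 := m0.2 (hq4 a b)
      refine m1.1 ?_
      rw [← sign_nonpos_iff, h1, sign_nonpos_iff]
      exact h2
  -- the gradient
  have hgrad : ∀ k, ∀ s ∈ Icc (-ℓ) ℓ, |wgG P k (pt s) - wgG P k q| ≤ κ * |s| := by
    intro k s hs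
    have h1 := Convex.norm_image_sub_le_of_norm_hasDerivWithin_le (f := fun r => wgG P k (pt r))
      (f' := fun r => wgPhi P k j (pt r)) (C := κ) (s := Icc (-ℓ) ℓ) (x := 0) (y := s)
      (fun r hr => by
        have h2 := wg_G_hasDerivAt P T x e i r (hseg r hr) (hiI r hr) k
        rw [wg_sum_mul_wgE (fun l => wgPhi P k l (wgPt P i (x + r • e))) j] at h2
        exact h2.hasDerivWithinAt)
      (fun r hr => by rw [Real.norm_eq_abs]; exact (hGG r hr).2.2.2 k j) (convex_Icc _ _) h0I hs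
    simpa only [Real.norm_eq_abs, sub_zero, hpt0] using h1
  refine ⟨pt t, hGG t ht, ?_, fun k => hgrad k t ht, ?_⟩
  · simp only [hpt, wgPt, Fin.tail_cons]
  · have hsub : uIcc 0 t ⊆ Icc (-ℓ) ℓ := by
      intro r hr
      rcases mem_uIcc.1 hr with h | h
      · exact ⟨by linarith [h0I.1, h.1], by linarith [ht.2, h.2]⟩
      · exact ⟨by linarith [ht.1, h.1], by linarith [h0I.2, h.2]⟩
    have h1 := Convex.norm_image_sub_le_of_norm_hasDerivWithin_le
      (f := fun r => wgRt (wgV P (x + r • e)) i - q 0 - wgG P j q * r)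
      (f' := fun r => wgG P j (pt r) - wgG P j q * 1) (C := κ * |t|) (s := uIcc 0 t) (x := 0) (y := t)
      (fun r hr => by
        have h2 := (wg_branch_hasDerivAt P T x e i r (hseg r (hsub hr)) (hiI r (hsub hr))).2.2
        rw [wg_sum_mul_wgE (fun l => wgG P l (wgPt P i (x + r • e))) j] at h2
        exact ((h2.sub_const (q 0)).sub ((hasDerivAt_id r).const_mul (wgG P j q))).hasDerivWithinAt)
      (fun r hr => by
        rw [Real.norm_eq_abs, mul_one]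
        refine (hgrad j r (hsub hr)).trans (mul_le_mul_of_nonneg_left ?_ hκ)
        rcases mem_uIcc.1 hr with h | h
        · rw [abs_of_nonneg h.1, abs_of_nonneg (h.1.trans h.2)]; exact h.2
        · rw [abs_of_nonpos h.2, abs_of_nonpos (h.1.trans h.2)]; linarith [h.1])
      (convex_uIcc _ _) left_mem_uIcc right_mem_uIcc
    have h3 : wgRt (wgV P (x + (0 : ℝ) • e)) i - q 0 - wgG P j q * 0 = 0 := by rw [hx0, hiq]; ring
    simp only [h3, sub_zero, Real.norm_eq_abs] at h1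
    have h4 : pt t 0 = wgRt (wgV P (x + t • e)) i := by simp only [hpt, wgPt, Fin.cons_zero]
    rw [h4]
    calc _ ≤ κ * |t| * |t| := h1
      _ = κ * t ^ 2 := by rw [mul_assoc, abs_mul_abs_self]; ring

theorem wgPath_step {n : ℕ} (x z : Fin n → ℝ) (j : Fin n) :
    wgPath x z (j : ℕ) = wgPath x z ((j : ℕ) + 1) + (z j - x j) • wgE (j : ℕ) := by
  funext i
  simp only [wgPath, wgE, Pi.add_apply, Pi.smul_apply, smul_eq_mul]
  rcases lt_trichotomy (i : ℕ) (j : ℕ) with h | h | h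
  · rw [if_neg (by omega), if_neg (by omega), if_neg (by omega)]; ring
  · have hij : i = j := Fin.ext h
    subst hij
    rw [if_pos le_rfl, if_neg (by omega), if_pos rfl]; ring
  · rw [if_pos (by omega), if_pos (by omega), if_neg (by omega)]; ring

theorem wgPath_top {n : ℕ} (x z : Fin n → ℝ) : wgPath x z n = x := by
  funext i
  simp only [wgPath]
  rw [if_neg (by have := i.2; omega)]

theorem wgPath_bot {n : ℕ} (x z : Fin n → ℝ) : wgPath x z 0 = z := by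
  funext i
  simp [wgPath]

/-- **LEAF L-WG-REACH (lift of a good axis path).**  Downward induction on `j` from `n` to `0`: there is `q_j ∈ wgGG` over `wgPath x z j` with `|g_k(q_j) - g_k(p)| ≤ (n - j) κ ℓ` and `|q_j 0 - p 0 - ∑_{i ≥ j} g_i(p) (z i - x i)| ≤ (n-j) n κ ℓ²`.
Step: `wgPath x z j = wgPath x z (j+1) + (z j - x j) • e_j`, `|z j - x j| ≤ ℓ`, the segment avoids the critical set because `wgPath x z (j+1) ∈ G_{j+1}`; `wg_leg`. -/
theorem wg_reach {n : ℕ} (P : MvPolynomial (Fin (n + 1)) ℝ) (S κ ℓ ε : ℝ) (hS : 0 ≤ S) (hκ : 0 ≤ κ) (hℓ : 0 < ℓ)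
    (p : Fin (n + 1) → ℝ) (hp : p ∈ wgGG P S κ) (z : Fin n → ℝ) (hz : z ∈ closedBall (Fin.tail p) ℓ)
    (hpath : ∀ j, j ≤ n → wgPath (Fin.tail p) z j ∈ wgGood (fun x => eval x (wgRR P (wgTgg P S κ))) ℓ ε j) :
    ∃ q ∈ wgGG P S κ, Fin.tail q = z ∧ (∀ k, |wgG P k q - wgG P k p| ≤ n * κ * ℓ) ∧
      |q 0 - p 0 - ∑ k, wgG P k p * (z k - p k.succ)| ≤ n ^ 2 * κ * ℓ ^ 2 := by
  obtain ⟨x, hx⟩ : ∃ x, x = Fin.tail p := ⟨_, rfl⟩
  rw [← hx] at hz hpath
  have hzx : ∀ k, |z k - x k| ≤ ℓ := by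
    intro k
    have h1 : dist z x ≤ ℓ := hz
    have h2 := (dist_le_pi_dist z x k).trans h1
    rwa [Real.dist_eq] at h2
  have key : ∀ d : ℕ, d ≤ n → ∃ q ∈ wgGG P S κ, Fin.tail q = wgPath x z (n - d) ∧
      (∀ k, |wgG P k q - wgG P k p| ≤ d * κ * ℓ) ∧
      |q 0 - p 0 - ∑ k, wgG P k p * (wgPath x z (n - d) k - x k)| ≤ d * n * κ * ℓ ^ 2 := by
    intro d
    induction d with
    | zero =>
      intro _
      rw [Nat.sub_zero, wgPath_top]
      exact ⟨p, hp, hx.symm, fun k => by simp, by simp⟩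
    | succ d ih =>
      intro hd
      obtain ⟨q, hq, hq1, hq2, hq3⟩ := ih (by omega)
      obtain ⟨j, hj⟩ : ∃ j : Fin n, (j : ℕ) = n - (d + 1) := ⟨⟨n - (d + 1), by omega⟩, rfl⟩
      have hj1 : n - d = (j : ℕ) + 1 := by omega
      rw [hj1] at hq1 hq3
      rw [← hj]
      have hgood := hpath ((j : ℕ) + 1) (by omega)
      have hseg : ∀ s ∈ Icc (-ℓ) ℓ, eval (Fin.tail q + s • wgE (j : ℕ)) (wgRR P (wgTgg P S κ)) ≠ 0 := by
        rw [hq1]
        exact hgood.1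
      have ht : z j - x j ∈ Icc (-ℓ) ℓ := abs_le.1 (hzx j)
      obtain ⟨q', hq', h1, h2, h3⟩ := wg_leg P S κ hS hκ q hq j ℓ hseg (z j - x j) ht
      obtain ⟨t, htdef⟩ : ∃ t, t = z j - x j := ⟨_, rfl⟩
      rw [← htdef] at h1 h2 h3
      have htl : |t| ≤ ℓ := by rw [htdef]; exact hzx j
      have hdn : (d : ℝ) + 1 ≤ n := by exact_mod_cast hd
      have hd0 : (0 : ℝ) ≤ d := Nat.cast_nonneg d
      refine ⟨q', hq', ?_, ?_, ?_⟩
      · rw [h1, hq1, wgPath_step, htdef]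
      · intro k
        have h4 := h2 k
        have h5 := hq2 k
        have h6 : κ * |t| ≤ κ * ℓ := mul_le_mul_of_nonneg_left htl hκ
        calc |wgG P k q' - wgG P k p| = |(wgG P k q' - wgG P k q) + (wgG P k q - wgG P k p)| := by ring_nf
          _ ≤ |wgG P k q' - wgG P k q| + |wgG P k q - wgG P k p| := abs_add_le _ _
          _ ≤ κ * ℓ + d * κ * ℓ := add_le_add (h4.trans h6) h5
          _ = ((d + 1 : ℕ) : ℝ) * κ * ℓ := by push_cast; ring
      · have hsum : ∑ k, wgG P k p * (wgPath x z (j : ℕ) k - x k)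
            = ∑ k, wgG P k p * (wgPath x z ((j : ℕ) + 1) k - x k) + wgG P j p * t := by
          rw [wgPath_step, ← htdef]
          have h7 : ∀ k : Fin n, wgG P k p * ((wgPath x z ((j : ℕ) + 1) + t • (wgE (j : ℕ) : Fin n → ℝ)) k - x k)
              = wgG P k p * (wgPath x z ((j : ℕ) + 1) k - x k) + (if k = j then wgG P k p * t else 0) := by
            intro k
            simp only [Pi.add_apply, Pi.smul_apply, smul_eq_mul, wgE]
            by_cases hkj : k = j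
            · subst hkj; simp; ring
            · have : ¬ (k : ℕ) = (j : ℕ) := fun h => hkj (Fin.ext h)
              simp [this, hkj]
          simp only [h7]
          rw [Finset.sum_add_distrib, Finset.sum_ite_eq' Finset.univ j, if_pos (Finset.mem_univ j)]
        rw [hsum]
        have ht2 : t ^ 2 ≤ ℓ ^ 2 := by
          rw [← sq_abs t]
          exact pow_le_pow_left₀ (abs_nonneg t) htl 2
        have h8 : |(wgG P j q - wgG P j p) * t| ≤ d * κ * ℓ * ℓ := by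
          rw [abs_mul]
          exact mul_le_mul (hq2 j) htl (abs_nonneg _) (by positivity)
        have h9 : κ * t ^ 2 ≤ κ * ℓ ^ 2 := mul_le_mul_of_nonneg_left ht2 hκ
        have hκℓ : 0 ≤ κ * ℓ ^ 2 := by positivity
        calc |q' 0 - p 0 - (∑ k, wgG P k p * (wgPath x z ((j : ℕ) + 1) k - x k) + wgG P j p * t)|
            = |(q' 0 - q 0 - wgG P j q * t) + (q 0 - p 0 - ∑ k, wgG P k p * (wgPath x z ((j : ℕ) + 1) k - x k))
                + (wgG P j q - wgG P j p) * t| := by ring_nf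
          _ ≤ |q' 0 - q 0 - wgG P j q * t| + |q 0 - p 0 - ∑ k, wgG P k p * (wgPath x z ((j : ℕ) + 1) k - x k)|
                + |(wgG P j q - wgG P j p) * t| := abs_add_three _ _ _
          _ ≤ κ * ℓ ^ 2 + d * n * κ * ℓ ^ 2 + d * κ * ℓ * ℓ := add_le_add (add_le_add (h3.trans h9) hq3) h8
          _ = d * n * (κ * ℓ ^ 2) + (d + 1) * (κ * ℓ ^ 2) := by ring
          _ ≤ d * n * (κ * ℓ ^ 2) + n * (κ * ℓ ^ 2) := by gcongr
          _ = ((d + 1 : ℕ) : ℝ) * n * κ * ℓ ^ 2 := by push_cast; ring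
  obtain ⟨q, hq, h1, h2, h3⟩ := key n le_rfl
  rw [Nat.sub_self, wgPath_bot] at h1 h3
  refine ⟨q, hq, h1, h2, ?_⟩
  have h4 : ∀ k, x k = p k.succ := fun k => by rw [hx]; rfl
  simp only [h4] at h3
  calc _ ≤ (n : ℝ) * n * κ * ℓ ^ 2 := h3
    _ = n ^ 2 * κ * ℓ ^ 2 := by ring

/-- a sum of `n` products of small factors -/
theorem wg_pk_sum_le {n : ℕ} (a b : Fin n → ℝ) (A B : ℝ) (hA : 0 ≤ A) (ha : ∀ k, |a k| ≤ A) (hb : ∀ k, |b k| ≤ B) :
    |∑ k, a k * b k| ≤ n * (A * B) := by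
  refine (Finset.abs_sum_le_sum_abs _ _).trans ?_
  calc ∑ k, |a k * b k| ≤ ∑ _k : Fin n, A * B := by
        refine Finset.sum_le_sum fun k _ => ?_
        rw [abs_mul]
        exact mul_le_mul (ha k) (hb k) (abs_nonneg _) hA
    _ = n * (A * B) := by simp

/-- **LEAF L-WG-PACK1 (two sheets through one point are close).**  Triangle inequalities:  `|g(p) - g(p')| ≤ 2 n κ ℓ`;  `p 0 - p' 0 - g(p')·(p̄ - p̄') = [q0 - p'0 - g(p')·(z - p̄')] - [q0 - p0 - g(p)·(z - p̄)] + (g(p') - g(p))·(z - p̄)`, `|z k - p̄ k| ≤ ℓ`. -/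
theorem wg_sheets_close {n : ℕ} (g g' gq : Fin n → ℝ) (x x' z : Fin n → ℝ) (h h' hq κ ℓ : ℝ) (hκ : 0 ≤ κ) (hℓ : 0 ≤ ℓ)
    (hz : ∀ k, |z k - x k| ≤ ℓ) (h1 : ∀ k, |gq k - g k| ≤ n * κ * ℓ) (h2 : ∀ k, |gq k - g' k| ≤ n * κ * ℓ)
    (h3 : |hq - h - ∑ k, g k * (z k - x k)| ≤ n ^ 2 * κ * ℓ ^ 2)
    (h4 : |hq - h' - ∑ k, g' k * (z k - x' k)| ≤ n ^ 2 * κ * ℓ ^ 2) :
    (∀ k, |g k - g' k| ≤ 2 * n * κ * ℓ) ∧ |h - h' - ∑ k, g' k * (x k - x' k)| ≤ 4 * n ^ 2 * κ * ℓ ^ 2 := by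
  have hg : ∀ k, |g k - g' k| ≤ 2 * n * κ * ℓ := by
    intro k
    have e : g k - g' k = (gq k - g' k) - (gq k - g k) := by ring
    rw [e]
    refine (abs_sub _ _).trans ?_
    linarith [h1 k, h2 k]
  refine ⟨hg, ?_⟩
  have hg' : ∀ k, |g' k - g k| ≤ 2 * n * κ * ℓ := fun k => by rw [abs_sub_comm]; exact hg k
  have h5 := wg_pk_sum_le (fun k => g' k - g k) (fun k => z k - x k) (2 * n * κ * ℓ) ℓ (by positivity) hg' hz
  have e : h - h' - ∑ k, g' k * (x k - x' k) = (hq - h' - ∑ k, g' k * (z k - x' k)) - (hq - h - ∑ k, g k * (z k - x k))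
      + ∑ k, (g' k - g k) * (z k - x k) := by
    have e2 : ∑ k, g' k * (x k - x' k) = ∑ k, g' k * (z k - x' k) - ∑ k, g k * (z k - x k)
        - ∑ k, (g' k - g k) * (z k - x k) := by
      rw [← Finset.sum_sub_distrib, ← Finset.sum_sub_distrib]
      refine Finset.sum_congr rfl fun k _ => ?_
      ring
    rw [e2]
    ring
  rw [e]
  refine (abs_add_le _ _).trans ?_
  have h6 := abs_sub (hq - h' - ∑ k, g' k * (z k - x' k)) (hq - h - ∑ k, g k * (z k - x k))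
  have e3 : (n : ℝ) * (2 * n * κ * ℓ * ℓ) = 2 * n ^ 2 * κ * ℓ ^ 2 := by ring
  rw [e3] at h5
  linarith

/-- `z ↦ wgPath x z j` is measurable -/
theorem wgpk_path_meas {n : ℕ} (x : Fin n → ℝ) (j : ℕ) : Measurable fun z : Fin n → ℝ => wgPath x z j := by
  refine measurable_pi_iff.2 fun i => ?_
  unfold wgPath
  by_cases h : j ≤ (i : ℕ)
  · simpa [h] using measurable_pi_apply i
  · simp [h]

/-- the set of end points of good axis paths is measurable -/
theorem wgpk_meas {n : ℕ} (f : (Fin n → ℝ) → ℝ) (hf : Continuous f) (ℓ ε r : ℝ) (c x : Fin n → ℝ) :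
    MeasurableSet {z : Fin n → ℝ | z ∈ closedBall c r ∧ ∀ j, j ≤ n → wgPath x z j ∈ wgGood f ℓ ε j} := by
  have : {z : Fin n → ℝ | z ∈ closedBall c r ∧ ∀ j, j ≤ n → wgPath x z j ∈ wgGood f ℓ ε j}
      = closedBall c r ∩ ⋂ j, ⋂ (_ : j ≤ n), (fun z => wgPath x z j) ⁻¹' wgGood f ℓ ε j := by
    ext z; simp
  rw [this]
  exact measurableSet_closedBall.inter (MeasurableSet.iInter fun j => MeasurableSet.iInter fun _ =>
    (wgpk_path_meas x j) (wgGood_measurable f hf ℓ ε j))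

/-- arithmetic of the volume bound -/
theorem wgpk_arith (n : ℕ) (ε ℓ : ℝ) (hℓ : 0 < ℓ) (hε : n * ε * 2 ^ (n + 1) ≤ 1) :
    n * ε * (2 * ℓ) ^ n ≤ ℓ ^ n / 2 := by
  have h1 : 0 < ℓ ^ n := pow_pos hℓ n
  rw [mul_pow]
  have h2 : n * ε * 2 ^ n ≤ 1 / 2 := by
    rw [pow_succ] at hε; linarith
  calc n * ε * (2 ^ n * ℓ ^ n) = (n * ε * 2 ^ n) * ℓ ^ n := by ring
    _ ≤ 1 / 2 * ℓ ^ n := mul_le_mul_of_nonneg_right h2 h1.le
    _ = ℓ ^ n / 2 := by ring

/-- at least half of the base cube is reached by good axis paths -/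
theorem wgpk_vol {n : ℕ} (f : (Fin n → ℝ) → ℝ) (hf : Continuous f) (ℓ ε : ℝ) (hℓ : 0 < ℓ) (hε0 : 0 < ε)
    (hε : n * ε * 2 ^ (n + 1) ≤ 1) (c x : Fin n → ℝ) (hxc : x ∈ closedBall c (ℓ / 2)) (hx : x ∈ wgGood f ℓ ε n) :
    ENNReal.ofReal (ℓ ^ n / 2)
      ≤ volume {z : Fin n → ℝ | z ∈ closedBall c (ℓ / 2) ∧ ∀ j, j ≤ n → wgPath x z j ∈ wgGood f ℓ ε j} := by
  have hsub : closedBall c (ℓ / 2) ⊆
      {z : Fin n → ℝ | z ∈ closedBall c (ℓ / 2) ∧ ∀ j, j ≤ n → wgPath x z j ∈ wgGood f ℓ ε j} ∪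
        {z : Fin n → ℝ | z ∈ closedBall x ℓ ∧ ∃ j, j ≤ n ∧ wgPath x z j ∉ wgGood f ℓ ε j} := by
    intro z hz
    by_cases h : ∀ j, j ≤ n → wgPath x z j ∈ wgGood f ℓ ε j
    · exact Or.inl ⟨hz, h⟩
    · push Not at h
      refine Or.inr ⟨?_, h⟩
      rw [mem_closedBall] at hz hxc ⊢
      calc dist z x ≤ dist z c + dist c x := dist_triangle _ _ _
        _ ≤ ℓ / 2 + ℓ / 2 := add_le_add hz (by rwa [dist_comm])
        _ = ℓ := by ring
  have hvol : volume (closedBall c (ℓ / 2)) = ENNReal.ofReal (ℓ ^ n) := by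
    rw [Real.volume_pi_closedBall c (by positivity)]
    congr 1
    rw [Fintype.card_fin]; congr 1; ring
  have h1 := (measure_mono (μ := volume) hsub).trans (measure_union_le _ _)
  have h2 := (wg_path_bad_volume f hf ℓ ε hℓ hε0 x hx).trans
    (ENNReal.ofReal_le_ofReal (wgpk_arith n ε ℓ hℓ hε))
  rw [hvol] at h1
  have h3 : ENNReal.ofReal (ℓ ^ n) = ENNReal.ofReal (ℓ ^ n / 2) + ENNReal.ofReal (ℓ ^ n / 2) := by
    rw [← ENNReal.ofReal_add (by positivity) (by positivity)]; congr 1; ring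
  rw [h3] at h1
  exact (ENNReal.add_le_add_iff_right ENNReal.ofReal_ne_top).1 (h1.trans (add_le_add le_rfl h2))

/-- the end point of a good axis path is off the critical set -/
theorem wgpk_end {n : ℕ} (hn : 1 ≤ n) (f : (Fin n → ℝ) → ℝ) (ℓ ε : ℝ) (x z : Fin n → ℝ) (hz : z ∈ closedBall x ℓ)
    (h : wgPath x z 1 ∈ wgGood f ℓ ε 1) : f z ≠ 0 := by
  have h1 := h.1 (z ⟨0, hn⟩ - x ⟨0, hn⟩) (by
    have := (dist_le_pi_dist z x ⟨0, hn⟩).trans (mem_closedBall.1 hz)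
    rw [Real.dist_eq] at this
    exact abs_le.1 this)
  have h2 : wgPath x z 1 + (z ⟨0, hn⟩ - x ⟨0, hn⟩) • wgE 0 = z := by
    funext i
    simp only [wgPath, wgE, Pi.add_apply, Pi.smul_apply, smul_eq_mul]
    by_cases hi : (i : ℕ) = 0
    · have hi' : i = ⟨0, hn⟩ := Fin.ext hi
      subst hi'
      simp
    · have : 1 ≤ (i : ℕ) := Nat.one_le_iff_ne_zero.2 hi
      simp [hi, this]
  rwa [h2] at h1

/-- at most `D` separated sheets reach one point of the base -/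
theorem wgpk_count {n : ℕ} (hn : 1 ≤ n) (P : MvPolynomial (Fin (n + 1)) ℝ) (D : ℕ) (hP : P.totalDegree ≤ D) (S κ ℓ ε : ℝ)
    (hS : 0 ≤ S) (hκ : 0 ≤ κ) (hℓ : 0 < ℓ) (z : Fin n → ℝ)
    (F : Finset (Fin (n + 1) → ℝ))
    (hF : ∀ p ∈ F, p ∈ wgGG P S κ ∧ z ∈ closedBall (Fin.tail p) ℓ ∧
      ∀ j, j ≤ n → wgPath (Fin.tail p) z j ∈ wgGood (fun x => eval x (wgRR P (wgTgg P S κ))) ℓ ε j)
    (hsep : ∀ p ∈ F, ∀ p' ∈ F, p ≠ p' →
      ¬ ((∀ k, |wgG P k p - wgG P k p'| ≤ 2 * n * κ * ℓ) ∧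
        |p 0 - p' 0 - ∑ k, wgG P k p' * (p k.succ - p' k.succ)| ≤ 4 * n ^ 2 * κ * ℓ ^ 2)) :
    F.card ≤ D := by
  classical
  rcases F.eq_empty_or_nonempty with rfl | ⟨p₀, hp₀⟩
  · simp
  have hne : wgV P z ≠ 0 :=
    (wgRR_spec P (wgTgg P S κ) z (wgpk_end hn _ ℓ ε (Fin.tail p₀) z (hF p₀ hp₀).2.1 ((hF p₀ hp₀).2.2 1 hn))).1
  have hex : ∀ p, p ∈ F → ∃ q ∈ wgGG P S κ, Fin.tail q = z ∧ (∀ k, |wgG P k q - wgG P k p| ≤ n * κ * ℓ) ∧
      |q 0 - p 0 - ∑ k, wgG P k p * (z k - p k.succ)| ≤ n ^ 2 * κ * ℓ ^ 2 := fun p hp =>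
    wg_reach P S κ ℓ ε hS hκ hℓ p (hF p hp).1 z (hF p hp).2.1 (hF p hp).2.2
  choose! q hq using hex
  have hcons : ∀ p ∈ F, q p = Fin.cons (q p 0) z := by
    intro p hp
    rw [← (hq p hp).2.1]
    exact (Fin.cons_self_tail (q p)).symm
  have hmaps : ∀ p ∈ F, q p 0 ∈ (wgV P z).roots.toFinset := by
    intro p hp
    rw [Multiset.mem_toFinset, Polynomial.mem_roots hne, Polynomial.IsRoot.def, wgV_eval, ← hcons p hp]
    exact (hq p hp).1.1
  have hinj : Set.InjOn (fun p => q p 0) (F : Set (Fin (n + 1) → ℝ)) := by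
    intro p hp p' hp' hpp
    by_contra hne'
    have hp : p ∈ F := hp
    have hp' : p' ∈ F := hp'
    have hpp : q p 0 = q p' 0 := hpp
    have hqq : q p = q p' := by rw [hcons p hp, hcons p' hp', hpp]
    refine hsep p hp p' hp' hne' ?_
    have hzk : ∀ k, |z k - Fin.tail p k| ≤ ℓ := by
      intro k
      have := (dist_le_pi_dist z (Fin.tail p) k).trans (mem_closedBall.1 (hF p hp).2.1)
      rwa [Real.dist_eq] at this
    exact wg_sheets_close (fun k => wgG P k p) (fun k => wgG P k p') (fun k => wgG P k (q p)) (Fin.tail p)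
      (Fin.tail p') z (p 0) (p' 0) (q p 0) κ ℓ hκ hℓ.le hzk (hq p hp).2.2.1 (by rw [hqq]; exact (hq p' hp').2.2.1)
      (hq p hp).2.2.2 (by rw [hqq]; exact (hq p' hp').2.2.2)
  calc F.card ≤ (wgV P z).roots.toFinset.card := Finset.card_le_card_of_injOn _ hmaps hinj
    _ ≤ Multiset.card (wgV P z).roots := Multiset.toFinset_card_le _
    _ ≤ (wgV P z).natDegree := Polynomial.card_roots' _
    _ ≤ (finSuccEquiv ℝ n P).natDegree := Polynomial.natDegree_map_le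
    _ = degreeOf 0 P := natDegree_finSuccEquiv P
    _ ≤ P.totalDegree := degreeOf_le_totalDegree P 0
    _ ≤ D := hP

/-- **LEAF L-WG-PACK2 (at most `2 D` separated sheets over a base cube of side `ℓ`).**  `f = eval · (wgRR P (wgTgg P S κ))`, `A_p = {z ∈ closedBall c (ℓ/2) | all wgPath (tail p) z j ∈ G_j}` (measurable: `wgGood_measurable`, `wgPath` is continuous in `z`).
`closedBall c (ℓ/2) ⊆ closedBall (tail p) ℓ`; `volume A_p ≥ ℓ^n - n ε (2ℓ)^n ≥ ℓ^n / 2` (`wg_path_bad_volume`, `Real.volume_pi_closedBall`, `hε`).  For `z ∈ A_p` choose `q_p(z)` by `wg_reach`.  If `p ≠ p'` in `F` and `z ∈ A_p ∩ A_p'` then `q_p(z) 0 ≠ q_p'(z) 0` (else `wg_sheets_close` contradicts `hsep`).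
So `p ↦ q_p(z) 0` injects `{p ∈ F | z ∈ A_p}` into the roots of `wgV P z ≠ 0` (`z = wgPath _ z 0` lies on a segment avoiding the critical set if `n ≥ 1`; `wgRR_spec`): `≤ D` elements.  `∑_p volume A_p = ∫⁻ z in cube, #{p | z ∈ A_p} ≤ D ℓ^n`. -/
theorem wg_pack_card {n : ℕ} (hn : 1 ≤ n) (P : MvPolynomial (Fin (n + 1)) ℝ) (D : ℕ) (hP : P.totalDegree ≤ D) (S κ ℓ ε : ℝ)
    (hS : 0 ≤ S) (hκ : 0 ≤ κ) (hℓ : 0 < ℓ) (hε0 : 0 < ε) (hε : n * ε * 2 ^ (n + 1) ≤ 1) (c : Fin n → ℝ)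
    (F : Finset (Fin (n + 1) → ℝ))
    (hF : ∀ p ∈ F, p ∈ wgGG P S κ ∧ Fin.tail p ∈ closedBall c (ℓ / 2) ∧
      Fin.tail p ∈ wgGood (fun x => eval x (wgRR P (wgTgg P S κ))) ℓ ε n)
    (hsep : ∀ p ∈ F, ∀ p' ∈ F, p ≠ p' →
      ¬ ((∀ k, |wgG P k p - wgG P k p'| ≤ 2 * n * κ * ℓ) ∧
        |p 0 - p' 0 - ∑ k, wgG P k p' * (p k.succ - p' k.succ)| ≤ 4 * n ^ 2 * κ * ℓ ^ 2)) :
    F.card ≤ 2 * D := by
  classical
  obtain ⟨f, hf⟩ : ∃ f : (Fin n → ℝ) → ℝ, f = fun x => eval x (wgRR P (wgTgg P S κ)) := ⟨_, rfl⟩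
  have hfc : Continuous f := by rw [hf]; exact MvPolynomial.continuous_eval _
  rw [← hf] at hF
  obtain ⟨A, hA⟩ : ∃ A : (Fin (n + 1) → ℝ) → Set (Fin n → ℝ), A = fun p =>
      {z : Fin n → ℝ | z ∈ closedBall c (ℓ / 2) ∧ ∀ j, j ≤ n → wgPath (Fin.tail p) z j ∈ wgGood f ℓ ε j} := ⟨_, rfl⟩
  have hAm : ∀ p, MeasurableSet (A p) := fun p => by rw [hA]; exact wgpk_meas f hfc ℓ ε (ℓ / 2) c (Fin.tail p)
  have hAv : ∀ p ∈ F, ENNReal.ofReal (ℓ ^ n / 2) ≤ volume (A p) := fun p hp => by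
    rw [hA]; exact wgpk_vol f hfc ℓ ε hℓ hε0 hε c (Fin.tail p) (hF p hp).2.1 (hF p hp).2.2
  have hcnt : ∀ z, ∑ p ∈ F, (A p).indicator (fun _ => (1 : ℝ≥0∞)) z
      ≤ (closedBall c (ℓ / 2)).indicator (fun _ => (D : ℝ≥0∞)) z := by
    intro z
    by_cases hz : z ∈ closedBall c (ℓ / 2)
    · rw [Set.indicator_of_mem hz]
      have h1 : ∑ p ∈ F, (A p).indicator (fun _ => (1 : ℝ≥0∞)) z = ((F.filter fun p => z ∈ A p).card : ℝ≥0∞) := by
        rw [Finset.card_filter]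
        push_cast
        exact Finset.sum_congr rfl fun p _ => by simp [Set.indicator_apply]
      rw [h1]
      have h2 : (F.filter fun p => z ∈ A p).card ≤ D := by
        refine wgpk_count hn P D hP S κ ℓ ε hS hκ hℓ z _ ?_ ?_
        · intro p hp
          rw [Finset.mem_filter] at hp
          obtain ⟨hpF, hpA⟩ := hp
          rw [hA] at hpA
          refine ⟨(hF p hpF).1, ?_, ?_⟩
          · have h3 := (hF p hpF).2.1
            rw [mem_closedBall] at hz h3 ⊢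
            calc dist z (Fin.tail p) ≤ dist z c + dist c (Fin.tail p) := dist_triangle _ _ _
              _ ≤ ℓ / 2 + ℓ / 2 := add_le_add hz (by rwa [dist_comm])
              _ = ℓ := by ring
          · rw [← hf]; exact hpA.2
        · intro p hp p' hp'
          exact hsep p (Finset.mem_filter.1 hp).1 p' (Finset.mem_filter.1 hp').1
      exact_mod_cast h2
    · rw [Set.indicator_of_notMem hz]
      refine le_of_eq (Finset.sum_eq_zero fun p _ => Set.indicator_of_notMem ?_ _)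
      rw [hA]; exact fun h => hz h.1
  have hvol : volume (closedBall c (ℓ / 2)) = ENNReal.ofReal (ℓ ^ n) := by
    rw [Real.volume_pi_closedBall c (by positivity)]
    congr 1
    rw [Fintype.card_fin]; congr 1; ring
  have hsum : ∑ p ∈ F, volume (A p) ≤ D * ENNReal.ofReal (ℓ ^ n) := by
    calc ∑ p ∈ F, volume (A p) = ∑ p ∈ F, ∫⁻ z, (A p).indicator (fun _ => (1 : ℝ≥0∞)) z := by
          refine Finset.sum_congr rfl fun p _ => ?_
          rw [lintegral_indicator (hAm p)]; simp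
      _ = ∫⁻ z, ∑ p ∈ F, (A p).indicator (fun _ => (1 : ℝ≥0∞)) z :=
          (lintegral_finsetSum F fun p _ => measurable_const.indicator (hAm p)).symm
      _ ≤ ∫⁻ z, (closedBall c (ℓ / 2)).indicator (fun _ => (D : ℝ≥0∞)) z := lintegral_mono hcnt
      _ = D * ENNReal.ofReal (ℓ ^ n) := by
          rw [lintegral_indicator measurableSet_closedBall]; simp [hvol]
  have hlow : (F.card : ℝ≥0∞) * ENNReal.ofReal (ℓ ^ n / 2) ≤ ∑ p ∈ F, volume (A p) := by
    calc (F.card : ℝ≥0∞) * ENNReal.ofReal (ℓ ^ n / 2) = ∑ _p ∈ F, ENNReal.ofReal (ℓ ^ n / 2) := by simp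
      _ ≤ ∑ p ∈ F, volume (A p) := Finset.sum_le_sum hAv
  have hfin := hlow.trans hsum
  have hpos : 0 < ℓ ^ n := pow_pos hℓ n
  rw [← ENNReal.ofReal_natCast, ← ENNReal.ofReal_natCast, ← ENNReal.ofReal_mul (by positivity),
    ← ENNReal.ofReal_mul (by positivity), ENNReal.ofReal_le_ofReal_iff (by positivity)] at hfin
  have hreal : (F.card : ℝ) ≤ 2 * D := by
    have : (F.card : ℝ) * (ℓ ^ n) ≤ (2 * D) * ℓ ^ n := by linarith
    exact le_of_mul_le_mul_right this hpos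
  exact_mod_cast hreal

/-- **LEAF L-WG-PACK3 (plates over one base cube).**  Take `F` of maximal cardinality among the finsets satisfying `hF`, `hsep` of `wg_pack_card` (cardinalities are bounded by `2 D`: `Nat.find`/`Finset.exists_max_image` on `ℕ`, or strong induction on `2 D - card`).  For `p` as in the statement, `p ∈ F` (trivial) or `insert p F` violates `hsep`:
some `p' ∈ F` is close to `p` in one of the two orders.  In the order `(p, p')` done.  In the order `(p', p)`: `|p0 - p'0 - g(p')·(p̄-p̄')| ≤ 4n²κℓ² + |(g(p) - g(p'))·(p̄ - p̄')| ≤ 4n²κℓ² + n (2nκℓ) ℓ` since `|p̄ k - p̄' k| ≤ ℓ` (both in the cube). -/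
theorem wg_pack {n : ℕ} (hn : 1 ≤ n) (P : MvPolynomial (Fin (n + 1)) ℝ) (D : ℕ) (hP : P.totalDegree ≤ D) (S κ ℓ ε : ℝ)
    (hS : 0 ≤ S) (hκ : 0 ≤ κ) (hℓ : 0 < ℓ) (hε0 : 0 < ε) (hε : n * ε * 2 ^ (n + 1) ≤ 1) (c : Fin n → ℝ) :
    ∃ F : Finset (Fin (n + 1) → ℝ), F.card ≤ 2 * D ∧ (∀ p' ∈ F, p' ∈ wgGG P S κ) ∧
      ∀ p ∈ wgGG P S κ, Fin.tail p ∈ closedBall c (ℓ / 2) →
        Fin.tail p ∈ wgGood (fun x => eval x (wgRR P (wgTgg P S κ))) ℓ ε n →
        ∃ p' ∈ F, |p 0 - p' 0 - ∑ k, wgG P k p' * (p k.succ - p' k.succ)| ≤ 6 * n ^ 2 * κ * ℓ ^ 2 := by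
  classical
  let Adm : (Fin (n + 1) → ℝ) → Prop := fun p => p ∈ wgGG P S κ ∧ Fin.tail p ∈ closedBall c (ℓ / 2) ∧
      Fin.tail p ∈ wgGood (fun x => eval x (wgRR P (wgTgg P S κ))) ℓ ε n
  let Cl : (Fin (n + 1) → ℝ) → (Fin (n + 1) → ℝ) → Prop := fun p p' =>
    (∀ k, |wgG P k p - wgG P k p'| ≤ 2 * n * κ * ℓ) ∧
        |p 0 - p' 0 - ∑ k, wgG P k p' * (p k.succ - p' k.succ)| ≤ 4 * n ^ 2 * κ * ℓ ^ 2
  let Q : Finset (Fin (n + 1) → ℝ) → Prop := fun F => (∀ p ∈ F, Adm p) ∧ ∀ p ∈ F, ∀ p' ∈ F, p ≠ p' → ¬ Cl p p'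
  have hcard : ∀ F, Q F → F.card ≤ 2 * D := fun F hF =>
    wg_pack_card hn P D hP S κ ℓ ε hS hκ hℓ hε0 hε c F hF.1 hF.2
  let Pm : ℕ → Prop := fun m => ∃ F, Q F ∧ F.card = m
  have hP0 : Pm 0 := ⟨∅, ⟨by simp, by simp⟩, rfl⟩
  obtain ⟨F, hQ, hFc⟩ : Pm (Nat.findGreatest Pm (2 * D)) := Nat.findGreatest_spec (Nat.zero_le _) hP0
  refine ⟨F, hcard F hQ, fun p' hp' => (hQ.1 p' hp').1, fun p hp1 hp2 hp3 => ?_⟩
  have hB : 0 ≤ (n : ℝ) ^ 2 * κ * ℓ ^ 2 := by positivity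
  by_cases hpF : p ∈ F
  · refine ⟨p, hpF, ?_⟩
    simp only [sub_self, mul_zero, Finset.sum_const_zero, abs_zero]
    linarith
  · have hnQ : ¬ Q (insert p F) := by
      intro hQ'
      have h1 : (insert p F).card = Nat.findGreatest Pm (2 * D) + 1 := by
        rw [Finset.card_insert_of_notMem hpF, hFc]
      exact Nat.findGreatest_is_greatest (P := Pm) (n := 2 * D) (k := Nat.findGreatest Pm (2 * D) + 1) (Nat.lt_succ_self _)
        (h1 ▸ hcard _ hQ') ⟨_, hQ', h1⟩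
    have hAdm : ∀ q ∈ insert p F, Adm q := by
      intro q hq
      rcases Finset.mem_insert.1 hq with rfl | hq
      · exact ⟨hp1, hp2, hp3⟩
      · exact hQ.1 q hq
    have hex : ∃ a ∈ insert p F, ∃ b ∈ insert p F, a ≠ b ∧ Cl a b := by
      by_contra hcon
      push Not at hcon
      exact hnQ ⟨hAdm, fun a ha b hb hab => hcon a ha b hb hab⟩
    obtain ⟨a, ha, b, hb, hab, hcl⟩ := hex
    rcases Finset.mem_insert.1 ha with rfl | ha'
    · rcases Finset.mem_insert.1 hb with rfl | hb'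
      · exact absurd rfl hab
      · exact ⟨b, hb', hcl.2.trans (by linarith)⟩
    · rcases Finset.mem_insert.1 hb with rfl | hb'
      · -- the order `(a, p)`
        refine ⟨a, ha', ?_⟩
        obtain ⟨hc1, hc2⟩ := hcl
        have hd : ∀ k : Fin n, |b k.succ - a k.succ| ≤ ℓ := by
          intro k
          have h1 : |Fin.tail b k - c k| ≤ ℓ / 2 := by
            have := (norm_le_pi_norm (Fin.tail b - c) k).trans (by simpa [dist_eq_norm] using hp2)
            simpa using this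
          have h2 : |Fin.tail a k - c k| ≤ ℓ / 2 := by
            have := (norm_le_pi_norm (Fin.tail a - c) k).trans (by simpa [dist_eq_norm] using (hQ.1 a ha').2.1)
            simpa using this
          have e : b k.succ - a k.succ = (Fin.tail b k - c k) - (Fin.tail a k - c k) := by
            simp only [Fin.tail]
            ring
          rw [e]
          refine (abs_sub _ _).trans ?_
          linarith
        have hc1' : ∀ k, |wgG P k b - wgG P k a| ≤ 2 * n * κ * ℓ := fun k => by rw [abs_sub_comm]; exact hc1 k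
        have h5 := wg_pk_sum_le (fun k => wgG P k b - wgG P k a) (fun k => b k.succ - a k.succ) (2 * n * κ * ℓ) ℓ
          (by positivity) hc1' hd
        have e : b 0 - a 0 - ∑ k, wgG P k a * (b k.succ - a k.succ)
            = -(a 0 - b 0 - ∑ k, wgG P k b * (a k.succ - b k.succ))
              + ∑ k, (wgG P k b - wgG P k a) * (b k.succ - a k.succ) := by
          have e2 : ∑ k, wgG P k a * (b k.succ - a k.succ) = - ∑ k, wgG P k b * (a k.succ - b k.succ)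
              - ∑ k, (wgG P k b - wgG P k a) * (b k.succ - a k.succ) := by
            rw [← Finset.sum_neg_distrib, ← Finset.sum_sub_distrib]
            refine Finset.sum_congr rfl fun k _ => ?_
            ring
          rw [e2]
          ring
        rw [e]
        refine (abs_add_le _ _).trans ?_
        rw [abs_neg]
        have e3 : (n : ℝ) * (2 * n * κ * ℓ * ℓ) = 2 * n ^ 2 * κ * ℓ ^ 2 := by ring
        rw [e3] at h5
        linarith
      · exact absurd hcl (hQ.2 a ha' b hb' hab)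

end Claimed.Agent.R257
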