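import Claimed.Agent.Lib.MK.Poly

/-!
# ROW 257, WALL GEOMETRY (WG), file 4: one-dimensional lemmas and slicing            (architect helper131)            CONTRACT
PAPER-FREE.  Every `sorry` is a leaf `L-WG-*`.  Statements are frozen; auxiliary lemmas directly above your theorem; edit only your block.
Uses `MK.Tame`, `MK.poly_null`, `MK.poly_line`, `MK.tame_of_poly` of `Lib/MK/Poly.lean` (proved there).
-/

set_option autoImplicit false
open MeasureTheory Set Metric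
open scoped ENNReal BigOperators

namespace Claimed.Agent.R257

theorem wg_cut_diam (S : Set ℝ) (ℓ : ℝ) (hℓ : 0 ≤ ℓ) (h : ∀ s ∈ S, ∀ s' ∈ S, s < s' → s' - s ≤ ℓ) :
    volume S ≤ ENNReal.ofReal ℓ := by
  refine (Real.volume_le_diam S).trans (Metric.ediam_le fun x hx y hy => ?_)
  rw [edist_dist, Real.dist_eq]
  refine ENNReal.ofReal_le_ofReal ?_
  rcases lt_trichotomy x y with hxy | rfl | hxy
  · rw [abs_sub_comm, abs_of_pos (sub_pos.2 hxy)]
    exact h x hx y hy hxy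
  · simpa using hℓ
  · rw [abs_of_pos (sub_pos.2 hxy)]
    exact h y hy x hx hxy

theorem wg_cut_aux (ℓ : ℝ) (hℓ : 0 ≤ ℓ) (Z : Finset ℝ) : ∀ B : Set ℝ,
    (∀ s ∈ B, ∀ s' ∈ B, s < s' → (∀ c ∈ Z, c ∉ Icc s s') → s' - s ≤ ℓ) →
      volume B ≤ ENNReal.ofReal ((Z.card + 1) * ℓ) := by
  induction Z using Finset.induction_on_max with
  | empty =>
    intro B h
    simpa using wg_cut_diam B ℓ hℓ fun s hs s' hs' hlt => h s hs s' hs' hlt (by simp)
  | insert c Z hc ih =>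
    intro B h
    have hcZ : c ∉ Z := fun hmem => lt_irrefl c (hc c hmem)
    have h1 : volume (B ∩ Iio c) ≤ ENNReal.ofReal ((Z.card + 1) * ℓ) := by
      refine ih _ fun s hs s' hs' hlt hno => h s hs.1 s' hs'.1 hlt fun d hd => ?_
      rcases Finset.mem_insert.1 hd with rfl | hd
      · exact fun hmem => absurd hmem.2 (not_le.2 hs'.2)
      · exact hno d hd
    have h2 : volume (B ∩ Ioi c) ≤ ENNReal.ofReal ℓ := by
      refine wg_cut_diam _ ℓ hℓ fun s hs s' hs' hlt => h s hs.1 s' hs'.1 hlt fun d hd hmem => ?_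
      have hdc : d ≤ c := by
        rcases Finset.mem_insert.1 hd with rfl | hd
        · exact le_rfl
        · exact (hc d hd).le
      exact absurd (lt_of_lt_of_le hs.2 hmem.1) (not_lt.2 hdc)
    have h3 : volume (B ∩ {c}) = 0 := measure_mono_null inter_subset_right (by simp)
    have hB : B ⊆ (B ∩ Iio c) ∪ (B ∩ {c}) ∪ (B ∩ Ioi c) := by
      intro x hx
      rcases lt_trichotomy x c with hxc | rfl | hxc
      · exact Or.inl (Or.inl ⟨hx, hxc⟩)
      · exact Or.inl (Or.inr ⟨hx, rfl⟩)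
      · exact Or.inr ⟨hx, hxc⟩
    calc volume B ≤ volume ((B ∩ Iio c) ∪ (B ∩ {c}) ∪ (B ∩ Ioi c)) := measure_mono hB
      _ ≤ volume (B ∩ Iio c) + volume (B ∩ {c}) + volume (B ∩ Ioi c) :=
          (measure_union_le _ _).trans (add_le_add (measure_union_le _ _) le_rfl)
      _ ≤ ENNReal.ofReal ((Z.card + 1) * ℓ) + 0 + ENNReal.ofReal ℓ := by
          rw [h3]
          exact add_le_add (add_le_add h1 le_rfl) h2
      _ = ENNReal.ofReal (((insert c Z).card + 1) * ℓ) := by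
          rw [add_zero, ← ENNReal.ofReal_add (by positivity) hℓ, Finset.card_insert_of_notMem hcZ]
          congr 1
          push_cast
          ring

/-- **LEAF L-WG-CUT1 (finite cut).**  `B \ Z` is the union over the `≤ N + 1` gaps of `Z` of sets of diameter `≤ ℓ`.  Induction on `Z` (remove the largest point `c`: `B = (B ∩ Iio c) ∪ (B ∩ {c}) ∪ (B ∩ Ioi c)`; the last set has diameter `≤ ℓ`: it lies in `Icc (sInf) (sInf + ℓ)`, or: for any `s ∈ B ∩ Ioi c`, `B ∩ Ioi c ⊆ Icc (s - ℓ) (s + ℓ)` is too weak by a factor 2,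
so use `Real.volume_le_diam`/`Metric.ediam`: `volume S ≤ EMetric.diam S` (`Real.volume_le_diam`)).  No measurability of `B` is needed (outer measure). -/
theorem wg_cut (B : Set ℝ) (Z : Finset ℝ) (N : ℕ) (hZ : Z.card ≤ N) (ℓ : ℝ) (hℓ : 0 ≤ ℓ)
    (h : ∀ s ∈ B, ∀ s' ∈ B, s < s' → (∀ c ∈ Z, c ∉ Icc s s') → s' - s ≤ ℓ) :
    volume B ≤ ENNReal.ofReal ((N + 1) * ℓ) := by

  refine (wg_cut_aux ℓ hℓ Z B h).trans (ENNReal.ofReal_le_ofReal ?_)
  have : (Z.card : ℝ) ≤ N := by exact_mod_cast hZ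
  exact mul_le_mul_of_nonneg_right (by linarith) hℓ

/-- **LEAF L-WG-CUT2.**  `MK.poly_line` gives the finset `Z` of critical parameters (first alternative excluded by `hne`), then `wg_cut`. -/
theorem wg_line_measure {n N : ℕ} (RR : MvPolynomial (Fin n) ℝ) (hN : RR.totalDegree ≤ N) (a v : Fin n → ℝ)
    (hne : ¬ ∀ t : ℝ, MvPolynomial.eval (a + t • v) RR = 0) (B : Set ℝ) (ℓ : ℝ) (hℓ : 0 ≤ ℓ)
    (hB : ∀ s ∈ B, ∀ s' ∈ B, s < s' → (∀ t ∈ Icc s s', MvPolynomial.eval (a + t • v) RR ≠ 0) → s' - s ≤ ℓ) :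
    volume B ≤ ENNReal.ofReal ((N + 1) * ℓ) := by

  rcases MK.poly_line RR hN a v with h | ⟨Z, hZ, hZr⟩
  · exact absurd h hne
  · exact wg_cut B Z N hZ ℓ hℓ fun s hs s' hs' hlt hc =>
      hB s hs s' hs' hlt fun t ht h0 => hc t (hZr t h0) ht

/-- **LEAF L-WG-CUT3.**  Derivatives have the Darboux property (`exists_hasDerivWithinAt_eq_of_gt_of_lt` / `Set.OrdConnected.image_hasDerivWithinAt`): `H' ≥ q` on all of `[s, s']` or `H' ≤ -q` on all of it.  Mean value inequality (`Convex.mul_sub_le_image_sub_of_le_deriv` or `exists_hasDerivAt_eq_slope`): `q (s' - s) ≤ |H s' - H s| ≤ 2 Dd`. -/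
theorem wg_len_first (H H' : ℝ → ℝ) (s s' : ℝ) (hss : s ≤ s') (hd : ∀ t ∈ Icc s s', HasDerivAt H (H' t) t) (q Dd : ℝ)
    (hq : 0 < q) (hH' : ∀ t ∈ Icc s s', q ≤ |H' t|) (hs : |H s| ≤ Dd) (hs' : |H s'| ≤ Dd) : s' - s ≤ 2 * Dd / q := by

  have hDd : 0 ≤ Dd := (abs_nonneg _).trans hs
  rcases hss.eq_or_lt with rfl | hlt
  · rw [sub_self]
    positivity
  · obtain ⟨c, hc, hcs⟩ := exists_hasDerivAt_eq_slope H H' hlt
      (fun t ht => (hd t ht).continuousAt.continuousWithinAt) (fun t ht => hd t (Ioo_subset_Icc_self ht))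
    have h1 := hH' c (Ioo_subset_Icc_self hc)
    rw [hcs, abs_div, abs_of_pos (sub_pos.2 hlt), le_div_iff₀ (sub_pos.2 hlt)] at h1
    have h2 : |H s' - H s| ≤ 2 * Dd := by
      calc |H s' - H s| ≤ |H s'| + |H s| := abs_sub _ _
        _ ≤ 2 * Dd := by linarith
    rw [le_div_iff₀ hq]
    linarith

/-- **LEAF L-WG-CUT4.**  As before `H'' ≥ q` throughout or `≤ -q` throughout; wlog the first (replace `H` by `-H`).  With `c = (s+s')/2`, `λ = (s'-s)/2`: `H s + H s' - 2 H c = ∫∫ ≥ q λ²` (apply the mean value inequality to `H'` and then to `r ↦ H (c + r) + H (c - r)`, whose derivative `H'(c+r) - H'(c-r) ≥ 2 q r`, compare with `q r²`).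
So `q λ² ≤ 4 Dd`, `s' - s = 2 λ ≤ 4 sqrt (Dd / q)`. -/
theorem wg_len_second (H H' H'' : ℝ → ℝ) (s s' : ℝ) (hss : s ≤ s') (hd : ∀ t ∈ Icc s s', HasDerivAt H (H' t) t)
    (hd' : ∀ t ∈ Icc s s', HasDerivAt H' (H'' t) t) (q Dd : ℝ) (hq : 0 < q) (hH'' : ∀ t ∈ Icc s s', q ≤ |H'' t|)
    (hH : ∀ t ∈ Icc s s', |H t| ≤ Dd) : s' - s ≤ 4 * Real.sqrt (Dd / q) := by

  have hDd : 0 ≤ Dd := (abs_nonneg _).trans (hH s (left_mem_Icc.2 hss))
  rcases hss.eq_or_lt with rfl | hlt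
  · rw [sub_self]
    positivity
  obtain ⟨c, hcdef⟩ : ∃ c, c = (s + s') / 2 := ⟨_, rfl⟩
  obtain ⟨lam, hlamdef⟩ : ∃ lam, lam = (s' - s) / 2 := ⟨_, rfl⟩
  have hlam : 0 < lam := by
    rw [hlamdef]
    linarith
  have hmem : ∀ r ∈ Icc (0 : ℝ) lam, c + r ∈ Icc s s' ∧ c - r ∈ Icc s s' := by
    intro r hr
    have h1 := hr.1
    have h2 := hr.2
    rw [hlamdef] at h2
    rw [hcdef]
    refine ⟨⟨?_, ?_⟩, ⟨?_, ?_⟩⟩ <;> linarith
  have hg : ∀ r ∈ Icc (0 : ℝ) lam,
      HasDerivAt (fun r => H (c + r) + H (c - r)) (H' (c + r) - H' (c - r)) r := by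
    intro r hr
    have h1 : HasDerivAt (fun r => H (c + r)) (H' (c + r)) r :=
      HasDerivAt.comp_const_add c r (hd (c + r) (hmem r hr).1)
    have h2 : HasDerivAt (fun r => H (c - r)) (-H' (c - r)) r :=
      HasDerivAt.comp_const_sub c r (hd (c - r) (hmem r hr).2)
    exact (h1.add h2).congr_deriv (by ring)
  obtain ⟨r₁, hr₁, hrat⟩ := exists_ratio_hasDerivAt_eq_ratio_slope (fun r => H (c + r) + H (c - r))
    (fun r => H' (c + r) - H' (c - r)) hlam
    (fun r hr => (hg r hr).continuousAt.continuousWithinAt) (fun r hr => hg r (Ioo_subset_Icc_self hr))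
    (fun r => r ^ 2) (fun r => 2 * r) (by fun_prop) (fun r _ => by simpa using hasDerivAt_pow 2 r)
  have hr₁' := Ioo_subset_Icc_self hr₁
  have hlt2 : c - r₁ < c + r₁ := by linarith [hr₁.1]
  obtain ⟨ξ, hξ, hξs⟩ := exists_hasDerivAt_eq_slope H' H'' hlt2
    (fun t ht => (hd' t ⟨(hmem r₁ hr₁').2.1.trans ht.1,
      ht.2.trans (hmem r₁ hr₁').1.2⟩).continuousAt.continuousWithinAt)
    (fun t ht => hd' t ⟨(hmem r₁ hr₁').2.1.trans ht.1.le, ht.2.le.trans (hmem r₁ hr₁').1.2⟩)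
  have hξmem : ξ ∈ Icc s s' := ⟨(hmem r₁ hr₁').2.1.trans hξ.1.le, hξ.2.le.trans (hmem r₁ hr₁').1.2⟩
  have hq' := hH'' ξ hξmem
  have hr0 : (2 * r₁) ≠ 0 := by
    have := hr₁.1
    positivity
  have e1 : H' (c + r₁) - H' (c - r₁) = H'' ξ * (2 * r₁) := by
    rw [hξs, show c + r₁ - (c - r₁) = 2 * r₁ by ring, div_mul_cancel₀ _ hr0]
  have e2 : H (c + lam) + H (c - lam) - 2 * H c = lam ^ 2 * H'' ξ := by
    simp only [add_zero, sub_zero] at hrat
    rw [e1] at hrat
    apply mul_right_cancel₀ hr0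
    linarith [hrat]
  have hcl : c + lam = s' := by
    rw [hcdef, hlamdef]
    ring
  have hcl' : c - lam = s := by
    rw [hcdef, hlamdef]
    ring
  have hcm : c ∈ Icc s s' := by simpa using (hmem 0 ⟨le_rfl, hlam.le⟩).1
  have b : |H (c + lam) + H (c - lam) - 2 * H c| ≤ 4 * Dd := by
    rw [hcl, hcl']
    have a1 := abs_le.1 (hH s' (right_mem_Icc.2 hss))
    have a2 := abs_le.1 (hH s (left_mem_Icc.2 hss))
    have a3 := abs_le.1 (hH c hcm)
    rw [abs_le]
    constructor <;> linarith [a1.1, a1.2, a2.1, a2.2, a3.1, a3.2]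
  rw [e2, abs_mul, abs_of_nonneg (sq_nonneg lam)] at b
  have h3 : lam ^ 2 * q ≤ 4 * Dd := (mul_le_mul_of_nonneg_left hq' (sq_nonneg _)).trans b
  have h4 : lam ^ 2 ≤ (2 * Real.sqrt (Dd / q)) ^ 2 := by
    rw [mul_pow, Real.sq_sqrt (by positivity), show (2 : ℝ) ^ 2 * (Dd / q) = 4 * Dd / q by ring,
      le_div_iff₀ hq]
    exact h3
  have h5 : lam ≤ 2 * Real.sqrt (Dd / q) :=
    (pow_le_pow_iff_left₀ hlam.le (by positivity) two_ne_zero).1 h4
  have h6 : s' - s = 2 * lam := by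
    rw [hlamdef]
    ring
  linarith

/-- the shear of `wg_slab_bound` on an inserted point -/
theorem wg_slab_shear {m : ℕ} (k : Fin (m + 1)) (v : Fin (m + 1) → ℝ) (hv : v k ≠ 0) (t : ℝ) (y : Fin m → ℝ) :
    LinearMap.transvection (LinearMap.proj k : (Fin (m + 1) → ℝ) →ₗ[ℝ] ℝ) ((v k)⁻¹ • v - Pi.single k 1) (k.insertNth t y)
      = (k.insertNth (0 : ℝ) y : Fin (m + 1) → ℝ) + ((v k)⁻¹ * t) • v := by
  funext i
  rw [LinearMap.transvection.apply]
  simp only [LinearMap.proj_apply, Fin.insertNth_apply_same, Pi.add_apply, Pi.smul_apply, Pi.sub_apply, smul_eq_mul]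
  rcases Fin.eq_self_or_eq_succAbove k i with rfl | ⟨i', rfl⟩
  · simp only [Fin.insertNth_apply_same, Pi.single_eq_same]
    field_simp
    ring
  · simp only [Fin.insertNth_apply_succAbove, Pi.single_eq_of_ne (Fin.succAbove_ne k i')]
    ring

/-- **LEAF L-WG-SLAB (shear + Fubini + a.e. line is generic).**  Compare `MK.om_axis_le`, `MK.om_line_le` (same technique).
Linear map `Ψ y = y + (y k / v k) • (v - Pi.single k (v k))`, i.e. `Ψ y = (y with k-th coordinate 0) + (y k / v k) • v`; `det Ψ = 1`; `volume S = volume (Ψ ⁻¹' S)` (`Measure.addHaar_preimage_linearMap`).   `S' = Ψ ⁻¹' S` lies in the cylinder `|y i - c i| ≤ ρ` (`i ≠ k`).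
Fubini in the coordinate `k` (`volume_preserving_piFinSuccAbove` after writing `n = n' + 1`, or `lmarginal`): the `k`-section of `S'` at `y` is `{r | a + (r / v k) • v ∈ S}`, `a = y` with `k`-th coordinate `0`, of measure `|v k| * volume {s | a + s • v ∈ S}` (`Measure.addHaar_preimage_smul`/`Real.volume_preimage_mul_left`).
Generic lines: `{f = 0}` is null (`hf.null`), so is its `Ψ`-preimage, so for a.e. `y` (other coordinates) the section of `{f = 0}` is null, in particular not all of `ℝ`. -/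
theorem wg_slab_bound {n N : ℕ} (k : Fin n) (v c : Fin n → ℝ) (hv : v k ≠ 0) (ρ μ0 : ℝ) (hρ : 0 ≤ ρ) (hμ : 0 ≤ μ0)
    (S : Set (Fin n → ℝ)) (hS : MeasurableSet S)
    (hslab : ∀ x ∈ S, ∀ i, i ≠ k → |x i - (x k / v k) * v i - c i| ≤ ρ)
    (f : (Fin n → ℝ) → ℝ) (hf : MK.Tame n N f)
    (hline : ∀ a : Fin n → ℝ, (¬ ∀ t : ℝ, f (a + t • v) = 0) → volume {s : ℝ | a + s • v ∈ S} ≤ ENNReal.ofReal μ0) :
    volume S ≤ ENNReal.ofReal (|v k| * (2 * ρ) ^ (n - 1) * μ0) := by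
  obtain ⟨m, rfl⟩ : ∃ m, n = m + 1 := ⟨n - 1, by have := k.pos; omega⟩
  set Ψ : (Fin (m + 1) → ℝ) →ₗ[ℝ] (Fin (m + 1) → ℝ) :=
    LinearMap.transvection (LinearMap.proj k : (Fin (m + 1) → ℝ) →ₗ[ℝ] ℝ) ((v k)⁻¹ • v - Pi.single k 1) with hΨ
  have hdet : LinearMap.det Ψ = 1 := by
    rw [hΨ, LinearMap.transvection.det]
    simp [hv]
  have hΨm : Measurable Ψ := Ψ.continuous_of_finiteDimensional.measurable
  have hpre : ∀ A : Set (Fin (m + 1) → ℝ), volume (Ψ ⁻¹' A) = volume A := by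
    intro A
    rw [Measure.addHaar_preimage_linearMap _ (by rw [hdet]; exact one_ne_zero), hdet]
    simp
  have mp := (volume_preserving_piFinSuccAbove (fun _ : Fin (m + 1) => ℝ) k).symm
  have hsec : ∀ A : Set (Fin (m + 1) → ℝ), MeasurableSet A →
      volume A = ∫⁻ y : Fin m → ℝ, volume {t : ℝ | (k.insertNth (0 : ℝ) y : Fin (m + 1) → ℝ) + ((v k)⁻¹ * t) • v ∈ A} := by
    intro A hA
    rw [← hpre A, ← mp.measure_preimage (hΨm hA).nullMeasurableSet, Measure.volume_eq_prod,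
      Measure.prod_apply_symm (mp.measurable (hΨm hA))]
    refine lintegral_congr fun y => ?_
    congr 1
    ext t
    show Ψ (k.insertNth t y) ∈ A ↔ _
    rw [hΨ, wg_slab_shear k v hv t y]
    rfl
  -- generic lines
  have hZ : MeasurableSet {x | f x = 0} := (isClosed_singleton.preimage hf.cont).measurableSet
  have hgen : ∀ᵐ y : Fin m → ℝ, ¬ ∀ t : ℝ, f ((k.insertNth (0 : ℝ) y : Fin (m + 1) → ℝ) + t • v) = 0 := by
    have h0 := hsec _ hZ
    rw [hf.null] at h0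
    have hmeas : Measurable fun y : Fin m → ℝ =>
        volume {t : ℝ | (k.insertNth (0 : ℝ) y : Fin (m + 1) → ℝ) + ((v k)⁻¹ * t) • v ∈ {x | f x = 0}} := by
      have hs : MeasurableSet {p : ℝ × (Fin m → ℝ) | (k.insertNth (0 : ℝ) p.2 : Fin (m + 1) → ℝ) + ((v k)⁻¹ * p.1) • v ∈ {x | f x = 0}} := by
        refine hZ.preimage ?_
        have h1 : Measurable fun p : ℝ × (Fin m → ℝ) => (k.insertNth (0 : ℝ) p.2 : Fin (m + 1) → ℝ) := by
          have := (MeasurableEquiv.piFinSuccAbove (fun _ : Fin (m + 1) => ℝ) k).symm.measurable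
          exact this.comp (measurable_const.prodMk measurable_snd)
        exact h1.add ((measurable_const.mul measurable_fst).smul_const v)
      exact measurable_measure_prodMk_right hs
    have h1 := (lintegral_eq_zero_iff hmeas).1 h0.symm
    filter_upwards [h1] with y hy hall
    have hu : {t : ℝ | (k.insertNth (0 : ℝ) y : Fin (m + 1) → ℝ) + ((v k)⁻¹ * t) • v ∈ {x | f x = 0}} = univ :=
      Set.eq_univ_of_forall fun t => hall _
    have hy' : volume {t : ℝ | (k.insertNth (0 : ℝ) y : Fin (m + 1) → ℝ) + ((v k)⁻¹ * t) • v ∈ {x | f x = 0}} = 0 := hy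
    rw [hu] at hy'
    simp at hy'
  rw [hsec S hS]
  have hb : ∀ᵐ y : Fin m → ℝ, volume {t : ℝ | (k.insertNth (0 : ℝ) y : Fin (m + 1) → ℝ) + ((v k)⁻¹ * t) • v ∈ S}
      ≤ (closedBall (fun i => c (k.succAbove i)) ρ).indicator (fun _ => ENNReal.ofReal (|v k| * μ0)) y := by
    filter_upwards [hgen] with y hy
    by_cases hyb : y ∈ closedBall (fun i => c (k.succAbove i)) ρ
    · rw [Set.indicator_of_mem hyb]
      have e : {t : ℝ | (k.insertNth (0 : ℝ) y : Fin (m + 1) → ℝ) + ((v k)⁻¹ * t) • v ∈ S}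
          = (fun t => (v k)⁻¹ * t) ⁻¹' {s : ℝ | (k.insertNth (0 : ℝ) y : Fin (m + 1) → ℝ) + s • v ∈ S} := rfl
      rw [e, Real.volume_preimage_mul_left (inv_ne_zero hv), inv_inv, ENNReal.ofReal_mul (abs_nonneg _)]
      exact mul_le_mul' le_rfl (hline _ hy)
    · rw [Set.indicator_of_notMem hyb]
      refine le_of_eq (measure_eq_zero_iff_ae_notMem.2 (ae_of_all _ fun t ht => hyb ?_))
      rw [mem_closedBall, dist_pi_le_iff hρ]
      intro i
      have h1 := hslab _ ht (k.succAbove i) (Fin.succAbove_ne k i)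
      simp only [Pi.add_apply, Pi.smul_apply, smul_eq_mul, Fin.insertNth_apply_succAbove, Fin.insertNth_apply_same, zero_add] at h1
      rw [Real.dist_eq]
      have e : y i + (v k)⁻¹ * t * v (k.succAbove i) - (v k)⁻¹ * t * v k / v k * v (k.succAbove i) - c (k.succAbove i)
          = y i - c (k.succAbove i) := by
        field_simp
        ring
      rwa [e] at h1
  refine (lintegral_mono_ae hb).trans ?_
  rw [lintegral_indicator_const measurableSet_closedBall, Real.volume_pi_closedBall _ hρ,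
    ← ENNReal.ofReal_mul (by positivity)]
  refine le_of_eq ?_
  congr 1
  simp
  ring

end Claimed.Agent.R257
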