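import Claimed.Agent.R257.WG.Roots

/-!
# ROW 257, WALL GEOMETRY (WG), file 3: branches along base lines, formal gradient and Hessian            (architect helper131)            CONTRACT
PAPER-FREE.  Every `sorry` is a leaf `L-WG-*`.  Statements are frozen; auxiliary lemmas directly above your theorem; edit only your block.

`wgPt P i x` = the point of the wall over `x` on the `i`-th branch.   `wgG P k p`, `wgPhi P i k p` = FORMAL gradient / Hessian of the local graph `t = φ(x)` of `{P = 0}` at `p` (rational expressions in derivatives of `P` at `p`; no function `φ` is ever constructed).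
Along a base line `s ↦ a + s • e` inside `{wgRR ≠ 0}`:  `d/ds (height) = ∑ g_k e_k`,  `d/ds g_k = ∑ Φ_kl e_l`,  every test `G ∈ T` keeps its sign.
-/

set_option autoImplicit false
open MvPolynomial Filter Topology

namespace Claimed.Agent.R257

/-- the point of the wall over `x` on the `i`-th branch -/
noncomputable def wgPt {n : ℕ} (P : MvPolynomial (Fin (n + 1)) ℝ) (i : ℕ) (x : Fin n → ℝ) : Fin (n + 1) → ℝ :=
  Fin.cons (wgRt (wgV P x) i) x

/-- formal gradient of the graph -/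
noncomputable def wgG {n : ℕ} (P : MvPolynomial (Fin (n + 1)) ℝ) (k : Fin n) (p : Fin (n + 1) → ℝ) : ℝ :=
  - eval p (pderiv k.succ P) / eval p (pderiv 0 P)

/-- numerator of the formal Hessian of the graph -/
noncomputable def wgNum {n : ℕ} (P : MvPolynomial (Fin (n + 1)) ℝ) (i k : Fin n) : MvPolynomial (Fin (n + 1)) ℝ :=
  pderiv i.succ (pderiv k.succ P) * (pderiv 0 P) ^ 2 - pderiv 0 (pderiv i.succ P) * pderiv k.succ P * pderiv 0 P
    - pderiv 0 (pderiv k.succ P) * pderiv i.succ P * pderiv 0 P + pderiv 0 (pderiv 0 P) * pderiv i.succ P * pderiv k.succ P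

/-- formal Hessian of the graph -/
noncomputable def wgPhi {n : ℕ} (P : MvPolynomial (Fin (n + 1)) ℝ) (i k : Fin n) (p : Fin (n + 1) → ℝ) : ℝ :=
  - eval p (wgNum P i k) / (eval p (pderiv 0 P)) ^ 3

/-- partial derivatives commute -/
theorem wg_pderiv_comm {σ : Type} (i j : σ) (P : MvPolynomial σ ℝ) : pderiv i (pderiv j P) = pderiv j (pderiv i P) := by
  classical
  induction P using MvPolynomial.induction_on with
  | C a => simp
  | add p q hp hq => simp only [map_add, hp, hq]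
  | mul_X p l hp =>
    simp only [Derivation.leibniz, smul_eq_mul, map_add, hp, pderiv_X, Pi.single_apply]
    split_ifs <;> simp <;> ring

/-- **LEAF L-WG-LF1.**  `pderiv_pderiv_comm`-type lemma (`MvPolynomial.pderiv_pderiv_comm`? else `Derivation` commutator on monomials / `induction_on`), then `ring`. -/
theorem wgNum_symm {n : ℕ} (P : MvPolynomial (Fin (n + 1)) ℝ) (i k : Fin n) : wgNum P i k = wgNum P k i := by
  unfold wgNum
  rw [wg_pderiv_comm i.succ k.succ]
  ring

/-- **LEAF L-WG-LF2.**  `totalDegree_pderiv_le`-type bound (`totalDegree (pderiv j Q) ≤ totalDegree Q`; prove via `pderiv_monomial`/`totalDegree_le_iff` if absent), `totalDegree_mul`, `totalDegree_pow`, `totalDegree_add`, `totalDegree_sub`. -/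
theorem wgNum_totalDegree_le {n : ℕ} (P : MvPolynomial (Fin (n + 1)) ℝ) (D : ℕ) (hP : P.totalDegree ≤ D) (i k : Fin n) :
    (wgNum P i k).totalDegree ≤ 3 * D ∧ ∀ j : Fin (n + 1), (pderiv j P).totalDegree ≤ D := by
  have h1 : ∀ j : Fin (n + 1), (pderiv j P).totalDegree ≤ D := fun j => (wg_totalDegree_pderiv_le j P).trans hP
  have h2 : ∀ j l : Fin (n + 1), (pderiv j (pderiv l P)).totalDegree ≤ D := fun j l => (wg_totalDegree_pderiv_le j _).trans (h1 l)
  refine ⟨?_, h1⟩
  have m3 : ∀ A B E : MvPolynomial (Fin (n + 1)) ℝ, A.totalDegree ≤ D → B.totalDegree ≤ D → E.totalDegree ≤ D → (A * B * E).totalDegree ≤ 3 * D := by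
    intro A B E hA hB hE
    have := totalDegree_mul (A * B) E
    have := totalDegree_mul A B
    omega
  unfold wgNum
  refine (totalDegree_add _ _).trans (max_le ((totalDegree_sub _ _).trans (max_le ((totalDegree_sub _ _).trans (max_le ?_ ?_)) ?_)) ?_)
  · rw [pow_two, ← mul_assoc]
    exact m3 _ _ _ (h2 _ _) (h1 _) (h1 _)
  · exact m3 _ _ _ (h2 _ _) (h1 _) (h1 _)
  · exact m3 _ _ _ (h2 _ _) (h1 _) (h1 _)
  · exact m3 _ _ _ (h2 _ _) (h1 _) (h1 _)

theorem wg_lf3_eval_single {m : ℕ} (x : Fin m → ℝ) (i j : Fin m) :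
    eval x (Pi.single (M := fun _ => MvPolynomial (Fin m) ℝ) i 1 j) = if j = i then 1 else 0 := by
  rw [Pi.single_apply]
  split_ifs <;> simp

/-- Frechet derivative of a polynomial function -/
theorem wg_lf3_hasFDerivAt {m : ℕ} (G : MvPolynomial (Fin m) ℝ) (x : Fin m → ℝ) :
    HasFDerivAt (fun y : Fin m → ℝ => eval y G)
      (∑ j, eval x (pderiv j G) • (ContinuousLinearMap.proj j : (Fin m → ℝ) →L[ℝ] ℝ)) x := by
  induction G using MvPolynomial.induction_on with
  | C c => simpa using hasFDerivAt_const c x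
  | add G₁ G₂ h₁ h₂ =>
    simp only [map_add, add_smul, Finset.sum_add_distrib]
    exact h₁.add h₂
  | mul_X G j hG =>
    have hX : HasFDerivAt (fun y : Fin m → ℝ => y j) (ContinuousLinearMap.proj j : (Fin m → ℝ) →L[ℝ] ℝ) x :=
      (ContinuousLinearMap.proj j : (Fin m → ℝ) →L[ℝ] ℝ).hasFDerivAt
    have h := hG.mul hX
    simp only [map_mul, eval_X]
    refine h.congr_fderiv ?_
    ext v
    simp only [add_apply, smul_apply, sum_apply,
      ContinuousLinearMap.proj_apply, smul_eq_mul, pderiv_mul, pderiv_X, map_add, map_mul, eval_X,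
      wg_lf3_eval_single, add_mul, Finset.sum_add_distrib, Finset.mul_sum]
    rw [add_comm]
    congr 1
    · exact Finset.sum_congr rfl fun i _ => by ring
    · simp

/-- **LEAF L-WG-LF3 (chain rule for polynomials along a curve).**  `MvPolynomial.induction_on`: `C`, `+`, `* X j` (`HasDerivAt.mul`, `pderiv_mul`/`Derivation.leibniz`, `pderiv_X`, `Finset.sum_add_distrib`, `Pi.single_apply`). -/
theorem wg_eval_hasDerivAt {m : ℕ} (G : MvPolynomial (Fin m) ℝ) (p : ℝ → Fin m → ℝ) (p' : Fin m → ℝ) (s : ℝ)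
    (h : ∀ j, HasDerivAt (fun r => p r j) (p' j) s) :
    HasDerivAt (fun r => eval (p r) G) (∑ j, eval (p s) (pderiv j G) * p' j) s := by

  have h1 : HasDerivAt p p' s := hasDerivAt_pi.2 h
  have h2 := (wg_lf3_hasFDerivAt G (p s)).comp_hasDerivAt s h1
  refine h2.congr_deriv ?_
  simp


theorem wg_lf4_arith (A B E ε : ℝ) (hB : B ≠ 0) (hE : 0 ≤ E) (hε : 0 < ε) :
    ∃ c > 0, ∀ δ h : ℝ, |B * δ + A * h| ≤ c * (|δ| + |h| * E) → |δ - h * (-A / B)| ≤ ε * |h| := by
  have hb : 0 < |B| := abs_pos.2 hB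
  obtain ⟨C₁, hC₁⟩ : ∃ C₁, C₁ = (|B| * E + 2 * |A|) / |B| := ⟨_, rfl⟩
  have hC₁0 : 0 ≤ C₁ := by
    rw [hC₁]
    positivity
  obtain ⟨c, hc⟩ : ∃ c, c = min (|B| / 2) (ε * |B| / (C₁ + E + 1)) := ⟨_, rfl⟩
  have hc1 : c ≤ |B| / 2 := hc ▸ min_le_left _ _
  have hc2 : c ≤ ε * |B| / (C₁ + E + 1) := hc ▸ min_le_right _ _
  have hc0 : 0 < c := hc ▸ lt_min (by positivity) (by positivity)
  refine ⟨c, hc0, fun δ h hyp => ?_⟩
  have hw : 0 ≤ |δ| + |h| * E := by positivity
  have h1 : |B| * |δ| ≤ |B * δ + A * h| + |A| * |h| := by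
    rw [← abs_mul, ← abs_mul]
    calc |B * δ| = |(B * δ + A * h) - A * h| := by ring_nf
      _ ≤ |B * δ + A * h| + |A * h| := abs_sub _ _
  have h2 : |B * δ + A * h| ≤ |B| / 2 * (|δ| + |h| * E) := hyp.trans (mul_le_mul_of_nonneg_right hc1 hw)
  have h3 : |δ| ≤ C₁ * |h| := by
    rw [hC₁, div_mul_eq_mul_div, le_div_iff₀ hb]
    nlinarith [h1, h2]
  have h4 : |δ - h * (-A / B)| = |B * δ + A * h| / |B| := by
    rw [← abs_div]
    congr 1
    field_simp
    ring
  rw [h4, div_le_iff₀ hb]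
  calc |B * δ + A * h| ≤ c * (|δ| + |h| * E) := hyp
    _ ≤ c * ((C₁ + E + 1) * |h|) := by
        refine mul_le_mul_of_nonneg_left ?_ hc0.le
        nlinarith [abs_nonneg h]
    _ ≤ (ε * |B| / (C₁ + E + 1)) * ((C₁ + E + 1) * |h|) := mul_le_mul_of_nonneg_right hc2 (by positivity)
    _ = ε * |h| * |B| := by
        field_simp

/-- **LEAF L-WG-LF4 (implicit differentiation of a continuous root).**  `F(r, t) = eval (cons t (a + r • e)) P` is a polynomial in `(r, t)`.
Route: `HasStrictFDerivAt`/or elementary: for `r → s`, `0 = F(r, τ r) - F(s, τ s) = [F(r, τ r) - F(r, τ s)] + [F(r, τ s) - F(s, τ s)]`; first bracket `= (τ r - τ s) * A(r)` with `A(r) → ∂₀P(p)` (mean value theorem in `t` + continuity of `∂₀P`, `τ`),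
second bracket `= (r - s) * (∑ e_k ∂_k P(p) + o(1))` (`wg_eval_hasDerivAt` with constant height).  Hence the difference quotient of `τ` tends to `- ∑ e_k ∂_kP / ∂₀P` (`hasDerivAt_iff_tendsto_slope`). -/
theorem wg_root_hasDerivAt {n : ℕ} (P : MvPolynomial (Fin (n + 1)) ℝ) (a e : Fin n → ℝ) (τ : ℝ → ℝ) (s : ℝ)
    (hc : ContinuousAt τ s) (h0 : ∀ᶠ r in 𝓝 s, eval (Fin.cons (τ r) (a + r • e) : Fin (n + 1) → ℝ) P = 0)
    (h1 : eval (Fin.cons (τ s) (a + s • e) : Fin (n + 1) → ℝ) (pderiv 0 P) ≠ 0) :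
    HasDerivAt τ (∑ k, wgG P k (Fin.cons (τ s) (a + s • e)) * e k) s := by

  obtain ⟨p, hp⟩ : ∃ p : Fin (n + 1) → ℝ, p = Fin.cons (τ s) (a + s • e) := ⟨_, rfl⟩
  rw [← hp] at h1 ⊢
  obtain ⟨B, hB⟩ : ∃ B, B = eval p (pderiv 0 P) := ⟨_, rfl⟩
  obtain ⟨A, hA⟩ : ∃ A, A = ∑ k : Fin n, eval p (pderiv k.succ P) * e k := ⟨_, rfl⟩
  have hval : ∑ k, wgG P k p * e k = -A / B := by
    unfold wgG
    rw [hA, hB, neg_div, Finset.sum_div, ← Finset.sum_neg_distrib]
    exact Finset.sum_congr rfl fun k _ => by ring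
  rw [hval]
  have hF := wg_lf3_hasFDerivAt P p
  have hγc : Tendsto (fun r => (Fin.cons (τ r) (a + r • e) : Fin (n + 1) → ℝ)) (𝓝 s) (𝓝 p) := by
    rw [hp, tendsto_pi_nhds]
    intro j
    refine Fin.cases ?_ (fun k => ?_) j
    · simp only [Fin.cons_zero]
      exact hc
    · simp only [Fin.cons_succ]
      have : Continuous fun r : ℝ => (a + r • e) k := by
        simp only [Pi.add_apply, Pi.smul_apply, smul_eq_mul]
        fun_prop
      exact this.tendsto s
  have ho := hF.isLittleO.comp_tendsto hγc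
  rw [hasDerivAt_iff_isLittleO]
  rw [Asymptotics.isLittleO_iff] at ho ⊢
  intro ε hε
  obtain ⟨c, hc0, hcarith⟩ := wg_lf4_arith A B ‖e‖ ε (hB ▸ h1) (norm_nonneg _) hε
  have hp0 : eval p P = 0 := hp ▸ h0.self_of_nhds
  filter_upwards [ho hc0, h0] with r hr hr0
  simp only [Function.comp] at hr
  rw [hr0, hp0] at hr
  have hL : (∑ j, eval p (pderiv j P) • (ContinuousLinearMap.proj j : (Fin (n + 1) → ℝ) →L[ℝ] ℝ))
      ((Fin.cons (τ r) (a + r • e) : Fin (n + 1) → ℝ) - p) = B * (τ r - τ s) + A * (r - s) := by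
    have hL0 : ∀ v : Fin (n + 1) → ℝ,
        (∑ j, eval p (pderiv j P) • (ContinuousLinearMap.proj j : (Fin (n + 1) → ℝ) →L[ℝ] ℝ)) v
          = ∑ j, eval p (pderiv j P) * v j := by
      intro v
      simp
    have hp0' : p 0 = τ s := by
      rw [hp]
      rfl
    have hpk : ∀ k : Fin n, p k.succ = a k + s * e k := by
      intro k
      rw [hp]
      simp
    rw [hL0, Fin.sum_univ_succ]
    simp only [Pi.sub_apply, Fin.cons_zero, Fin.cons_succ, hp0', hpk, Pi.add_apply, Pi.smul_apply, smul_eq_mul]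
    rw [← hB, hA, Finset.sum_mul]
    congr 1
    exact Finset.sum_congr rfl fun k _ => by ring
  have hnorm : ‖(Fin.cons (τ r) (a + r • e) : Fin (n + 1) → ℝ) - p‖ ≤ |τ r - τ s| + |r - s| * ‖e‖ := by
    rw [pi_norm_le_iff_of_nonneg (by positivity)]
    intro j
    rw [hp]
    refine Fin.cases ?_ (fun k => ?_) j
    · simp only [Pi.sub_apply, Fin.cons_zero, Real.norm_eq_abs]
      have : 0 ≤ |r - s| * ‖e‖ := by positivity
      linarith
    · simp only [Pi.sub_apply, Fin.cons_succ, Pi.add_apply, Pi.smul_apply, smul_eq_mul, Real.norm_eq_abs]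
      have e1 : a k + r * e k - (a k + s * e k) = (r - s) * e k := by ring
      rw [e1, abs_mul]
      have e2 : |e k| ≤ ‖e‖ := norm_le_pi_norm e k
      have e3 : |r - s| * |e k| ≤ |r - s| * ‖e‖ := mul_le_mul_of_nonneg_left e2 (abs_nonneg _)
      have := abs_nonneg (τ r - τ s)
      linarith
  rw [hL] at hr
  have h5 : |B * (τ r - τ s) + A * (r - s)| ≤ c * (|τ r - τ s| + |r - s| * ‖e‖) := by
    have h6 : ‖(0 : ℝ) - 0 - (B * (τ r - τ s) + A * (r - s))‖ = |B * (τ r - τ s) + A * (r - s)| := by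
      rw [sub_zero, zero_sub, norm_neg, Real.norm_eq_abs]
    rw [h6] at hr
    exact hr.trans (mul_le_mul_of_nonneg_left hnorm hc0.le)
  have h7 := hcarith (τ r - τ s) (r - s) h5
  simpa only [smul_eq_mul, Real.norm_eq_abs] using h7

/-- the base line is continuous. -/
theorem wg_line_cont {n : ℕ} (a e : Fin n → ℝ) : Continuous fun r : ℝ => a + r • e := by fun_prop

/-- along a base line: the critical polynomial stays nonzero, the number of roots is locally constant, the branch is continuous. -/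
theorem wg_line_local {n : ℕ} (P : MvPolynomial (Fin (n + 1)) ℝ) (T : Finset (MvPolynomial (Fin (n + 1)) ℝ))
    (a e : Fin n → ℝ) (s : ℝ) (hU : eval (a + s • e) (wgRR P T) ≠ 0) :
    (∀ᶠ r in 𝓝 s, eval (a + r • e) (wgRR P T) ≠ 0) ∧
      (∀ᶠ r in 𝓝 s, wgNr (wgV P (a + r • e)) = wgNr (wgV P (a + s • e))) ∧
      ∀ i, ContinuousAt (fun r => wgRt (wgV P (a + r • e)) i) s := by
  have hl : ContinuousAt (fun r : ℝ => a + r • e) s := (wg_line_cont a e).continuousAt
  obtain ⟨h1, h2⟩ := wg_branch_cont P T (a + s • e) hU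
  refine ⟨?_, hl.eventually h1, fun i => ?_⟩
  · exact (((MvPolynomial.continuous_eval (wgRR P T)).comp (wg_line_cont a e)).continuousAt (x := s)).eventually_ne hU
  · exact ContinuousAt.comp (f := fun r : ℝ => a + r • e) (g := fun x => wgRt (wgV P x) i) (h2 i) hl

/-- a branch point lies on the wall. -/
theorem wg_branch_root {n : ℕ} (P : MvPolynomial (Fin (n + 1)) ℝ) (T : Finset (MvPolynomial (Fin (n + 1)) ℝ))
    (x : Fin n → ℝ) (i : ℕ) (hU : eval x (wgRR P T) ≠ 0) (hi : i < wgNr (wgV P x)) :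
    eval (Fin.cons (wgRt (wgV P x) i) x : Fin (n + 1) → ℝ) P = 0 := by
  rw [← wgV_eval]
  exact (wgRt_basic _ (wgRR_spec P T x hU).1).2.1 i hi

/-- **LEAF L-WG-LF5 (a branch along a base line, pointwise facts).**  `x(s) = a + s • e` is continuous, `{wgRR ≠ 0}` is open; `wg_branch_cont` (number of roots locally constant, branch continuous), `wgRt_basic`, `wgRR_spec`, `wg_root_hasDerivAt`. -/
theorem wg_branch_hasDerivAt {n : ℕ} (P : MvPolynomial (Fin (n + 1)) ℝ) (T : Finset (MvPolynomial (Fin (n + 1)) ℝ))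
    (a e : Fin n → ℝ) (i : ℕ) (s : ℝ) (hU : eval (a + s • e) (wgRR P T) ≠ 0) (hi : i < wgNr (wgV P (a + s • e))) :
    eval (wgPt P i (a + s • e)) P = 0 ∧ eval (wgPt P i (a + s • e)) (pderiv 0 P) ≠ 0 ∧
      HasDerivAt (fun r => wgRt (wgV P (a + r • e)) i) (∑ k, wgG P k (wgPt P i (a + s • e)) * e k) s := by
  obtain ⟨h1, h2, h3⟩ := wg_line_local P T a e s hU
  have hroot := wg_branch_root P T (a + s • e) i hU hi
  have hsimple := (wgRR_spec P T (a + s • e) hU).2.2.1 _ hroot
  refine ⟨hroot, hsimple, ?_⟩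
  refine wg_root_hasDerivAt P a e (fun r => wgRt (wgV P (a + r • e)) i) s (h3 i) ?_ hsimple
  filter_upwards [h1, h2] with r hr1 hr2
  exact wg_branch_root P T (a + r • e) i hr1 (by rw [hr2]; exact hi)


theorem wg_lf6_comm {m : ℕ} (P : MvPolynomial (Fin m) ℝ) (i j : Fin m) :
    pderiv i (pderiv j P) = pderiv j (pderiv i P) := by
  have h : ⁅(pderiv i : Derivation ℝ (MvPolynomial (Fin m) ℝ) (MvPolynomial (Fin m) ℝ)),
      (pderiv j : Derivation ℝ (MvPolynomial (Fin m) ℝ) (MvPolynomial (Fin m) ℝ))⁆ = 0 := by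
    refine MvPolynomial.derivation_ext fun k => ?_
    rw [Derivation.commutator_apply, pderiv_X, pderiv_X, Pi.single_apply, Pi.single_apply]
    split_ifs <;> simp
  have h2 := congrArg (fun D : Derivation ℝ (MvPolynomial (Fin m) ℝ) (MvPolynomial (Fin m) ℝ) => D P) h
  simp only [Derivation.commutator_apply, Derivation.coe_zero, Pi.zero_apply] at h2
  exact sub_eq_zero.1 h2

theorem wg_lf6_sum {n : ℕ} (α β γ δ κ : ℝ) (x y z : Fin n → ℝ) :
    ∑ l, -(α * x l - β * y l - γ * z l + δ * y l) / κ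
      = -(α * ∑ l, x l - β * ∑ l, y l - γ * ∑ l, z l + δ * ∑ l, y l) / κ := by
  rw [← Finset.sum_div, Finset.sum_neg_distrib, Finset.sum_add_distrib, Finset.sum_sub_distrib,
    Finset.sum_sub_distrib, ← Finset.mul_sum, ← Finset.mul_sum, ← Finset.mul_sum, ← Finset.mul_sum]

/-- **LEAF L-WG-LF6 (derivative of the formal gradient along a branch).**  `p r = wgPt P i (a + r • e)` has coordinate derivatives `(τ', e)` (`Fin.cases`), `wg_eval_hasDerivAt` for `pderiv k.succ P` and `pderiv 0 P`, `HasDerivAt.div`, then `field_simp; ring` with `τ' = ∑ g_l e_l`, `g_l = - ∂_l P/∂₀P`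
(`Fin.sum_univ_succ`; commute second derivatives as in `wgNum_symm`). -/
theorem wg_G_hasDerivAt {n : ℕ} (P : MvPolynomial (Fin (n + 1)) ℝ) (T : Finset (MvPolynomial (Fin (n + 1)) ℝ))
    (a e : Fin n → ℝ) (i : ℕ) (s : ℝ) (hU : eval (a + s • e) (wgRR P T) ≠ 0) (hi : i < wgNr (wgV P (a + s • e))) (k : Fin n) :
    HasDerivAt (fun r => wgG P k (wgPt P i (a + r • e))) (∑ l, wgPhi P k l (wgPt P i (a + s • e)) * e l) s := by

  obtain ⟨-, hD0, hτ⟩ := wg_branch_hasDerivAt P T a e i s hU hi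
  obtain ⟨p₀, hp₀⟩ : ∃ p₀, p₀ = wgPt P i (a + s • e) := ⟨_, rfl⟩
  rw [← hp₀] at hD0 hτ ⊢
  obtain ⟨τ', hτ'⟩ : ∃ τ', τ' = ∑ l, wgG P l p₀ * e l := ⟨_, rfl⟩
  rw [← hτ'] at hτ
  have hcoord : ∀ j, HasDerivAt (fun r => wgPt P i (a + r • e) j) ((Fin.cons τ' e : Fin (n + 1) → ℝ) j) s := by
    intro j
    refine Fin.cases ?_ (fun l => ?_) j
    · simp only [wgPt, Fin.cons_zero]
      exact hτ
    · simp only [wgPt, Fin.cons_succ, Pi.add_apply, Pi.smul_apply, smul_eq_mul]
      simpa using ((hasDerivAt_id s).mul_const (e l)).const_add (a l)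
  have hN := wg_eval_hasDerivAt (pderiv k.succ P) (fun r => wgPt P i (a + r • e)) (Fin.cons τ' e) s hcoord
  have hD := wg_eval_hasDerivAt (pderiv 0 P) (fun r => wgPt P i (a + r • e)) (Fin.cons τ' e) s hcoord
  simp only [← hp₀] at hN hD
  have hq := (hN.neg).div hD (by simpa only [← hp₀] using hD0)
  unfold wgG
  refine hq.congr_deriv ?_
  simp only [Pi.neg_apply, ← hp₀, Fin.sum_univ_succ, Fin.cons_zero, Fin.cons_succ]
  obtain ⟨D, hDd⟩ : ∃ D, D = eval p₀ (pderiv 0 P) := ⟨_, rfl⟩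
  rw [← hDd] at hD0
  have hτ'' : τ' = -(∑ l : Fin n, eval p₀ (pderiv l.succ P) * e l) / D := by
    rw [hτ', hDd]
    unfold wgG
    rw [neg_div, Finset.sum_div, ← Finset.sum_neg_distrib]
    exact Finset.sum_congr rfl fun l _ => by ring
  have hR : ∑ l, wgPhi P k l p₀ * e l
      = -(D ^ 2 * ∑ l : Fin n, eval p₀ (pderiv l.succ (pderiv k.succ P)) * e l
          - eval p₀ (pderiv 0 (pderiv k.succ P)) * D * ∑ l : Fin n, eval p₀ (pderiv l.succ P) * e l
          - eval p₀ (pderiv k.succ P) * D * ∑ l : Fin n, eval p₀ (pderiv l.succ (pderiv 0 P)) * e l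
          + eval p₀ (pderiv 0 (pderiv 0 P)) * eval p₀ (pderiv k.succ P) * ∑ l : Fin n, eval p₀ (pderiv l.succ P) * e l)
        / D ^ 3 := by
    rw [← wg_lf6_sum]
    refine Finset.sum_congr rfl fun l _ => ?_
    unfold wgPhi wgNum
    simp only [map_add, map_sub, map_mul, map_pow]
    rw [wg_lf6_comm P k.succ l.succ, wg_lf6_comm P 0 l.succ, ← hDd]
    ring
  rw [hR, hτ'', ← hDd]
  field_simp
  ring

/-- **LEAF L-WG-LF7 (constancy along a segment).**  `I` order-connected, `wgRR ≠ 0` on the segment.  (1) `s ↦ wgNr (wgV P (a + s • e))` is locally constant on `I` (`wg_branch_cont`), `I` is preconnected (`Set.OrdConnected.isPreconnected`): constant (`IsPreconnected.constant_of_mapsTo` / `IsLocallyConstant`).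
(2) for `G ∈ T`: `G = 0` trivial; otherwise `s ↦ eval (wgPt ..) G` is continuous on `I` and never `0` (`wgRR_spec`): constant sign (IVT: `IsPreconnected.intermediate_value`). -/
theorem wg_branch_const {n : ℕ} (P : MvPolynomial (Fin (n + 1)) ℝ) (T : Finset (MvPolynomial (Fin (n + 1)) ℝ))
    (a e : Fin n → ℝ) (I : Set ℝ) (hI : I.OrdConnected) (hU : ∀ s ∈ I, eval (a + s • e) (wgRR P T) ≠ 0)
    (s₀ : ℝ) (hs₀ : s₀ ∈ I) :
    (∀ s ∈ I, wgNr (wgV P (a + s • e)) = wgNr (wgV P (a + s₀ • e))) ∧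
      ∀ i, i < wgNr (wgV P (a + s₀ • e)) → ∀ G ∈ T, ∀ s ∈ I,
        SignType.sign (eval (wgPt P i (a + s • e)) G) = SignType.sign (eval (wgPt P i (a + s₀ • e)) G) := by
  have hpre : IsPreconnected I := hI.isPreconnected
  have hN : ∀ s ∈ I, wgNr (wgV P (a + s • e)) = wgNr (wgV P (a + s₀ • e)) := by
    intro s hs
    refine hpre.constant (f := fun s => wgNr (wgV P (a + s • e))) ?_ hs hs₀
    intro r hr
    have h2 := (wg_line_local P T a e r (hU r hr)).2.1
    have h3 : ContinuousAt (fun s => wgNr (wgV P (a + s • e))) r :=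
      continuousAt_const.congr (f := fun _ => wgNr (wgV P (a + r • e))) (h2.mono fun x hx => hx.symm)
    exact h3.continuousWithinAt
  refine ⟨hN, fun i hi G hG s hs => ?_⟩
  by_cases hG0 : G = 0
  · simp [hG0]
  refine hpre.constant (f := fun s => SignType.sign (eval (wgPt P i (a + s • e)) G)) ?_ hs hs₀
  intro r hr
  have h3 := (wg_line_local P T a e r (hU r hr)).2.2 i
  have hpt : ContinuousAt (fun s => wgPt P i (a + s • e)) r := by
    unfold wgPt
    refine continuousAt_pi.2 fun j => ?_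
    refine Fin.cases ?_ (fun k => ?_) j
    · simpa using h3
    · simp only [Fin.cons_succ]
      exact ((continuous_apply k).comp (wg_line_cont a e)).continuousAt
  have hev : ContinuousAt (fun s => eval (wgPt P i (a + s • e)) G) r :=
    ContinuousAt.comp (f := fun s => wgPt P i (a + s • e)) (g := fun p => eval p G)
      (MvPolynomial.continuous_eval G).continuousAt hpt
  have hne : eval (wgPt P i (a + r • e)) G ≠ 0 :=
    (wgRR_spec P T (a + r • e) (hU r hr)).2.2.2 G hG hG0 _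
      (wg_branch_root P T (a + r • e) i (hU r hr) (by rw [hN r hr]; exact hi))
  exact (ContinuousAt.comp (f := fun s => eval (wgPt P i (a + s • e)) G) (g := SignType.sign)
    (continuousAt_sign_of_ne_zero hne) hev).continuousWithinAt

end Claimed.Agent.R257
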