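import Claimed.Agent.R257.WG.Alg

/-!
# ROW 257, WALL GEOMETRY (WG), file 2: sorted real roots and their stability            (architect helper131)            CONTRACT
PAPER-FREE.  Every `sorry` is a leaf `L-WG-*`.  Statements are frozen; auxiliary lemmas directly above your theorem; edit only your block.

`wgNr f` = number of distinct real roots, `wgRt f i` = the `i`-th smallest real root (`0` for `i ≥ wgNr f`).
`wg_roots_stable`: if `f_x` has bounded degree, coefficients continuous at `x₁`, top coefficient `≠ 0` at `x₁` and only simple real roots at `x₁`, then near `x₁` the number of real roots is constant and every sorted root is continuous at `x₁`.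
This replaces cylindrical decomposition: the BRANCHES of the wall are the functions `x ↦ wgRt (wgV P x) i` on the open set `{wgRR ≠ 0}`.
-/

set_option autoImplicit false
open MvPolynomial Filter Topology

namespace Claimed.Agent.R257

/-- number of distinct real roots -/
noncomputable def wgNr (f : Polynomial ℝ) : ℕ := f.roots.toFinset.card

/-- the `i`-th smallest real root -/
noncomputable def wgRt (f : Polynomial ℝ) (i : ℕ) : ℝ := (f.roots.toFinset.sort (· ≤ ·)).getD i 0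

/-- **LEAF L-WG-RT1.**  `Finset.length_sort`, `Finset.mem_sort`, `Finset.sort_sorted_lt`/`Finset.sortedLT_sort`, `List.getD_eq_getElem`, `Polynomial.mem_roots`, `Multiset.toFinset_card_le`, `Polynomial.card_roots'`. -/
theorem wgRt_basic (f : Polynomial ℝ) (hf : f ≠ 0) :
    wgNr f ≤ f.natDegree ∧ (∀ i, i < wgNr f → f.eval (wgRt f i) = 0) ∧
      (∀ t : ℝ, f.eval t = 0 → ∃ i, i < wgNr f ∧ wgRt f i = t) ∧
      (∀ i j, i < j → j < wgNr f → wgRt f i < wgRt f j) ∧ (∀ i, wgNr f ≤ i → wgRt f i = 0) := by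
  obtain ⟨L, hL⟩ : ∃ L : List ℝ, L = f.roots.toFinset.sort (· ≤ ·) := ⟨_, rfl⟩
  have hlen : L.length = wgNr f := by rw [hL, Finset.length_sort]; rfl
  have hmem : ∀ t, t ∈ L ↔ f.eval t = 0 := by
    intro t
    rw [hL, Finset.mem_sort, Multiset.mem_toFinset, Polynomial.mem_roots hf]
    rfl
  have hs : L.SortedLT := by rw [hL]; exact Finset.sortedLT_sort _
  have hrt : ∀ i, wgRt f i = L.getD i 0 := by intro i; rw [hL]; rfl
  refine ⟨?_, ?_, ?_, ?_, ?_⟩
  · exact le_trans (Multiset.toFinset_card_le _) (Polynomial.card_roots' f)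
  · intro i hi
    rw [hrt, List.getD_eq_getElem _ _ (by omega), ← hmem]
    exact List.getElem_mem _
  · intro t ht
    obtain ⟨i, hi, h⟩ := List.getElem_of_mem ((hmem t).mpr ht)
    exact ⟨i, by omega, by rw [hrt, List.getD_eq_getElem _ _ hi, h]⟩
  · intro i j hij hj
    rw [hrt, hrt, List.getD_eq_getElem _ _ (by omega), List.getD_eq_getElem _ _ (by omega)]
    exact hs.getElem_lt_getElem_of_lt hij
  · intro i hi
    rw [hrt, List.getD_eq_default _ _ (by omega)]

/-- **LEAF L-WG-RT2 (matching of sorted roots).**  If the roots of `f'` are in bijection with those of `f` by `δ`-closeness, where the `δ`-intervals about the roots of `f` are disjoint, the sorted lists correspond.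
Proof: `φ i` := the unique root of `f'` within `δ` of `wgRt f i`; `φ` is strictly increasing in `i` (`hsep`), its range is the root set of `f'` (`hcov`), a strictly increasing enumeration of a finset by `Fin r` is `orderEmbOfFin` (`Finset.orderEmbOfFin_unique`),
or: induction / `List.Sorted` uniqueness (`List.eq_of_perm_of_sorted`). -/
theorem wg_sorted_match (f f' : Polynomial ℝ) (hf : f ≠ 0) (hf' : f' ≠ 0) (δ : ℝ) (hδ : 0 < δ)
    (hsep : ∀ s t : ℝ, f.eval s = 0 → f.eval t = 0 → s < t → 2 * δ < t - s)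
    (hex : ∀ s : ℝ, f.eval s = 0 → ∃ t, f'.eval t = 0 ∧ |t - s| < δ)
    (huniq : ∀ s t t' : ℝ, f.eval s = 0 → f'.eval t = 0 → f'.eval t' = 0 → |t - s| < δ → |t' - s| < δ → t = t')
    (hcov : ∀ t : ℝ, f'.eval t = 0 → ∃ s, f.eval s = 0 ∧ |t - s| < δ) :
    wgNr f' = wgNr f ∧ ∀ i, |wgRt f' i - wgRt f i| < δ := by
  obtain ⟨-, hroot, hsurj, hlt, hz⟩ := wgRt_basic f hf
  have hch : ∀ i : Fin (wgNr f), ∃ t, f'.eval t = 0 ∧ |t - wgRt f i| < δ := fun i => hex _ (hroot i i.2)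
  choose φ hφ0 hφd using hch
  have hmono : StrictMono φ := by
    intro i j hij
    have h1 := hsep _ _ (hroot i i.2) (hroot j j.2) (hlt i j hij j.2)
    have h2 := abs_lt.mp (hφd i)
    have h3 := abs_lt.mp (hφd j)
    linarith [h2.1, h2.2, h3.1, h3.2]
  have hL : f'.roots.toFinset.sort (· ≤ ·) = List.ofFn φ := by
    refine (Finset.sortedLT_sort _).eq_of_mem_iff (List.sortedLT_ofFn_iff.mpr hmono) fun t => ?_
    rw [Finset.mem_sort, Multiset.mem_toFinset, Polynomial.mem_roots hf', List.mem_ofFn]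
    constructor
    · intro ht
      obtain ⟨s, hs, hd⟩ := hcov t ht
      obtain ⟨i, hi, rfl⟩ := hsurj s hs
      exact ⟨⟨i, hi⟩, huniq _ _ _ hs (hφ0 _) ht (hφd _) hd⟩
    · rintro ⟨i, rfl⟩
      exact hφ0 i
  have hN : wgNr f' = wgNr f := by
    have : (f'.roots.toFinset.sort (· ≤ ·)).length = wgNr f := by rw [hL, List.length_ofFn]
    rwa [Finset.length_sort] at this
  refine ⟨hN, fun i => ?_⟩
  by_cases hi : i < wgNr f
  · have : wgRt f' i = φ ⟨i, hi⟩ := by
      unfold wgRt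
      rw [hL, List.getD_eq_getElem _ _ (by simpa using hi), List.getElem_ofFn]
    rw [this]
    exact hφd _
  · push Not at hi
    rw [hz i hi, (wgRt_basic f' hf').2.2.2.2 i (by omega)]
    simpa using hδ

/-- **LEAF L-WG-RT3 (joint continuity).**  `(F x).eval t = ∑ k ∈ range (m+1), (F x).coeff k * t ^ k` (`Polynomial.eval_eq_sum_range'`), finite sum of products of continuous maps; same for the derivative (`Polynomial.coeff_derivative`). -/
theorem wg_eval_jointly_cont {X : Type*} [TopologicalSpace X] (m : ℕ) (F : X → Polynomial ℝ) (x₁ : X)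
    (hdeg : ∀ x, (F x).natDegree ≤ m) (hcont : ∀ k, ContinuousAt (fun x => (F x).coeff k) x₁) (t₁ : ℝ) :
    ContinuousAt (fun q : X × ℝ => (F q.1).eval q.2) (x₁, t₁) ∧
      ContinuousAt (fun q : X × ℝ => (F q.1).derivative.eval q.2) (x₁, t₁) := by
  have hc : ∀ k, ContinuousAt (fun q : X × ℝ => (F q.1).coeff k) (x₁, t₁) := fun k =>
    ContinuousAt.comp (f := fun q : X × ℝ => q.1) (g := fun x => (F x).coeff k) (x := (x₁, t₁)) (hcont k) continuousAt_fst
  have ht : ∀ k : ℕ, ContinuousAt (fun q : X × ℝ => q.2 ^ k) (x₁, t₁) := fun k => continuousAt_snd.pow k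
  constructor
  · have e : (fun q : X × ℝ => (F q.1).eval q.2) = fun q : X × ℝ => ∑ k ∈ Finset.range (m + 1), (F q.1).coeff k * q.2 ^ k := by
      funext q
      exact Polynomial.eval_eq_sum_range' (Nat.lt_succ_of_le (hdeg q.1)) q.2
    rw [e]
    exact tendsto_finsetSum _ fun k _ => (hc k).mul (ht k)
  · have e : (fun q : X × ℝ => (F q.1).derivative.eval q.2) = fun q : X × ℝ => ∑ k ∈ Finset.range (m + 1), ((F q.1).coeff (k + 1) * ((k : ℝ) + 1)) * q.2 ^ k := by
      funext q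
      have h1 : (F q.1).derivative.natDegree < m + 1 :=
        lt_of_le_of_lt (Polynomial.natDegree_derivative_le _) (by have := hdeg q.1; omega)
      rw [Polynomial.eval_eq_sum_range' h1 q.2]
      refine Finset.sum_congr rfl fun k _ => ?_
      rw [Polynomial.coeff_derivative]
    rw [e]
    exact tendsto_finsetSum _ fun k _ => ((hc (k + 1)).mul continuousAt_const).mul (ht k)

/-- **LEAF L-WG-RT4 (roots stay bounded).**  Near `x₁`: `|c_m(x)| ≥ |c_m(x₁)|/2 =: b > 0`, `|c_k(x)| ≤ |c_k(x₁)| + 1 ≤ A`.  If `|t| > 1` and `f_x(t) = 0` then `b |t|^m ≤ ∑_{k<m} A |t|^k ≤ m A |t|^(m-1)`, so `|t| ≤ max 1 (m A / b)`. -/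
theorem wg_roots_bounded {X : Type*} [TopologicalSpace X] (m : ℕ) (F : X → Polynomial ℝ) (x₁ : X)
    (hdeg : ∀ x, (F x).natDegree ≤ m) (hcont : ∀ k, ContinuousAt (fun x => (F x).coeff k) x₁) (hlc : (F x₁).coeff m ≠ 0) :
    ∃ M : ℝ, ∀ᶠ x in 𝓝 x₁, F x ≠ 0 ∧ ∀ t : ℝ, (F x).eval t = 0 → |t| ≤ M := by
  obtain ⟨b, hb⟩ : ∃ b : ℝ, b = |(F x₁).coeff m| / 2 := ⟨_, rfl⟩
  have hb0 : 0 < b := by rw [hb]; have := abs_pos.mpr hlc; linarith
  obtain ⟨A, hA⟩ : ∃ A : ℝ, A = ∑ k ∈ Finset.range m, (|(F x₁).coeff k| + 1) := ⟨_, rfl⟩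
  have e1 : ∀ᶠ x in 𝓝 x₁, b < |(F x).coeff m| := by
    have h := (hcont m).abs
    refine h.eventually (lt_mem_nhds ?_)
    rw [hb]; have := abs_pos.mpr hlc; linarith
  have e2 : ∀ᶠ x in 𝓝 x₁, ∀ k ∈ Finset.range m, |(F x).coeff k| < |(F x₁).coeff k| + 1 := by
    rw [Filter.eventually_all_finset]
    intro k _
    have h := (hcont k).abs
    exact h.eventually (gt_mem_nhds (by linarith))
  refine ⟨max 1 (A / b), ?_⟩
  filter_upwards [e1, e2] with x h1 h2
  refine ⟨?_, ?_⟩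
  · intro h0
    rw [h0] at h1
    simp at h1
    linarith
  · intro t ht
    by_cases h1t : |t| ≤ 1
    · exact le_trans h1t (le_max_left _ _)
    · push Not at h1t
      refine le_trans ?_ (le_max_right _ _)
      rw [le_div_iff₀ hb0]
      rw [Polynomial.eval_eq_sum_range' (Nat.lt_succ_of_le (hdeg x)) t, Finset.sum_range_succ] at ht
      have h3 : |(F x).coeff m| * |t| ^ m ≤ ∑ k ∈ Finset.range m, |(F x).coeff k| * |t| ^ k := by
        have : (F x).coeff m * t ^ m = - ∑ k ∈ Finset.range m, (F x).coeff k * t ^ k := by linarith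
        calc |(F x).coeff m| * |t| ^ m = |(F x).coeff m * t ^ m| := by rw [abs_mul, abs_pow]
          _ = |∑ k ∈ Finset.range m, (F x).coeff k * t ^ k| := by rw [this, abs_neg]
          _ ≤ ∑ k ∈ Finset.range m, |(F x).coeff k * t ^ k| := Finset.abs_sum_le_sum_abs _ _
          _ = ∑ k ∈ Finset.range m, |(F x).coeff k| * |t| ^ k := by
            refine Finset.sum_congr rfl fun k _ => ?_
            rw [abs_mul, abs_pow]
      have hp : 0 < |t| ^ m := pow_pos (by linarith) m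
      have h4 : (∑ k ∈ Finset.range m, |(F x).coeff k| * |t| ^ k) * |t| ≤ A * |t| ^ m := by
        rw [hA, Finset.sum_mul, Finset.sum_mul]
        refine Finset.sum_le_sum fun k hk => ?_
        have hk' : k + 1 ≤ m := Finset.mem_range.mp hk
        have h5 : |t| ^ k * |t| ≤ |t| ^ m := by
          rw [← pow_succ]
          exact pow_le_pow_right₀ h1t.le hk'
        have h6 := (h2 k hk).le
        calc |(F x).coeff k| * |t| ^ k * |t| = |(F x).coeff k| * (|t| ^ k * |t|) := by ring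
          _ ≤ (|(F x₁).coeff k| + 1) * |t| ^ m := mul_le_mul h6 h5 (by positivity) (by positivity)
      have h7 : (|t| * b) * |t| ^ m ≤ A * |t| ^ m := by
        calc (|t| * b) * |t| ^ m = (b * |t| ^ m) * |t| := by ring
          _ ≤ (|(F x).coeff m| * |t| ^ m) * |t| := by
            refine mul_le_mul_of_nonneg_right ?_ (abs_nonneg _)
            exact mul_le_mul_of_nonneg_right h1.le hp.le
          _ ≤ (∑ k ∈ Finset.range m, |(F x).coeff k| * |t| ^ k) * |t| := mul_le_mul_of_nonneg_right h3 (abs_nonneg _)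
          _ ≤ A * |t| ^ m := h4
      exact le_of_mul_le_mul_right h7 hp

theorem wg_root_persists_pos {X : Type*} [TopologicalSpace X] (m : ℕ) (F : X → Polynomial ℝ) (x₁ : X)
    (hdeg : ∀ x, (F x).natDegree ≤ m) (hcont : ∀ k, ContinuousAt (fun x => (F x).coeff k) x₁) (ρ : ℝ)
    (h0 : (F x₁).eval ρ = 0) (h1 : 0 < (F x₁).derivative.eval ρ) :
    ∃ δ₀ : ℝ, 0 < δ₀ ∧ ∀ δ : ℝ, 0 < δ → δ ≤ δ₀ → ∀ᶠ x in 𝓝 x₁,
      (∃ t, (F x).eval t = 0 ∧ |t - ρ| < δ) ∧
        ∀ t t' : ℝ, (F x).eval t = 0 → (F x).eval t' = 0 → |t - ρ| < δ → |t' - ρ| < δ → t = t' := by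
  have hd := (wg_eval_jointly_cont m F x₁ hdeg hcont ρ).2.eventually (lt_mem_nhds h1)
  rw [nhds_prod_eq, Filter.eventually_prod_iff] at hd
  obtain ⟨pa, hpa, pb, hpb, hab⟩ := hd
  obtain ⟨δ₀, hδ₀, hball⟩ := Metric.eventually_nhds_iff.mp hpb
  have hmono : ∀ x, pa x → StrictMonoOn (fun t => (F x).eval t) (Metric.ball ρ δ₀) := by
    intro x hx
    refine strictMonoOn_of_deriv_pos (convex_ball ρ δ₀) (Polynomial.continuous _).continuousOn fun t ht => ?_
    rw [interior_eq_iff_isOpen.mpr Metric.isOpen_ball] at ht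
    rw [Polynomial.deriv]
    exact hab hx (hball ht)
  have hx₁ : pa x₁ := hpa.self_of_nhds
  refine ⟨δ₀, hδ₀, fun δ hδ hδ' => ?_⟩
  have hm1 : ρ - δ / 2 ∈ Metric.ball ρ δ₀ := by
    rw [Metric.mem_ball, Real.dist_eq, abs_lt]; constructor <;> linarith
  have hm2 : ρ + δ / 2 ∈ Metric.ball ρ δ₀ := by
    rw [Metric.mem_ball, Real.dist_eq, abs_lt]; constructor <;> linarith
  have hm0 : ρ ∈ Metric.ball ρ δ₀ := Metric.mem_ball_self hδ₀
  have hl : (F x₁).eval (ρ - δ / 2) < 0 := by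
    have := hmono x₁ hx₁ hm1 hm0 (by linarith)
    simpa [h0] using this
  have hr : 0 < (F x₁).eval (ρ + δ / 2) := by
    have := hmono x₁ hx₁ hm0 hm2 (by linarith)
    simpa [h0] using this
  have hcx : ∀ t : ℝ, ContinuousAt (fun x => (F x).eval t) x₁ := fun t =>
    ContinuousAt.comp (f := fun x : X => (x, t)) (g := fun q : X × ℝ => (F q.1).eval q.2) (x := x₁)
      (wg_eval_jointly_cont m F x₁ hdeg hcont t).1 (by fun_prop)
  have el := (hcx (ρ - δ / 2)).eventually (gt_mem_nhds hl)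
  have er := (hcx (ρ + δ / 2)).eventually (lt_mem_nhds hr)
  filter_upwards [hpa, el, er] with x hx h2 h3
  refine ⟨?_, ?_⟩
  · have hivt := intermediate_value_Icc (f := fun t => (F x).eval t) (a := ρ - δ / 2) (b := ρ + δ / 2) (by linarith)
      (Polynomial.continuous _).continuousOn
    obtain ⟨t, ht, ht0⟩ := hivt ⟨h2.le, h3.le⟩
    refine ⟨t, ht0, ?_⟩
    rw [abs_lt]
    constructor <;> linarith [ht.1, ht.2]
  · intro t t' ht ht' hd1 hd2
    have i1 : t ∈ Metric.ball ρ δ₀ := by rw [Metric.mem_ball, Real.dist_eq]; linarith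
    have i2 : t' ∈ Metric.ball ρ δ₀ := by rw [Metric.mem_ball, Real.dist_eq]; linarith
    exact (hmono x hx).injOn i1 i2 (by simp only [ht, ht'])

/-- **LEAF L-WG-RT5 (a simple root persists, uniquely).**  `f₁'(ρ) ≠ 0`.  By `wg_eval_jointly_cont` there are `δ' ≤ δ` and a neighbourhood of `x₁` with `(F x)'(t)` of the sign of `f₁'(ρ)` for `|t - ρ| ≤ δ'`: `F x` strictly monotone on `[ρ-δ', ρ+δ']` (uniqueness there);
BUT uniqueness is claimed on the `δ`-interval only for SMALL `δ`: the statement is `∃ δ₀ > 0, ∀ δ ≤ δ₀ ...`.  Existence: `f₁(ρ ± δ)` have opposite strict signs (strict monotonicity of `f₁`), this persists for `x` near `x₁` (continuity at the two points), IVT. -/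
theorem wg_root_persists {X : Type*} [TopologicalSpace X] (m : ℕ) (F : X → Polynomial ℝ) (x₁ : X)
    (hdeg : ∀ x, (F x).natDegree ≤ m) (hcont : ∀ k, ContinuousAt (fun x => (F x).coeff k) x₁) (ρ : ℝ)
    (h0 : (F x₁).eval ρ = 0) (h1 : (F x₁).derivative.eval ρ ≠ 0) :
    ∃ δ₀ : ℝ, 0 < δ₀ ∧ ∀ δ : ℝ, 0 < δ → δ ≤ δ₀ → ∀ᶠ x in 𝓝 x₁,
      (∃ t, (F x).eval t = 0 ∧ |t - ρ| < δ) ∧
        ∀ t t' : ℝ, (F x).eval t = 0 → (F x).eval t' = 0 → |t - ρ| < δ → |t' - ρ| < δ → t = t' := by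
  rcases lt_or_gt_of_ne h1 with h | h
  · have key := wg_root_persists_pos m (fun x => -(F x)) x₁ (fun x => by rw [Polynomial.natDegree_neg]; exact hdeg x)
      (fun k => by simp only [Polynomial.coeff_neg]; exact (hcont k).neg) ρ (by simp [h0]) (by simpa using h)
    simpa using key
  · exact wg_root_persists_pos m F x₁ hdeg hcont ρ h0 h

/-- **LEAF L-WG-RT6 (no new roots).**  `K = {t : |t| ≤ M, ∀ root s of f₁, δ ≤ |t - s|}` is compact and `f₁ ≠ 0` on it.  Tube lemma (`generalized_tube_lemma` / `IsCompact.eventually_forall_of_forall_eventually` with `wg_eval_jointly_cont`): near `x₁`, `F x ≠ 0` on `K`; with `wg_roots_bounded`. -/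
theorem wg_no_new_roots {X : Type*} [TopologicalSpace X] (m : ℕ) (F : X → Polynomial ℝ) (x₁ : X)
    (hdeg : ∀ x, (F x).natDegree ≤ m) (hcont : ∀ k, ContinuousAt (fun x => (F x).coeff k) x₁) (hlc : (F x₁).coeff m ≠ 0)
    (δ : ℝ) (hδ : 0 < δ) :
    ∀ᶠ x in 𝓝 x₁, ∀ t : ℝ, (F x).eval t = 0 → ∃ s, (F x₁).eval s = 0 ∧ |t - s| < δ := by
  obtain ⟨M, hM⟩ := wg_roots_bounded m F x₁ hdeg hcont hlc
  obtain ⟨K, hK⟩ : ∃ K : Set ℝ, K = Set.Icc (-M) M ∩ ⋂ s ∈ {s : ℝ | (F x₁).eval s = 0}, {t : ℝ | δ ≤ |t - s|} := ⟨_, rfl⟩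
  have hKc : IsCompact K := by
    rw [hK]
    refine isCompact_Icc.inter_right ?_
    refine isClosed_biInter fun s _ => ?_
    exact isClosed_le continuous_const (by fun_prop)
  have hev : ∀ᶠ x in 𝓝 x₁, ∀ t ∈ K, (F x).eval t ≠ 0 := by
    refine hKc.eventually_forall_of_forall_eventually (P := fun x t => (F x).eval t ≠ 0) fun t ht => ?_
    have h1 : (F x₁).eval t ≠ 0 := by
      intro h0
      rw [hK] at ht
      have := Set.mem_iInter₂.mp ht.2 t h0
      simp at this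
      linarith
    exact (wg_eval_jointly_cont m F x₁ hdeg hcont t).1.eventually_ne h1
  filter_upwards [hM, hev] with x h1 h2 t ht
  by_contra hcon
  push Not at hcon
  refine h2 t ?_ ht
  rw [hK]
  refine ⟨abs_le.mp (h1.2 t ht), ?_⟩
  exact Set.mem_iInter₂.mpr fun s hs => hcon s hs

theorem wg_roots_stable_eps {X : Type*} [TopologicalSpace X] (m : ℕ) (F : X → Polynomial ℝ) (x₁ : X)
    (hdeg : ∀ x, (F x).natDegree ≤ m) (hcont : ∀ k, ContinuousAt (fun x => (F x).coeff k) x₁) (hlc : (F x₁).coeff m ≠ 0)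
    (hs : ∀ t : ℝ, (F x₁).eval t = 0 → (F x₁).derivative.eval t ≠ 0) (ε : ℝ) (hε : 0 < ε) :
    ∀ᶠ x in 𝓝 x₁, wgNr (F x) = wgNr (F x₁) ∧ ∀ i, |wgRt (F x) i - wgRt (F x₁) i| < ε := by
  have hf : F x₁ ≠ 0 := by
    intro h0
    rw [h0] at hlc
    simp at hlc
  obtain ⟨R, hR⟩ : ∃ R : Finset ℝ, R = (F x₁).roots.toFinset := ⟨_, rfl⟩
  have hRm : ∀ s, s ∈ R ↔ (F x₁).eval s = 0 := by
    intro s
    rw [hR, Multiset.mem_toFinset, Polynomial.mem_roots hf]
    rfl
  have hper : ∀ s : ℝ, ∃ δ₀ : ℝ, 0 < δ₀ ∧ (s ∈ R → ∀ δ : ℝ, 0 < δ → δ ≤ δ₀ → ∀ᶠ x in 𝓝 x₁,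
      (∃ t, (F x).eval t = 0 ∧ |t - s| < δ) ∧
        ∀ t t' : ℝ, (F x).eval t = 0 → (F x).eval t' = 0 → |t - s| < δ → |t' - s| < δ → t = t') := by
    intro s
    by_cases hsR : s ∈ R
    · obtain ⟨δ₀, h1, h2⟩ := wg_root_persists m F x₁ hdeg hcont s ((hRm s).mp hsR) (hs s ((hRm s).mp hsR))
      exact ⟨δ₀, h1, fun _ => h2⟩
    · exact ⟨1, one_pos, fun h => absurd h hsR⟩
  choose d₀ hd₀ hd₁ using hper
  have E1 : ∀ᶠ δ in 𝓝[>] (0 : ℝ), δ < ε := mem_nhdsWithin_of_mem_nhds (gt_mem_nhds hε)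
  have E2 : ∀ᶠ δ in 𝓝[>] (0 : ℝ), ∀ s ∈ R, δ ≤ d₀ s := by
    rw [Filter.eventually_all_finset]
    intro s _
    exact mem_nhdsWithin_of_mem_nhds (Filter.Eventually.mono (gt_mem_nhds (hd₀ s)) fun δ h => le_of_lt h)
  have E3 : ∀ᶠ δ in 𝓝[>] (0 : ℝ), ∀ p ∈ R ×ˢ R, p.1 < p.2 → 2 * δ < p.2 - p.1 := by
    rw [Filter.eventually_all_finset]
    intro p _
    by_cases hp : p.1 < p.2
    · have h0 : (0 : ℝ) < (p.2 - p.1) / 2 := by linarith
      refine mem_nhdsWithin_of_mem_nhds (Filter.Eventually.mono (gt_mem_nhds h0) fun δ h _ => ?_)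
      have h' : δ < (p.2 - p.1) / 2 := h
      linarith
    · exact Filter.Eventually.of_forall fun δ h => absurd h hp
  have E4 : ∀ᶠ δ in 𝓝[>] (0 : ℝ), 0 < δ := self_mem_nhdsWithin
  obtain ⟨δ, h1, h2, h3, h4⟩ := (E1.and (E2.and (E3.and E4))).exists
  have A1 : ∀ᶠ x in 𝓝 x₁, ∀ s ∈ R, (∃ t, (F x).eval t = 0 ∧ |t - s| < δ) ∧
        ∀ t t' : ℝ, (F x).eval t = 0 → (F x).eval t' = 0 → |t - s| < δ → |t' - s| < δ → t = t' := by
    rw [Filter.eventually_all_finset]
    intro s hsR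
    exact hd₁ s hsR δ h4 (h2 s hsR)
  have A2 := wg_no_new_roots m F x₁ hdeg hcont hlc δ h4
  obtain ⟨M, A3⟩ := wg_roots_bounded m F x₁ hdeg hcont hlc
  filter_upwards [A1, A2, A3] with x a1 a2 a3
  have key := wg_sorted_match (F x₁) (F x) hf a3.1 δ h4
    (fun s t hs0 ht0 hst => h3 (s, t) (Finset.mem_product.mpr ⟨(hRm s).mpr hs0, (hRm t).mpr ht0⟩) hst)
    (fun s hs0 => (a1 s ((hRm s).mpr hs0)).1)
    (fun s t t' hs0 ht ht' hd hd' => (a1 s ((hRm s).mpr hs0)).2 t t' ht ht' hd hd')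
    a2
  exact ⟨key.1, fun i => lt_trans (key.2 i) h1⟩

/-- **LEAF L-WG-RT7 (stability of the sorted roots).**  Finitely many roots of `F x₁`: take `δ` below the given `ε`, below all `δ₀` of `wg_root_persists` and below half the minimal gap; intersect the finitely many neighbourhoods (`Filter.eventually_all_finset`), `wg_no_new_roots`, `wg_roots_bounded`, then `wg_sorted_match`.
`ContinuousAt` from `Metric.continuousAt_iff` / `Metric.tendsto_nhds`. -/
theorem wg_roots_stable {X : Type*} [TopologicalSpace X] (m : ℕ) (F : X → Polynomial ℝ) (x₁ : X)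
    (hdeg : ∀ x, (F x).natDegree ≤ m) (hcont : ∀ k, ContinuousAt (fun x => (F x).coeff k) x₁) (hlc : (F x₁).coeff m ≠ 0)
    (hs : ∀ t : ℝ, (F x₁).eval t = 0 → (F x₁).derivative.eval t ≠ 0) :
    (∀ᶠ x in 𝓝 x₁, wgNr (F x) = wgNr (F x₁)) ∧ ∀ i, ContinuousAt (fun x => wgRt (F x) i) x₁ := by
  refine ⟨?_, fun i => ?_⟩
  · exact (wg_roots_stable_eps m F x₁ hdeg hcont hlc hs 1 one_pos).mono fun x h => h.1
  · rw [Metric.continuousAt_iff']
    intro ε hε
    refine (wg_roots_stable_eps m F x₁ hdeg hcont hlc hs ε hε).mono fun x h => ?_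
    rw [Real.dist_eq]
    exact h.2 i

theorem wgV_derivative_eval {n : ℕ} (P : MvPolynomial (Fin (n + 1)) ℝ) (x : Fin n → ℝ) (t : ℝ) :
    (wgV P x).derivative.eval t = eval (Fin.cons t x : Fin (n + 1) → ℝ) (pderiv 0 P) := by
  rw [← wgV_eval]
  unfold wgV
  rw [wg_finSuccEquiv_pderiv, Polynomial.derivative_map]

/-- **LEAF L-WG-RT8 (branches over the base).**  `wg_roots_stable` with `X = Fin n → ℝ`, `F = wgV P`, `m = natDegree (finSuccEquiv P)`: `natDegree_map_le`; `coeff_map` + `MvPolynomial.continuous_eval`; `wgRR_spec` (top coefficient: `coeff m` of the map is `eval x₁ lc`; simple roots: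
`(wgV P x).derivative.eval t = eval (cons t x) (pderiv 0 P)`: `Polynomial.derivative_map` and `finSuccEquiv (pderiv 0 P) = derivative (finSuccEquiv P)` (prove by `MvPolynomial.induction_on` if Mathlib lacks it)). -/
theorem wg_branch_cont {n : ℕ} (P : MvPolynomial (Fin (n + 1)) ℝ) (T : Finset (MvPolynomial (Fin (n + 1)) ℝ))
    (x₁ : Fin n → ℝ) (h : eval x₁ (wgRR P T) ≠ 0) :
    (∀ᶠ x in 𝓝 x₁, wgNr (wgV P x) = wgNr (wgV P x₁)) ∧ ∀ i, ContinuousAt (fun x => wgRt (wgV P x) i) x₁ := by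
  obtain ⟨h1, h2, h3, -⟩ := wgRR_spec P T x₁ h
  refine wg_roots_stable (finSuccEquiv ℝ n P).natDegree (wgV P) x₁ (fun x => Polynomial.natDegree_map_le) (fun k => ?_) ?_ ?_
  · have e : (fun x => (wgV P x).coeff k) = fun x => eval x ((finSuccEquiv ℝ n P).coeff k) := by
      funext x
      unfold wgV
      rw [Polynomial.coeff_map]
    rw [e]
    exact (MvPolynomial.continuous_eval _).continuousAt
  · rw [← h2]
    exact Polynomial.leadingCoeff_ne_zero.mpr h1
  · intro t ht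
    rw [wgV_derivative_eval]
    rw [wgV_eval] at ht
    exact h3 t ht

end Claimed.Agent.R257
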