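import Claimed.Agent.R257.WG.Lift
import Claimed.Agent.R257.WG.Cut

/-!
# ROW 257, WALL GEOMETRY (WG), file 5: the projection measure `σ` of the wall            (architect helper131)            CONTRACT
PAPER-FREE.  Every `sorry` is a leaf `L-WG-*`.  Statements are frozen; auxiliary lemmas directly above your theorem; edit only your block.

`wgSigma P` = Lebesgue measure of the base lifted to all branches of `{P = 0}` (projection along the vertical axis, with multiplicity).  It replaces surface measure, covering numbers and "exceptional sets of dimension n-1".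
-/

set_option autoImplicit false
open MeasureTheory Set Metric MvPolynomial
open scoped ENNReal BigOperators

namespace Claimed.Agent.R257

/-- domain of the `i`-th branch -/
def wgDom {n : ℕ} (P : MvPolynomial (Fin (n + 1)) ℝ) (i : ℕ) : Set (Fin n → ℝ) :=
  {x | eval x (wgRR P ∅) ≠ 0 ∧ i < wgNr (wgV P x)}

/-- the projection measure of the wall -/
noncomputable def wgSigma {n : ℕ} (P : MvPolynomial (Fin (n + 1)) ℝ) : Measure (Fin (n + 1) → ℝ) :=
  ∑ i ∈ Finset.range P.totalDegree, (volume.restrict (wgDom P i)).map (wgPt P i)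

/-- **LEAF L-WG-SG1.**  Open: `{wgRR ≠ 0}` is open (`MvPolynomial.continuous_eval`), the number of roots is locally constant there (`wg_branch_cont`): `isOpen_iff_mem_nhds`.  Continuity: `continuous_pi`-type argument with `Fin.cases` (`Fin.cons`), `wg_branch_cont`. -/
theorem wgDom_isOpen {n : ℕ} (P : MvPolynomial (Fin (n + 1)) ℝ) (i : ℕ) :
    IsOpen (wgDom P i) ∧ ContinuousOn (wgPt P i) (wgDom P i) := by
  constructor
  · rw [isOpen_iff_mem_nhds]
    intro x hx
    have h1 : ∀ᶠ y in nhds x, eval y (wgRR P ∅) ≠ 0 :=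
      (MvPolynomial.continuous_eval (wgRR P ∅)).continuousAt.eventually_ne hx.1
    filter_upwards [h1, (wg_branch_cont P ∅ x hx.1).1] with y h2 h3
    exact ⟨h2, by rw [h3]; exact hx.2⟩
  · intro x hx
    refine ContinuousAt.continuousWithinAt ?_
    rw [continuousAt_pi]
    intro j
    refine Fin.cases ?_ (fun k => ?_) j
    · simp only [wgPt, Fin.cons_zero]
      exact (wg_branch_cont P ∅ x hx.1).2 i
    · simp only [wgPt, Fin.cons_succ]
      exact continuousAt_apply k x

/-- **LEAF L-WG-SG2.**  `ContinuousOn.measurableSet_inter_preimage`-type lemma (`ContinuousOn.isOpen_inter_preimage` handles open sets; for measurable `S`: the restriction to the subtype `wgDom P i` is continuous hence measurable, `MeasurableSet.subtype_image`; or `ContinuousOn.measurable_piecewise`).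
Formula: `Measure.finset_sum_apply`/`Measure.coe_finset_sum`, `Measure.map_apply_of_aemeasurable` (`ContinuousOn.aemeasurable` with `wgDom_isOpen.1.measurableSet`), `Measure.restrict_apply'`. -/
theorem wgSigma_apply {n : ℕ} (P : MvPolynomial (Fin (n + 1)) ℝ) (S : Set (Fin (n + 1) → ℝ)) (hS : MeasurableSet S) :
    (∀ i, MeasurableSet (wgDom P i ∩ wgPt P i ⁻¹' S)) ∧
      wgSigma P S = ∑ i ∈ Finset.range P.totalDegree, volume (wgDom P i ∩ wgPt P i ⁻¹' S) := by
  classical
  constructor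
  · intro i
    obtain ⟨ho, hc⟩ := wgDom_isOpen P i
    have hm : Measurable ((wgDom P i).piecewise (wgPt P i) fun _ => 0) :=
      hc.measurable_piecewise continuousOn_const ho.measurableSet
    have e : wgDom P i ∩ wgPt P i ⁻¹' S
        = wgDom P i ∩ ((wgDom P i).piecewise (wgPt P i) fun _ => 0) ⁻¹' S := by
      ext x
      simp only [mem_inter_iff, mem_preimage]
      constructor
      · rintro ⟨h1, h2⟩
        exact ⟨h1, by rw [piecewise_eq_of_mem _ _ _ h1]; exact h2⟩
      · rintro ⟨h1, h2⟩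
        rw [piecewise_eq_of_mem _ _ _ h1] at h2
        exact ⟨h1, h2⟩
    rw [e]
    exact ho.measurableSet.inter (hm hS)
  · unfold wgSigma
    rw [Measure.finsetSum_apply]
    refine Finset.sum_congr rfl fun i _ => ?_
    obtain ⟨ho, hc⟩ := wgDom_isOpen P i
    rw [Measure.map_apply_of_aemeasurable (hc.aemeasurable ho.measurableSet) hS,
      Measure.restrict_apply' ho.measurableSet, inter_comm]

/-- **LEAF L-WG-SG3.**  Finite sum of maps of restrictions of `volume`; induction on the finset with `Measure.add.sFinite`-instances (`inferInstance` after `Finset.sum_insert`). -/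
theorem wgSigma_sFinite {n : ℕ} (P : MvPolynomial (Fin (n + 1)) ℝ) : SFinite (wgSigma P) := by
  unfold wgSigma
  rw [← Measure.sum_coe_finset]
  infer_instance

theorem wgSigma_le {n : ℕ} (P : MvPolynomial (Fin (n + 1)) ℝ) (D : ℕ) (hP : P.totalDegree ≤ D)
    (S : Set (Fin (n + 1) → ℝ)) (hS : MeasurableSet S) (b : ℝ≥0∞)
    (h : ∀ i, volume (wgDom P i ∩ wgPt P i ⁻¹' S) ≤ b) : wgSigma P S ≤ D * b := by
  rw [(wgSigma_apply P S hS).2]
  calc ∑ i ∈ Finset.range P.totalDegree, volume (wgDom P i ∩ wgPt P i ⁻¹' S)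
      ≤ ∑ _i ∈ Finset.range P.totalDegree, b := Finset.sum_le_sum fun i _ => h i
    _ = P.totalDegree * b := by rw [Finset.sum_const, Finset.card_range, nsmul_eq_mul]
    _ ≤ D * b := by gcongr

theorem wgPt_tail {n : ℕ} (P : MvPolynomial (Fin (n + 1)) ℝ) (i : ℕ) (x : Fin n → ℝ) : Fin.tail (wgPt P i x) = x := by
  unfold wgPt
  exact Fin.tail_cons _ _

theorem wgPt_on_wall {n : ℕ} (P : MvPolynomial (Fin (n + 1)) ℝ) (i : ℕ) (x : Fin n → ℝ) (hx : x ∈ wgDom P i) :
    eval (wgPt P i x) P = 0 := by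
  have h1 := (wgRR_spec P ∅ x hx.1).1
  have h2 := (wgRt_basic (wgV P x) h1).2.1 i hx.2
  rw [wgV_eval] at h2
  exact h2

theorem wg_tail_continuous {n : ℕ} : Continuous (Fin.tail : (Fin (n + 1) → ℝ) → Fin n → ℝ) :=
  continuous_pi fun k => continuous_apply k.succ

/-- **LEAF L-WG-SG4 (σ lives on the wall over generic base points).**  `wgSigma_apply` (the set is measurable: closed / open conditions, `Fin.tail` continuous); on `wgDom P i` the point `wgPt P i x` is on the wall (`wgRt_basic`, `wgRR_spec`, `wgV_eval`) and its tail is `x`; `{wgRR P T = 0}` is null (`MK.poly_null`). -/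
theorem wgSigma_ae {n : ℕ} (P : MvPolynomial (Fin (n + 1)) ℝ) (T : Finset (MvPolynomial (Fin (n + 1)) ℝ))
    (hT : wgRR P T ≠ 0) :
    wgSigma P {p | ¬ (eval p P = 0 ∧ eval (Fin.tail p) (wgRR P T) ≠ 0)} = 0 := by
  have hS : MeasurableSet {p : Fin (n + 1) → ℝ | ¬ (eval p P = 0 ∧ eval (Fin.tail p) (wgRR P T) ≠ 0)} := by
    have h1 : MeasurableSet {p : Fin (n + 1) → ℝ | eval p P = 0} :=
      (isClosed_eq (MvPolynomial.continuous_eval P) continuous_const).measurableSet
    have h2 : MeasurableSet {p : Fin (n + 1) → ℝ | eval (Fin.tail p) (wgRR P T) = 0} :=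
      (isClosed_eq ((MvPolynomial.continuous_eval (wgRR P T)).comp wg_tail_continuous) continuous_const).measurableSet
    exact (h1.inter h2.compl).compl
  rw [(wgSigma_apply P _ hS).2]
  refine Finset.sum_eq_zero fun i _ => ?_
  refine measure_mono_null (fun x hx => ?_) (MK.poly_null (wgRR P T) hT)
  obtain ⟨h1, h2⟩ := hx
  have h3 : ¬ (eval (wgPt P i x) P = 0 ∧ eval (Fin.tail (wgPt P i x)) (wgRR P T) ≠ 0) := h2
  rw [wgPt_tail, wgPt_on_wall P i x h1] at h3
  by_contra h4
  exact h3 ⟨rfl, h4⟩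

/-- **LEAF L-WG-SG5 (lower bound by the shadow).**  Off the null set `{wgRR P ∅ = 0}` every root `t` over `x` is `wgRt (wgV P x) i` for some `i < wgNr ≤ natDegree ≤ totalDegree` (`wgRt_basic`, `wgRR_spec`, `natDegree_finSuccEquiv`, `degreeOf_le_totalDegree`): the shadow is contained in `{wgRR = 0} ∪ ⋃ i, wgDom P i ∩ wgPt P i ⁻¹' S`; `measure_union_le`, `measure_biUnion_finset_le`, `wgSigma_apply`. -/
theorem wgSigma_ge_shadow {n : ℕ} (P : MvPolynomial (Fin (n + 1)) ℝ) (h0 : wgRR P ∅ ≠ 0)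
    (S : Set (Fin (n + 1) → ℝ)) (hS : MeasurableSet S) :
    volume {x : Fin n → ℝ | ∃ t : ℝ, eval (Fin.cons t x : Fin (n + 1) → ℝ) P = 0 ∧ (Fin.cons t x : Fin (n + 1) → ℝ) ∈ S}
      ≤ wgSigma P S := by
  have hsub : {x : Fin n → ℝ | ∃ t : ℝ, eval (Fin.cons t x : Fin (n + 1) → ℝ) P = 0 ∧ (Fin.cons t x : Fin (n + 1) → ℝ) ∈ S}
      ⊆ {x : Fin n → ℝ | eval x (wgRR P ∅) = 0} ∪ ⋃ i ∈ Finset.range P.totalDegree, (wgDom P i ∩ wgPt P i ⁻¹' S) := by
    rintro x ⟨t, ht, htS⟩
    by_cases hx : eval x (wgRR P ∅) = 0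
    · exact Or.inl hx
    · right
      obtain ⟨h1, h2, -, -⟩ := wgRR_spec P ∅ x hx
      obtain ⟨b1, -, b3, -, -⟩ := wgRt_basic (wgV P x) h1
      obtain ⟨i, hi, hit⟩ := b3 t (by rw [wgV_eval]; exact ht)
      have hdeg : i < P.totalDegree := by
        refine lt_of_lt_of_le hi (b1.trans ?_)
        rw [h2, natDegree_finSuccEquiv]
        exact degreeOf_le_totalDegree P 0
      refine mem_iUnion₂.2 ⟨i, Finset.mem_range.2 hdeg, ⟨hx, hi⟩, ?_⟩
      show wgPt P i x ∈ S
      unfold wgPt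
      rw [hit]
      exact htS
  calc _ ≤ volume ({x : Fin n → ℝ | eval x (wgRR P ∅) = 0}
        ∪ ⋃ i ∈ Finset.range P.totalDegree, (wgDom P i ∩ wgPt P i ⁻¹' S)) := measure_mono hsub
    _ ≤ volume {x : Fin n → ℝ | eval x (wgRR P ∅) = 0}
        + volume (⋃ i ∈ Finset.range P.totalDegree, (wgDom P i ∩ wgPt P i ⁻¹' S)) := measure_union_le _ _
    _ ≤ 0 + ∑ i ∈ Finset.range P.totalDegree, volume (wgDom P i ∩ wgPt P i ⁻¹' S) :=
        add_le_add (le_of_eq (MK.poly_null _ h0)) (measure_biUnion_finset_le _ _)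
    _ = wgSigma P S := by rw [zero_add, (wgSigma_apply P S hS).2]

/-- **LEAF L-WG-SG6.**  `wgSigma_le` with `wgPt P i ⁻¹' {p | tail p ∈ A} = A` (`Fin.tail_cons`). -/
theorem wgSigma_base_le {n : ℕ} (P : MvPolynomial (Fin (n + 1)) ℝ) (D : ℕ) (hP : P.totalDegree ≤ D)
    (A : Set (Fin n → ℝ)) (hA : MeasurableSet A) : wgSigma P {p | Fin.tail p ∈ A} ≤ D * volume A := by
  refine wgSigma_le P D hP _ (wg_tail_continuous.measurable hA) _ fun i => measure_mono ?_
  rintro x ⟨-, hx⟩
  have h : Fin.tail (wgPt P i x) ∈ A := hx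
  rwa [wgPt_tail] at h

/-- the incidence set `{(y, p) | p ∈ S, dist p y ≤ ρ}` -/
theorem wg_mk_meas {E : Type*} [PseudoMetricSpace E] [MeasurableSpace E] [OpensMeasurableSpace E]
    [SecondCountableTopology E] (S : Set E) (hS : MeasurableSet S) (ρ : ℝ) :
    MeasurableSet {z : E × E | z.2 ∈ S ∧ dist z.2 z.1 ≤ ρ} :=
  (measurable_snd hS).inter (isClosed_le (continuous_snd.dist continuous_fst) continuous_const).measurableSet

/-- Tonelli for the incidence set -/
theorem wg_mk_prod {E : Type*} [PseudoMetricSpace E] [MeasurableSpace E] [OpensMeasurableSpace E]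
    [SecondCountableTopology E] (ν σ : Measure E) [SFinite ν] [SFinite σ] (S : Set E) (hS : MeasurableSet S) (ρ : ℝ)
    (A : ℝ≥0∞) (hν : ∀ p, ν (closedBall p ρ) ≤ A) :
    (ν.prod σ) {z : E × E | z.2 ∈ S ∧ dist z.2 z.1 ≤ ρ} ≤ A * σ S := by
  rw [Measure.prod_apply_symm (wg_mk_meas S hS ρ)]
  calc ∫⁻ p, ν ((fun y => (y, p)) ⁻¹' {z : E × E | z.2 ∈ S ∧ dist z.2 z.1 ≤ ρ}) ∂σ
      ≤ ∫⁻ p, S.indicator (fun _ => A) p ∂σ := by
        refine lintegral_mono fun p => ?_
        by_cases hp : p ∈ S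
        · rw [indicator_of_mem hp]
          refine (measure_mono fun y hy => ?_).trans (hν p)
          rw [mem_closedBall, dist_comm]
          exact hy.2
        · rw [indicator_of_notMem hp]
          refine le_of_eq (measure_mono_null (fun y hy => hp hy.1) measure_empty)
    _ = A * σ S := by rw [lintegral_indicator hS, setLIntegral_const]

/-- **LEAF L-WG-MK1 (Tonelli + Markov, first form).**  `∫⁻ y, σ (S ∩ closedBall y ρ) ∂ν = ∫⁻ p in S, ν (closedBall p ρ) ∂σ ≤ A σ(S)` (Tonelli for the closed set `{(y,p) | dist p y ≤ ρ}` and the measurable `S`: `lintegral_lintegral_swap`/`Measure.prod_apply`, `Measure.prod_apply_symm`), then `mul_meas_ge_le_lintegral`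
(measurability of `y ↦ σ (S ∩ closedBall y ρ)`: `measurable_measure_prodMk_left`). -/
theorem wg_markov_one {E : Type*} [PseudoMetricSpace E] [MeasurableSpace E] [OpensMeasurableSpace E]
    [SecondCountableTopology E] (ν σ : Measure E) [SFinite ν] [SFinite σ] (S : Set E) (hS : MeasurableSet S) (ρ : ℝ)
    (A : ℝ≥0∞) (hν : ∀ p, ν (closedBall p ρ) ≤ A) (θ : ℝ≥0∞) :
    θ * ν {y | θ ≤ σ (S ∩ closedBall y ρ)} ≤ A * σ S := by
  have hT := wg_mk_meas S hS ρ
  have hm : Measurable fun y => σ (Prod.mk y ⁻¹' {z : E × E | z.2 ∈ S ∧ dist z.2 z.1 ≤ ρ}) :=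
    measurable_measure_prodMk_left hT
  have e : ∀ y, S ∩ closedBall y ρ = Prod.mk y ⁻¹' {z : E × E | z.2 ∈ S ∧ dist z.2 z.1 ≤ ρ} := fun y => rfl
  simp only [e]
  refine (mul_meas_ge_le_lintegral hm θ).trans ?_
  rw [← Measure.prod_apply hT]
  exact wg_mk_prod ν σ S hS ρ A hν

/-- **LEAF L-WG-MK2 (Tonelli + Markov twice, weighted form).**  `f y p = ∑ α, if y ∈ Near α ∧ p ∈ Bad α then w α else 0`.   Inner Markov: `(W/2) σ {p ∈ ball | W/2 ≤ f y p} ≤ ∫⁻ p in ball, f y p ∂σ = ∑ α, w α 1[y ∈ Near α] σ (Bad α ∩ closedBall y ρ)`;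
integrate in `y` and use Tonelli as in `wg_markov_one`: `≤ ∑ α, w α A σ (Bad α) ≤ A β`; outer Markov at height `θ`. -/
theorem wg_markov_two {E : Type*} [PseudoMetricSpace E] [MeasurableSpace E] [OpensMeasurableSpace E]
    [SecondCountableTopology E] (ν σ : Measure E) [SFinite ν] [SFinite σ] {ι : Type*} [Fintype ι] (w : ι → ℝ)
    (hw0 : ∀ α, 0 ≤ w α) (hw1 : ∑ α, w α ≤ 1) (Bad Near : ι → Set E) (hBad : ∀ α, MeasurableSet (Bad α))
    (hNear : ∀ α, MeasurableSet (Near α)) (ρ : ℝ) (A β : ℝ≥0∞) (hν : ∀ p, ν (closedBall p ρ) ≤ A)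
    (hβ : ∀ α, σ (Bad α) ≤ β) (W : ℝ) (hW : 0 < W) (θ : ℝ≥0∞) :
    open Classical in
    ENNReal.ofReal (W / 2) * θ *
      ν {y | θ ≤ σ ({p | W / 2 ≤ ∑ α, if y ∈ Near α ∧ p ∈ Bad α then w α else 0} ∩ closedBall y ρ)} ≤ A * β := by
  classical
  -- the majorant on the product
  let F : E × E → ℝ≥0∞ := fun z => ∑ α, {z : E × E | z.2 ∈ Bad α ∧ dist z.2 z.1 ≤ ρ}.indicator
    (fun _ => ENNReal.ofReal (w α)) z
  have hF : Measurable F :=
    Finset.measurable_sum _ fun α _ => measurable_const.indicator (wg_mk_meas (Bad α) (hBad α) ρ)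
  have hT : MeasurableSet {z : E × E | ENNReal.ofReal (W / 2) ≤ F z} := measurableSet_le measurable_const hF
  have hsub : ∀ y, {p | W / 2 ≤ ∑ α, if y ∈ Near α ∧ p ∈ Bad α then w α else 0} ∩ closedBall y ρ
      ⊆ Prod.mk y ⁻¹' {z : E × E | ENNReal.ofReal (W / 2) ≤ F z} := by
    intro y p hp
    obtain ⟨h1, h2⟩ := hp
    have h1' : W / 2 ≤ ∑ α, if y ∈ Near α ∧ p ∈ Bad α then w α else 0 := h1
    show ENNReal.ofReal (W / 2) ≤ F (y, p)
    refine (ENNReal.ofReal_le_ofReal h1').trans ?_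
    rw [ENNReal.ofReal_sum_of_nonneg fun α _ => by split_ifs; exacts [hw0 α, le_rfl]]
    refine Finset.sum_le_sum fun α _ => ?_
    by_cases hb : p ∈ Bad α
    · have hm : (y, p) ∈ {z : E × E | z.2 ∈ Bad α ∧ dist z.2 z.1 ≤ ρ} := ⟨hb, mem_closedBall.1 h2⟩
      rw [indicator_of_mem hm]
      split_ifs
      · exact le_rfl
      · simp
    · rw [if_neg fun h => hb h.2]
      simp
  have hm : Measurable fun y => σ (Prod.mk y ⁻¹' {z : E × E | ENNReal.ofReal (W / 2) ≤ F z}) :=
    measurable_measure_prodMk_left hT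
  have h1 : θ * ν {y | θ ≤ σ ({p | W / 2 ≤ ∑ α, if y ∈ Near α ∧ p ∈ Bad α then w α else 0} ∩ closedBall y ρ)}
      ≤ (ν.prod σ) {z : E × E | ENNReal.ofReal (W / 2) ≤ F z} := by
    rw [Measure.prod_apply hT]
    refine le_trans ?_ (mul_meas_ge_le_lintegral hm θ)
    gcongr with y
    exact hsub y
  have h2 : ENNReal.ofReal (W / 2) * (ν.prod σ) {z : E × E | ENNReal.ofReal (W / 2) ≤ F z} ≤ A * β := by
    refine (mul_meas_ge_le_lintegral hF _).trans ?_
    rw [lintegral_finsetSum _ fun α _ => measurable_const.indicator (wg_mk_meas (Bad α) (hBad α) ρ)]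
    calc ∑ α, ∫⁻ z, {z : E × E | z.2 ∈ Bad α ∧ dist z.2 z.1 ≤ ρ}.indicator (fun _ => ENNReal.ofReal (w α)) z ∂(ν.prod σ)
        ≤ ∑ α, ENNReal.ofReal (w α) * (A * β) := by
          refine Finset.sum_le_sum fun α _ => ?_
          rw [lintegral_indicator (wg_mk_meas (Bad α) (hBad α) ρ), setLIntegral_const]
          gcongr
          exact (wg_mk_prod ν σ (Bad α) (hBad α) ρ A hν).trans (by gcongr; exact hβ α)
      _ = ENNReal.ofReal (∑ α, w α) * (A * β) := by
          rw [← Finset.sum_mul, ENNReal.ofReal_sum_of_nonneg fun α _ => hw0 α]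
      _ ≤ 1 * (A * β) := by
          gcongr
          exact ENNReal.ofReal_le_one.2 hw1
      _ = A * β := one_mul _
  rw [mul_assoc]
  exact (mul_le_mul' le_rfl h1).trans h2

end Claimed.Agent.R257
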