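import Claimed.Agent.R257.WG.Sigma

/-!
# ROW 257, WALL GEOMETRY (WG), file 6: steep points and the two line tests            (architect helper131)            CONTRACT
PAPER-FREE.  Every `sorry` is a leaf `L-WG-*`.  Statements are frozen; auxiliary lemmas directly above your theorem; edit only your block.

A label is a line `a + ℝ v` in `Fin (n+1) → ℝ`; `k : Fin n` is a base coordinate with `v k.succ ≠ 0`.
* first test at `p`:  `|v 0 - ∑ g_l(p) v_l| ≤ q1`, i.e. `(∂_v P)² ≤ q1² (∂₀P)²`          (`wgT1 ≤ 0`)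
* second test at `p`: `|Φ(p)[v̄, v̄]| ≤ q2`, i.e. `(Num[v̄,v̄])² ≤ q2² (∂₀P)⁶`            (`wgT2 ≤ 0`)
* strip: `|Hh(p)| ≤ Dd`, `Hh` = vertical distance from `p` to the horizontal translate of the line lying in the 2-plane `p + span(v, e₀)`   (`wgT3 ≤ 0`)
`wg_bad_sigma`: the part of the wall in the `Dd`-neighbourhood of the line where a test fails has small `σ`-measure.  This is w:line-tests of the paper without regular graph pieces, third derivatives or quantifier elimination.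
-/

set_option autoImplicit false
open MeasureTheory Set Metric MvPolynomial
open scoped ENNReal BigOperators

namespace Claimed.Agent.R257

/-- directional derivative -/
noncomputable def wgDv {n : ℕ} (P : MvPolynomial (Fin (n + 1)) ℝ) (v : Fin (n + 1) → ℝ) : MvPolynomial (Fin (n + 1)) ℝ :=
  ∑ j, C (v j) * pderiv j P

/-- first line test -/
noncomputable def wgT1 {n : ℕ} (P : MvPolynomial (Fin (n + 1)) ℝ) (v : Fin (n + 1) → ℝ) (q1 : ℝ) :
    MvPolynomial (Fin (n + 1)) ℝ := (wgDv P v) ^ 2 - C (q1 ^ 2) * (pderiv 0 P) ^ 2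

/-- numerator of `Φ[v̄, v̄]` -/
noncomputable def wgNumV {n : ℕ} (P : MvPolynomial (Fin (n + 1)) ℝ) (v : Fin (n + 1) → ℝ) : MvPolynomial (Fin (n + 1)) ℝ :=
  ∑ i : Fin n, ∑ l : Fin n, C (v i.succ * v l.succ) * wgNum P i l

/-- second line test -/
noncomputable def wgT2 {n : ℕ} (P : MvPolynomial (Fin (n + 1)) ℝ) (v : Fin (n + 1) → ℝ) (q2 : ℝ) :
    MvPolynomial (Fin (n + 1)) ℝ := (wgNumV P v) ^ 2 - C (q2 ^ 2) * (pderiv 0 P) ^ 6

/-- vertical distance to the line, measured in the 2-plane spanned by `v` and the vertical axis -/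
noncomputable def wgHh {n : ℕ} (a v : Fin (n + 1) → ℝ) (k : Fin n) : MvPolynomial (Fin (n + 1)) ℝ :=
  X 0 - C (a 0) - C (v 0 / v k.succ) * (X k.succ - C (a k.succ))

/-- strip test -/
noncomputable def wgT3 {n : ℕ} (a v : Fin (n + 1) → ℝ) (k : Fin n) (Dd : ℝ) : MvPolynomial (Fin (n + 1)) ℝ :=
  (wgHh a v k) ^ 2 - C (Dd ^ 2)

/-- steepness test in the base direction `k` -/
noncomputable def wgTs {n : ℕ} (P : MvPolynomial (Fin (n + 1)) ℝ) (k : Fin n) (S : ℝ) : MvPolynomial (Fin (n + 1)) ℝ :=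
  (pderiv k.succ P) ^ 2 - C (S ^ 2) * (pderiv 0 P) ^ 2

/-- Hessian entry test -/
noncomputable def wgTh {n : ℕ} (P : MvPolynomial (Fin (n + 1)) ℝ) (i l : Fin n) (κ : ℝ) : MvPolynomial (Fin (n + 1)) ℝ :=
  (wgNum P i l) ^ 2 - C (κ ^ 2) * (pderiv 0 P) ^ 6

open Classical in
/-- the three tests of a label -/
noncomputable def wgTline {n : ℕ} (P : MvPolynomial (Fin (n + 1)) ℝ) (a v : Fin (n + 1) → ℝ) (k : Fin n) (q1 q2 Dd : ℝ) :
    Finset (MvPolynomial (Fin (n + 1)) ℝ) := {wgT1 P v q1, wgT2 P v q2, wgT3 a v k Dd}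

/-- polyhedral neighbourhood of the line `a + ℝ v` (all coordinates, parametrised by the coordinate `k.succ`) -/
def wgNear {n : ℕ} (a v : Fin (n + 1) → ℝ) (k : Fin n) (Dd : ℝ) : Set (Fin (n + 1) → ℝ) :=
  {p | ∀ j, |p j - a j - ((p k.succ - a k.succ) / v k.succ) * v j| ≤ Dd}

/-- points near the line where one of the two line tests fails -/
def wgBad {n : ℕ} (P : MvPolynomial (Fin (n + 1)) ℝ) (a v : Fin (n + 1) → ℝ) (k : Fin n) (q1 q2 Dd : ℝ) :
    Set (Fin (n + 1) → ℝ) :=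
  {p | p ∈ wgNear a v k Dd ∧ (0 < eval p (wgT1 P v q1) ∨ 0 < eval p (wgT2 P v q2))}

/-- degree of `A ^ m - C c * B ^ m'` -/
theorem wg_test_shape_degree {σ : Type} (A B : MvPolynomial σ ℝ) (c : ℝ) (m m' dA dB N : ℕ) (hA : A.totalDegree ≤ dA)
    (hB : B.totalDegree ≤ dB) (h1 : m * dA ≤ N) (h2 : m' * dB ≤ N) : (A ^ m - C c * B ^ m').totalDegree ≤ N := by
  refine (totalDegree_sub _ _).trans (max_le ?_ ?_)
  · exact (totalDegree_pow _ _).trans ((Nat.mul_le_mul_left _ hA).trans h1)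
  · refine (totalDegree_mul _ _).trans ?_
    rw [totalDegree_C, zero_add]
    exact (totalDegree_pow _ _).trans ((Nat.mul_le_mul_left _ hB).trans h2)

theorem wg_C_mul_degree {σ : Type} (A : MvPolynomial σ ℝ) (c : ℝ) : (C c * A).totalDegree ≤ A.totalDegree := by
  refine (totalDegree_mul _ _).trans ?_
  rw [totalDegree_C, zero_add]

/-- **LEAF L-WG-TS0 (degrees of the tests).**  `wgNum_totalDegree_le`, `totalDegree_pow`, `totalDegree_mul`, `totalDegree_sub`, `totalDegree_finset_sum`, `totalDegree_C`, `totalDegree_X`.  (`hD : 1 ≤ D` for the strip test of degree `2`.) -/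
theorem wg_tests_degree {n : ℕ} (P : MvPolynomial (Fin (n + 1)) ℝ) (D : ℕ) (hD : 1 ≤ D) (hP : P.totalDegree ≤ D)
    (a v : Fin (n + 1) → ℝ) (k i l : Fin n) (q1 q2 Dd S κ : ℝ) :
    (wgT1 P v q1).totalDegree ≤ 6 * D ∧ (wgT2 P v q2).totalDegree ≤ 6 * D ∧ (wgT3 a v k Dd).totalDegree ≤ 6 * D ∧
      (wgTs P k S).totalDegree ≤ 6 * D ∧ (wgTh P i l κ).totalDegree ≤ 6 * D := by
  have hp : ∀ j : Fin (n + 1), (pderiv j P).totalDegree ≤ D := (wgNum_totalDegree_le P D hP k k).2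
  have hN : ∀ i l : Fin n, (wgNum P i l).totalDegree ≤ 3 * D := fun i l => (wgNum_totalDegree_le P D hP i l).1
  have hDv : (wgDv P v).totalDegree ≤ D := by
    unfold wgDv
    exact (totalDegree_finsetSum _ _).trans (Finset.sup_le fun j _ => (wg_C_mul_degree _ _).trans (hp j))
  have hNV : (wgNumV P v).totalDegree ≤ 3 * D := by
    unfold wgNumV
    refine (totalDegree_finsetSum _ _).trans (Finset.sup_le fun i _ => ?_)
    exact (totalDegree_finsetSum _ _).trans (Finset.sup_le fun l _ => (wg_C_mul_degree _ _).trans (hN i l))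
  have hH : (wgHh a v k).totalDegree ≤ 1 := by
    unfold wgHh
    refine (totalDegree_sub _ _).trans (max_le ((totalDegree_sub _ _).trans (max_le ?_ ?_)) ?_)
    · rw [totalDegree_X]
    · rw [totalDegree_C]; exact Nat.zero_le _
    · refine (wg_C_mul_degree _ _).trans ((totalDegree_sub _ _).trans (max_le ?_ ?_))
      · rw [totalDegree_X]
      · rw [totalDegree_C]; exact Nat.zero_le _
  refine ⟨?_, ?_, ?_, ?_, ?_⟩
  · exact wg_test_shape_degree _ _ _ 2 2 D D _ hDv (hp 0) (by omega) (by omega)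
  · exact wg_test_shape_degree _ _ _ 2 6 (3 * D) D _ hNV (hp 0) (by omega) (by omega)
  · unfold wgT3
    refine (totalDegree_sub _ _).trans (max_le ?_ ?_)
    · exact (totalDegree_pow _ _).trans ((Nat.mul_le_mul_left _ hH).trans (by omega))
    · rw [totalDegree_C]; exact Nat.zero_le _
  · exact wg_test_shape_degree _ _ _ 2 2 D D _ (hp _) (hp 0) (by omega) (by omega)
  · exact wg_test_shape_degree _ _ _ 2 6 (3 * D) D _ (hN i l) (hp 0) (by omega) (by omega)

/-- `A² - q² B² ≤ 0 ↔ |A / B| ≤ q` -/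
theorem wg_sq_test {A B q : ℝ} (hB : B ≠ 0) (hq : 0 ≤ q) : A ^ 2 - q ^ 2 * B ^ 2 ≤ 0 ↔ |A / B| ≤ q := by
  have hB' : 0 < |B| := abs_pos.2 hB
  rw [abs_div, div_le_iff₀ hB', sub_nonpos, ← mul_pow, sq_le_sq, abs_mul, abs_of_nonneg hq]

/-- **LEAF L-WG-TS1 (meaning of the tests).**  `eval` is a ring hom; `sq_le_sq'`/`abs_le_of_sq_le`, `div_le_iff`, `abs_div`, `abs_pow`; `v 0 - ∑ g_l v_l = (∂_v P)/(∂₀P)` (`Fin.sum_univ_succ`, `field_simp`). -/
theorem wg_tests_meaning {n : ℕ} (P : MvPolynomial (Fin (n + 1)) ℝ) (p : Fin (n + 1) → ℝ)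
    (h0 : eval p (pderiv 0 P) ≠ 0) (v : Fin (n + 1) → ℝ) (k i l : Fin n) (q1 q2 S κ : ℝ) (hq1 : 0 ≤ q1) (hq2 : 0 ≤ q2)
    (hS : 0 ≤ S) (hκ : 0 ≤ κ) :
    (eval p (wgT1 P v q1) ≤ 0 ↔ |v 0 - ∑ l, wgG P l p * v l.succ| ≤ q1) ∧
      (eval p (wgT2 P v q2) ≤ 0 ↔ |∑ i, ∑ l, wgPhi P i l p * v i.succ * v l.succ| ≤ q2) ∧
      (eval p (wgTs P k S) ≤ 0 ↔ |wgG P k p| ≤ S) ∧ (eval p (wgTh P i l κ) ≤ 0 ↔ |wgPhi P i l p| ≤ κ) := by
  have h3 : (eval p (pderiv 0 P)) ^ 3 ≠ 0 := pow_ne_zero 3 h0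
  refine ⟨?_, ?_, ?_, ?_⟩
  · have e1 : eval p (wgT1 P v q1) = (eval p (wgDv P v)) ^ 2 - q1 ^ 2 * (eval p (pderiv 0 P)) ^ 2 := by
      simp [wgT1]
    have e2 : v 0 - ∑ l, wgG P l p * v l.succ = eval p (wgDv P v) / eval p (pderiv 0 P) := by
      have : eval p (wgDv P v) = v 0 * eval p (pderiv 0 P) + ∑ l : Fin n, v l.succ * eval p (pderiv l.succ P) := by
        simp [wgDv, Fin.sum_univ_succ]
      rw [this, add_div, mul_div_cancel_right₀ _ h0, Finset.sum_div, sub_eq_add_neg, ← Finset.sum_neg_distrib]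
      congr 1
      refine Finset.sum_congr rfl fun l _ => ?_
      unfold wgG
      ring
    rw [e1, e2]
    exact wg_sq_test h0 hq1
  · have e1 : eval p (wgT2 P v q2) = (eval p (wgNumV P v)) ^ 2 - q2 ^ 2 * ((eval p (pderiv 0 P)) ^ 3) ^ 2 := by
      simp only [wgT2, map_sub, map_mul, map_pow, eval_C]; ring
    have e2 : ∑ i, ∑ l, wgPhi P i l p * v i.succ * v l.succ = - (eval p (wgNumV P v) / (eval p (pderiv 0 P)) ^ 3) := by
      have : eval p (wgNumV P v) = ∑ i : Fin n, ∑ l : Fin n, v i.succ * v l.succ * eval p (wgNum P i l) := by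
        simp [wgNumV]
      rw [this, Finset.sum_div, ← Finset.sum_neg_distrib]
      refine Finset.sum_congr rfl fun i _ => ?_
      rw [Finset.sum_div, ← Finset.sum_neg_distrib]
      refine Finset.sum_congr rfl fun l _ => ?_
      unfold wgPhi
      ring
    rw [e1, e2, abs_neg]
    exact wg_sq_test h3 hq2
  · have e1 : eval p (wgTs P k S) = (eval p (pderiv k.succ P)) ^ 2 - S ^ 2 * (eval p (pderiv 0 P)) ^ 2 := by
      simp [wgTs]
    rw [e1, wgG, neg_div, abs_neg]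
    exact wg_sq_test h0 hS
  · have e1 : eval p (wgTh P i l κ) = (eval p (wgNum P i l)) ^ 2 - κ ^ 2 * ((eval p (pderiv 0 P)) ^ 3) ^ 2 := by
      simp only [wgTh, map_sub, map_mul, map_pow, eval_C]; ring
    rw [e1, wgPhi, neg_div, abs_neg]
    exact wg_sq_test h3 hκ

/-- **LEAF L-WG-TS2 (geometry of near labels).**  `δ = p - a - t • v`, `‖δ‖ ≤ r + ρ`; `(p k.succ - a k.succ)/v k.succ = t + δ k.succ / v k.succ`, so the `j`-th expression is `δ j - (δ k.succ / v k.succ) v j`, `|..| ≤ (r+ρ)(1 + 1/c0)` (`norm_le_pi_norm`, `|v j| ≤ 1`). -/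
theorem wg_near_of_tube {n : ℕ} (a v : Fin (n + 1) → ℝ) (k : Fin n) (c0 : ℝ) (hc0 : 0 < c0) (hvk : c0 ≤ |v k.succ|)
    (hv : ‖v‖ ≤ 1) (y p : Fin (n + 1) → ℝ) (r ρ : ℝ) (hy : y ∈ MK.tube a v r) (hp : ‖p - y‖ ≤ ρ) (Dd : ℝ)
    (hDd : (r + ρ) * (1 + 1 / c0) ≤ Dd) : p ∈ wgNear a v k Dd := by
  obtain ⟨t, ht⟩ := hy
  set δ : Fin (n + 1) → ℝ := p - a - t • v with hδ
  have hδn : ‖δ‖ ≤ r + ρ := by
    have e : δ = (y - a - t • v) + (p - y) := by rw [hδ]; abel
    rw [e]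
    exact (norm_add_le _ _).trans (add_le_add ht hp)
  have hvk0 : v k.succ ≠ 0 := by
    intro h0
    rw [h0, abs_zero] at hvk
    linarith
  have hδj : ∀ j, |δ j| ≤ r + ρ := fun j => (norm_le_pi_norm δ j).trans hδn
  have hvj : ∀ j, |v j| ≤ 1 := fun j => (norm_le_pi_norm v j).trans hv
  have hpj : ∀ j, p j - a j = δ j + t * v j := by
    intro j
    simp [hδ]
  intro j
  have e : p j - a j - ((p k.succ - a k.succ) / v k.succ) * v j = δ j - (δ k.succ / v k.succ) * v j := by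
    rw [hpj j, hpj k.succ]
    field_simp
    ring
  rw [e]
  have h0 : 0 ≤ r + ρ := (abs_nonneg _).trans (hδj j)
  have h1 : |δ k.succ / v k.succ * v j| ≤ (r + ρ) * (1 / c0) := by
    rw [abs_mul, abs_div]
    have h2 : |δ k.succ| / |v k.succ| ≤ (r + ρ) / c0 := div_le_div₀ h0 (hδj _) hc0 hvk
    calc |δ k.succ| / |v k.succ| * |v j| ≤ (r + ρ) / c0 * 1 := mul_le_mul h2 (hvj j) (abs_nonneg _) (by positivity)
      _ = (r + ρ) * (1 / c0) := by ring
  calc |δ j - δ k.succ / v k.succ * v j| ≤ |δ j| + |δ k.succ / v k.succ * v j| := abs_sub _ _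
    _ ≤ (r + ρ) + (r + ρ) * (1 / c0) := add_le_add (hδj j) h1
    _ = (r + ρ) * (1 + 1 / c0) := by ring
    _ ≤ Dd := hDd

/-- **LEAF L-WG-TS3 (steep points, one branch, one line).**  Line `x(s) = a + s • Pi.single k 1`.  Let `s < s'` be in the set with `wgRR ≠ 0` on `[s, s']`.  `wg_branch_const` (`I = Icc s s'`): same branch, `wgTs > 0` on all of `[s,s']`, i.e. `|g_k| > S` (`wg_tests_meaning`);
`τ(r) = wgRt (wgV P (x r)) i` has derivative `g_k` (`wg_branch_hasDerivAt`, `∑ l, g_l * single = g_k`); `wg_len_first` with `H = τ - y0`, `q = S`, `Dd = ρ`: `s' - s ≤ 2 ρ / S`.  Then `wg_line_measure`. -/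
theorem wg_steep_line {n : ℕ} (P : MvPolynomial (Fin (n + 1)) ℝ) (N : ℕ) (k : Fin n) (S : ℝ) (hS : 0 < S)
    (hN : (wgRR P {wgTs P k S}).totalDegree ≤ N) (a : Fin n → ℝ)
    (hne : ¬ ∀ t : ℝ, eval (a + t • (Pi.single k 1 : Fin n → ℝ)) (wgRR P {wgTs P k S}) = 0) (i : ℕ) (y0 ρ : ℝ) (hρ : 0 ≤ ρ) :
    volume {s : ℝ | a + s • (Pi.single k 1 : Fin n → ℝ) ∈ wgDom P i ∧
        0 < eval (wgPt P i (a + s • (Pi.single k 1 : Fin n → ℝ))) (wgTs P k S) ∧
        |wgRt (wgV P (a + s • (Pi.single k 1 : Fin n → ℝ))) i - y0| ≤ ρ}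
      ≤ ENNReal.ofReal ((N + 1) * (2 * ρ / S)) := by
  set e : Fin n → ℝ := Pi.single k 1 with he
  set T : Finset (MvPolynomial (Fin (n + 1)) ℝ) := {wgTs P k S} with hT
  refine wg_line_measure (wgRR P T) hN a e hne _ (2 * ρ / S) (by positivity) ?_
  rintro s ⟨hs1, hs2, hs3⟩ s' ⟨-, -, hs3'⟩ hss hU
  obtain ⟨hc1, hc2⟩ := wg_branch_const P T a e (Icc s s') ordConnected_Icc hU s (left_mem_Icc.2 hss.le)
  have hi : i < wgNr (wgV P (a + s • e)) := hs1.2
  have hder : ∀ t ∈ Icc s s', HasDerivAt (fun r => wgRt (wgV P (a + r • e)) i - y0) (wgG P k (wgPt P i (a + t • e))) t := by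
    intro t ht
    have h1 := (wg_branch_hasDerivAt P T a e i t (hU t ht) (by rw [hc1 t ht]; exact hi)).2.2
    have h2 : ∑ l, wgG P l (wgPt P i (a + t • e)) * e l = wgG P k (wgPt P i (a + t • e)) := by
      rw [Finset.sum_eq_single k]
      · simp [he]
      · intro l _ hl
        simp [he, Pi.single_eq_of_ne hl]
      · intro h; exact absurd (Finset.mem_univ k) h
    rw [h2] at h1
    exact h1.sub_const y0
  have hbig : ∀ t ∈ Icc s s', S ≤ |wgG P k (wgPt P i (a + t • e))| := by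
    intro t ht
    have h0 := (wg_branch_hasDerivAt P T a e i t (hU t ht) (by rw [hc1 t ht]; exact hi)).2.1
    have h1 := hc2 i hi (wgTs P k S) (by simp [hT]) t ht
    rw [sign_pos hs2, sign_eq_one_iff] at h1
    have h2 := (wg_tests_meaning P (wgPt P i (a + t • e)) h0 0 k k k 0 0 S 0 le_rfl le_rfl hS.le le_rfl).2.2.1
    by_contra hcon
    exact absurd (h2.2 (not_le.1 hcon).le) (not_le.2 h1)
  exact wg_len_first _ _ s s' hss.le hder S ρ hS hbig hs3 hs3'

/-- **LEAF L-WG-TS4 (steep points).**  `wgSigma_le`; for each branch `wg_slab_bound` with `v = Pi.single k 1`, `c = tail y`, `f = eval · (wgRR P {wgTs P k S})` (`MK.tame_of_poly`, `wgRR_totalDegree_le` with `card = 1`: `N = 147 D²`), `hline` from `wg_steep_line`. -/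
theorem wg_steep_sigma {n : ℕ} (P : MvPolynomial (Fin (n + 1)) ℝ) (D : ℕ) (hD : 1 ≤ D) (hP : P.totalDegree ≤ D) (k : Fin n)
    (S : ℝ) (hS : 0 < S) (hgen : wgRR P {wgTs P k S} ≠ 0) (y : Fin (n + 1) → ℝ) (ρ : ℝ) (hρ : 0 ≤ ρ) :
    wgSigma P ({p | 0 < eval p (wgTs P k S)} ∩ closedBall y ρ)
      ≤ ENNReal.ofReal (D * ((2 * ρ) ^ (n - 1) * ((147 * D ^ 2 + 1) * (2 * ρ / S)))) := by
  set Q : Set (Fin (n + 1) → ℝ) := {p | 0 < eval p (wgTs P k S)} ∩ closedBall y ρ with hQ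
  have hQm : MeasurableSet Q :=
    (isOpen_lt continuous_const (MvPolynomial.continuous_eval _)).measurableSet.inter measurableSet_closedBall
  have hdeg : (wgRR P {wgTs P k S}).totalDegree ≤ 147 * D ^ 2 := by
    refine (wgRR_totalDegree_le P {wgTs P k S} D hP ?_).trans ?_
    · intro G hG
      rw [Finset.mem_singleton] at hG
      rw [hG]
      exact (wg_tests_degree P D hD hP 0 0 k k k 0 0 0 S 0).2.2.2.1
    · rw [Finset.card_singleton]
      exact le_of_eq (by ring)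
  have hb : ∀ i, volume (wgDom P i ∩ wgPt P i ⁻¹' Q) ≤ ENNReal.ofReal ((2 * ρ) ^ (n - 1) * ((147 * D ^ 2 + 1) * (2 * ρ / S))) := by
    intro i
    have h1 := wg_slab_bound (N := 147 * D ^ 2) k (Pi.single k 1 : Fin n → ℝ) (Fin.tail y) (by simp) ρ
      ((147 * D ^ 2 + 1) * (2 * ρ / S)) hρ (by positivity) (wgDom P i ∩ wgPt P i ⁻¹' Q) ((wgSigma_apply P Q hQm).1 i)
      (by
        rintro x ⟨-, hx⟩ l hl
        have h2 : wgPt P i x ∈ closedBall y ρ := hx.2
        rw [mem_closedBall] at h2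
        have h3 := (dist_le_pi_dist (wgPt P i x) y l.succ).trans h2
        rw [Real.dist_eq] at h3
        simpa [Pi.single_eq_of_ne hl, wgPt, Fin.tail] using h3)
      (fun x => eval x (wgRR P {wgTs P k S})) (MK.tame_of_poly _ hgen hdeg)
      (by
        intro a ha
        have h2 := wg_steep_line P (147 * D ^ 2) k S hS hdeg a ha i (y 0) ρ hρ
        refine (measure_mono ?_).trans (h2.trans (le_of_eq ?_))
        · rintro s ⟨hs1, hs2⟩
          refine ⟨hs1, hs2.1, ?_⟩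
          have h3 : wgPt P i (a + s • (Pi.single k 1 : Fin n → ℝ)) ∈ closedBall y ρ := hs2.2
          rw [mem_closedBall] at h3
          have h4 := (dist_le_pi_dist (wgPt P i (a + s • (Pi.single k 1 : Fin n → ℝ))) y 0).trans h3
          rw [Real.dist_eq] at h4
          simpa [wgPt] using h4
        · push_cast
          rfl)
    refine h1.trans (le_of_eq ?_)
    simp
  refine (wgSigma_le P D hP Q hQm _ hb).trans (le_of_eq ?_)
  rw [ENNReal.ofReal_mul (Nat.cast_nonneg D), ENNReal.ofReal_natCast]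

/-- **LEAF L-WG-TS5 (first line test, one branch, one line).**  Base line `x(s) = b + s • tail v`.  `H(s) = eval (wgPt P i (x s)) (wgHh a v k)`; since `x(s) k = b k + s v_k`, `H(s) = τ(s) - s v 0 + const`, `H' = ∑ g_l v_l - v 0`.
For `s < s'` in the set with `wgRR ≠ 0` on `[s,s']`: `wg_branch_const` keeps `wgT1 > 0`, i.e. `|H'| > q1` (`wg_tests_meaning`), `|H s|, |H s'| ≤ Dd` (component `j = 0` of `wgNear`); `wg_len_first`; `wg_line_measure`. -/
theorem wg_bad_line_first {n : ℕ} (P : MvPolynomial (Fin (n + 1)) ℝ) (N : ℕ) (a v : Fin (n + 1) → ℝ) (k : Fin n)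
    (hvk : v k.succ ≠ 0) (q1 q2 Dd : ℝ) (hq1 : 0 < q1) (hq2 : 0 < q2) (hDd : 0 ≤ Dd)
    (hN : (wgRR P (wgTline P a v k q1 q2 Dd)).totalDegree ≤ N) (b : Fin n → ℝ)
    (hne : ¬ ∀ t : ℝ, eval (b + t • Fin.tail v) (wgRR P (wgTline P a v k q1 q2 Dd)) = 0) (i : ℕ) :
    volume {s : ℝ | b + s • Fin.tail v ∈ wgDom P i ∧ wgPt P i (b + s • Fin.tail v) ∈ wgNear a v k Dd ∧
        0 < eval (wgPt P i (b + s • Fin.tail v)) (wgT1 P v q1)}
      ≤ ENNReal.ofReal ((N + 1) * (2 * Dd / q1)) := by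
  classical
  obtain ⟨T, hT⟩ : ∃ T, T = wgTline P a v k q1 q2 Dd := ⟨_, rfl⟩
  obtain ⟨e, he⟩ : ∃ e : Fin n → ℝ, e = Fin.tail v := ⟨_, rfl⟩
  rw [← hT] at hN hne
  rw [← he] at hne
  simp only [← he]
  have hℓ : 0 ≤ 2 * Dd / q1 := by positivity
  refine wg_line_measure (wgRR P T) hN b e hne _ _ hℓ ?_
  rintro s ⟨hs1, hs2, hs3⟩ s' ⟨-, hs2', -⟩ hss hU
  have hsI : s ∈ Icc s s' := left_mem_Icc.2 hss.le
  obtain ⟨hc1, hc2⟩ := wg_branch_const P T b e (Icc s s') ordConnected_Icc hU s hsI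
  have hi : i < wgNr (wgV P (b + s • e)) := hs1.2
  have hir : ∀ r ∈ Icc s s', i < wgNr (wgV P (b + r • e)) := fun r hr => by rw [hc1 r hr]; exact hi
  have hT1 : wgT1 P v q1 ∈ T := by simp [hT, wgTline]
  have hel : ∀ l : Fin n, e l = v l.succ := fun l => by rw [he]; rfl
  -- the height function
  have hHeq : ∀ r, eval (wgPt P i (b + r • e)) (wgHh a v k)
      = wgRt (wgV P (b + r • e)) i - a 0 - v 0 / v k.succ * (b k + r * v k.succ - a k.succ) := by
    intro r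
    simp [wgHh, wgPt, hel]
  have hnear : ∀ r : ℝ, wgPt P i (b + r • e) ∈ wgNear a v k Dd → |eval (wgPt P i (b + r • e)) (wgHh a v k)| ≤ Dd := by
    intro r hr
    have h2 := hr 0
    have h3 : eval (wgPt P i (b + r • e)) (wgHh a v k)
        = wgPt P i (b + r • e) 0 - a 0 - ((wgPt P i (b + r • e) k.succ - a k.succ) / v k.succ) * v 0 := by
      simp [wgHh]; ring
    rw [h3]; exact h2
  refine wg_len_first (fun r => eval (wgPt P i (b + r • e)) (wgHh a v k))
    (fun r => ∑ l, wgG P l (wgPt P i (b + r • e)) * e l - v 0) s s' hss.le ?_ q1 Dd hq1 ?_ (hnear s hs2) (hnear s' hs2')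
  · intro r hr
    have h1 := (wg_branch_hasDerivAt P T b e i r (hU r hr) (hir r hr)).2.2
    have h2 : HasDerivAt (fun r : ℝ => v 0 / v k.succ * (b k + r * v k.succ - a k.succ)) (v 0) r := by
      have h3 : HasDerivAt (fun r : ℝ => b k + r * v k.succ - a k.succ) (v k.succ) r := by
        simpa using (((hasDerivAt_id r).mul_const (v k.succ)).const_add (b k)).sub_const (a k.succ)
      have h4 := h3.const_mul (v 0 / v k.succ)
      rwa [div_mul_cancel₀ _ hvk] at h4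
    have h5 := (h1.sub_const (a 0)).sub h2
    simp only [hHeq]
    exact h5
  · intro r hr
    have h0 := (wg_branch_hasDerivAt P T b e i r (hU r hr) (hir r hr)).2.1
    have h1 := (wg_tests_meaning P (wgPt P i (b + r • e)) h0 v k k k q1 q2 0 0 hq1.le hq2.le le_rfl le_rfl).1
    have h2 : 0 < eval (wgPt P i (b + r • e)) (wgT1 P v q1) := by
      have h3 := hc2 i hi _ hT1 r hr
      rw [sign_pos hs3] at h3
      exact sign_eq_one_iff.1 h3
    have h4 : q1 < |v 0 - ∑ l, wgG P l (wgPt P i (b + r • e)) * v l.succ| := by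
      by_contra h5
      exact absurd (h1.2 (not_lt.1 h5)) (not_le.2 h2)
    have h6 : ∑ l, wgG P l (wgPt P i (b + r • e)) * e l = ∑ l, wgG P l (wgPt P i (b + r • e)) * v l.succ :=
      Finset.sum_congr rfl fun l _ => by rw [hel]
    show q1 ≤ |∑ l, wgG P l (wgPt P i (b + r • e)) * e l - v 0|
    rw [h6, abs_sub_comm]
    exact h4.le

/-- **LEAF L-WG-TS6 (second line test, one branch, one line).**  As `wg_bad_line_first`; now `wgT2 > 0` and `wgT3 ≤ 0` persist on `[s,s']` (`wg_branch_const`; `sign ≤ 0` is preserved), `H'' = ∑∑ Φ_il v_i v_l` (`wg_G_hasDerivAt`, `HasDerivAt.sum`), `|H''| > q2`, `|H| ≤ Dd` on `[s,s']`; `wg_len_second`. -/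
theorem wg_bad_line_second {n : ℕ} (P : MvPolynomial (Fin (n + 1)) ℝ) (N : ℕ) (a v : Fin (n + 1) → ℝ) (k : Fin n)
    (hvk : v k.succ ≠ 0) (q1 q2 Dd : ℝ) (hq1 : 0 < q1) (hq2 : 0 < q2) (hDd : 0 ≤ Dd)
    (hN : (wgRR P (wgTline P a v k q1 q2 Dd)).totalDegree ≤ N) (b : Fin n → ℝ)
    (hne : ¬ ∀ t : ℝ, eval (b + t • Fin.tail v) (wgRR P (wgTline P a v k q1 q2 Dd)) = 0) (i : ℕ) :
    volume {s : ℝ | b + s • Fin.tail v ∈ wgDom P i ∧ wgPt P i (b + s • Fin.tail v) ∈ wgNear a v k Dd ∧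
        0 < eval (wgPt P i (b + s • Fin.tail v)) (wgT2 P v q2)}
      ≤ ENNReal.ofReal ((N + 1) * (4 * Real.sqrt (Dd / q2))) := by
  classical
  obtain ⟨T, hT⟩ : ∃ T, T = wgTline P a v k q1 q2 Dd := ⟨_, rfl⟩
  obtain ⟨e, he⟩ : ∃ e : Fin n → ℝ, e = Fin.tail v := ⟨_, rfl⟩
  rw [← hT] at hN hne
  rw [← he] at hne
  simp only [← he]
  have hℓ : 0 ≤ 4 * Real.sqrt (Dd / q2) := by positivity
  refine wg_line_measure (wgRR P T) hN b e hne _ _ hℓ ?_
  rintro s ⟨hs1, hs2, hs3⟩ s' ⟨-, -, -⟩ hss hU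
  have hsI : s ∈ Icc s s' := left_mem_Icc.2 hss.le
  obtain ⟨hc1, hc2⟩ := wg_branch_const P T b e (Icc s s') ordConnected_Icc hU s hsI
  have hi : i < wgNr (wgV P (b + s • e)) := hs1.2
  have hir : ∀ r ∈ Icc s s', i < wgNr (wgV P (b + r • e)) := fun r hr => by rw [hc1 r hr]; exact hi
  have hT2 : wgT2 P v q2 ∈ T := by simp [hT, wgTline]
  have hT3 : wgT3 a v k Dd ∈ T := by simp [hT, wgTline]
  have hel : ∀ l : Fin n, e l = v l.succ := fun l => by rw [he]; rfl
  -- the height function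
  have hHeq : ∀ r, eval (wgPt P i (b + r • e)) (wgHh a v k)
      = wgRt (wgV P (b + r • e)) i - a 0 - v 0 / v k.succ * (b k + r * v k.succ - a k.succ) := by
    intro r
    simp [wgHh, wgPt, hel]
  have hT3eq : ∀ p : Fin (n + 1) → ℝ, eval p (wgT3 a v k Dd) = (eval p (wgHh a v k)) ^ 2 - Dd ^ 2 := by
    intro p
    simp [wgT3]
  refine wg_len_second (fun r => eval (wgPt P i (b + r • e)) (wgHh a v k))
    (fun r => ∑ l, wgG P l (wgPt P i (b + r • e)) * e l - v 0)
    (fun r => ∑ l, (∑ m, wgPhi P l m (wgPt P i (b + r • e)) * e m) * e l) s s' hss.le ?_ ?_ q2 Dd hq2 ?_ ?_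
  · intro r hr
    have h1 := (wg_branch_hasDerivAt P T b e i r (hU r hr) (hir r hr)).2.2
    have h2 : HasDerivAt (fun r : ℝ => v 0 / v k.succ * (b k + r * v k.succ - a k.succ)) (v 0) r := by
      have h3 : HasDerivAt (fun r : ℝ => b k + r * v k.succ - a k.succ) (v k.succ) r := by
        simpa using (((hasDerivAt_id r).mul_const (v k.succ)).const_add (b k)).sub_const (a k.succ)
      have h4 := h3.const_mul (v 0 / v k.succ)
      rwa [div_mul_cancel₀ _ hvk] at h4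
    have h5 := (h1.sub_const (a 0)).sub h2
    simp only [hHeq]
    exact h5
  · intro r hr
    have h1 : ∀ l : Fin n, HasDerivAt (fun r => wgG P l (wgPt P i (b + r • e)) * e l)
        ((∑ m, wgPhi P l m (wgPt P i (b + r • e)) * e m) * e l) r := fun l =>
      (wg_G_hasDerivAt P T b e i r (hU r hr) (hir r hr) l).mul_const (e l)
    have h2 := (HasDerivAt.fun_sum (u := Finset.univ) fun l _ => h1 l).sub_const (v 0)
    exact h2
  · intro r hr
    have h0 := (wg_branch_hasDerivAt P T b e i r (hU r hr) (hir r hr)).2.1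
    have h1 := (wg_tests_meaning P (wgPt P i (b + r • e)) h0 v k k k q1 q2 0 0 hq1.le hq2.le le_rfl le_rfl).2.1
    have h2 : 0 < eval (wgPt P i (b + r • e)) (wgT2 P v q2) := by
      have h3 := hc2 i hi _ hT2 r hr
      rw [sign_pos hs3] at h3
      exact sign_eq_one_iff.1 h3
    have h4 : q2 < |∑ i', ∑ l, wgPhi P i' l (wgPt P i (b + r • e)) * v i'.succ * v l.succ| := by
      by_contra h5
      exact absurd (h1.2 (not_lt.1 h5)) (not_le.2 h2)
    have h6 : ∑ l, (∑ m, wgPhi P l m (wgPt P i (b + r • e)) * e m) * e l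
        = ∑ i', ∑ l, wgPhi P i' l (wgPt P i (b + r • e)) * v i'.succ * v l.succ := by
      refine Finset.sum_congr rfl fun l _ => ?_
      rw [Finset.sum_mul]
      refine Finset.sum_congr rfl fun m _ => ?_
      rw [hel, hel]; ring
    show q2 ≤ |∑ l, (∑ m, wgPhi P l m (wgPt P i (b + r • e)) * e m) * e l|
    rw [h6]
    exact h4.le
  · intro r hr
    have h1 : eval (wgPt P i (b + s • e)) (wgT3 a v k Dd) ≤ 0 := by
      rw [hT3eq, sub_nonpos, sq_le_sq, abs_of_nonneg hDd]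
      have h2 := hs2 0
      have h3 : eval (wgPt P i (b + s • e)) (wgHh a v k)
          = wgPt P i (b + s • e) 0 - a 0 - ((wgPt P i (b + s • e) k.succ - a k.succ) / v k.succ) * v 0 := by
        simp [wgHh]; ring
      rw [h3]; exact h2
    have h2 : eval (wgPt P i (b + r • e)) (wgT3 a v k Dd) ≤ 0 := by
      have h3 := hc2 i hi _ hT3 r hr
      by_contra h4
      rw [sign_pos (not_le.1 h4)] at h3
      exact absurd (sign_eq_one_iff.1 h3.symm) (not_lt.2 h1)
    rw [hT3eq, sub_nonpos, sq_le_sq, abs_of_nonneg hDd] at h2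
    exact h2

theorem wg_near_isClosed {n : ℕ} (a v : Fin (n + 1) → ℝ) (k : Fin n) (Dd : ℝ) : IsClosed (wgNear a v k Dd) := by
  have : wgNear a v k Dd = ⋂ j, {p : Fin (n + 1) → ℝ | |p j - a j - ((p k.succ - a k.succ) / v k.succ) * v j| ≤ Dd} := by
    ext p
    simp [wgNear]
  rw [this]
  refine isClosed_iInter fun j => isClosed_le ?_ continuous_const
  fun_prop

/-- **LEAF L-WG-TS7 (line tests fail on a small part of the wall).**  `wgBad` is measurable (closed and open conditions).  `wgSigma_le`; for each branch `wg_slab_bound` with direction `tail v`, coordinate `k`, `c i = a i.succ - (a k.succ / v k.succ) v i.succ`, `ρ = Dd` (components `j = i.succ` of `wgNear`),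
`f = eval · (wgRR P (wgTline ..))` (`card ≤ 3`: `N = 245 D²`), `hline`: union of the two sets of `wg_bad_line_first/second`; `|v k.succ| ≤ 1`. -/
theorem wg_bad_sigma {n : ℕ} (P : MvPolynomial (Fin (n + 1)) ℝ) (D : ℕ) (hD : 1 ≤ D) (hP : P.totalDegree ≤ D)
    (a v : Fin (n + 1) → ℝ) (k : Fin n) (hvk : v k.succ ≠ 0) (hv : ‖v‖ ≤ 1) (q1 q2 Dd : ℝ) (hq1 : 0 < q1) (hq2 : 0 < q2)
    (hDd : 0 ≤ Dd) (hgen : wgRR P (wgTline P a v k q1 q2 Dd) ≠ 0) :
    MeasurableSet (wgBad P a v k q1 q2 Dd) ∧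
    wgSigma P (wgBad P a v k q1 q2 Dd)
      ≤ ENNReal.ofReal (D * ((2 * Dd) ^ (n - 1) * ((245 * D ^ 2 + 1) * (2 * Dd / q1 + 4 * Real.sqrt (Dd / q2))))) := by
  classical
  have hmeas : MeasurableSet (wgBad P a v k q1 q2 Dd) := by
    have e : wgBad P a v k q1 q2 Dd = wgNear a v k Dd ∩ ({p | 0 < eval p (wgT1 P v q1)} ∪ {p | 0 < eval p (wgT2 P v q2)}) := rfl
    rw [e]
    refine (wg_near_isClosed a v k Dd).measurableSet.inter (MeasurableSet.union ?_ ?_)
    · exact (isOpen_lt continuous_const (MvPolynomial.continuous_eval _)).measurableSet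
    · exact (isOpen_lt continuous_const (MvPolynomial.continuous_eval _)).measurableSet
  refine ⟨hmeas, ?_⟩
  obtain ⟨T, hT⟩ : ∃ T, T = wgTline P a v k q1 q2 Dd := ⟨_, rfl⟩
  have hcard : T.card ≤ 3 := by
    rw [hT, wgTline]
    exact Finset.card_le_three
  have hTdeg : ∀ G ∈ T, G.totalDegree ≤ 6 * D := by
    intro G hG
    have h := wg_tests_degree P D hD hP a v k k k q1 q2 Dd 0 0
    rw [hT, wgTline] at hG
    simp only [Finset.mem_insert, Finset.mem_singleton] at hG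
    rcases hG with rfl | rfl | rfl
    · exact h.1
    · exact h.2.1
    · exact h.2.2.1
  have hN : (wgRR P T).totalDegree ≤ 245 * D ^ 2 := by
    refine (wgRR_totalDegree_le P T D hP hTdeg).trans ?_
    calc 49 * D ^ 2 * (T.card + 2) ≤ 49 * D ^ 2 * (3 + 2) := Nat.mul_le_mul_left _ (by omega)
      _ = 245 * D ^ 2 := by ring
  set μ0 : ℝ := (245 * D ^ 2 + 1) * (2 * Dd / q1 + 4 * Real.sqrt (Dd / q2)) with hμ0
  have hμ : 0 ≤ μ0 := by positivity
  have hb : ∀ i, volume (wgDom P i ∩ wgPt P i ⁻¹' wgBad P a v k q1 q2 Dd) ≤ ENNReal.ofReal ((2 * Dd) ^ (n - 1) * μ0) := by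
    intro i
    have h1 := wg_slab_bound (N := 245 * D ^ 2) k (Fin.tail v) (fun i' => a i'.succ - (a k.succ / v k.succ) * v i'.succ) hvk Dd μ0 hDd hμ
      (wgDom P i ∩ wgPt P i ⁻¹' wgBad P a v k q1 q2 Dd) ((wgSigma_apply P _ hmeas).1 i) ?_
      (fun x => eval x (wgRR P T)) (MK.tame_of_poly _ (hT ▸ hgen) hN) ?_
    · refine h1.trans (ENNReal.ofReal_le_ofReal ?_)
      have h2 : |Fin.tail v k| ≤ 1 := (norm_le_pi_norm v k.succ).trans hv
      have h3 : 0 ≤ (2 * Dd) ^ (n - 1) * μ0 := by positivity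
      calc |Fin.tail v k| * (2 * Dd) ^ (n - 1) * μ0 = |Fin.tail v k| * ((2 * Dd) ^ (n - 1) * μ0) := by ring
        _ ≤ 1 * ((2 * Dd) ^ (n - 1) * μ0) := mul_le_mul_of_nonneg_right h2 h3
        _ = (2 * Dd) ^ (n - 1) * μ0 := one_mul _
    · rintro x ⟨-, hx⟩ i' -
      have h2 := hx.1 i'.succ
      have e : x i' - x k / Fin.tail v k * Fin.tail v i' - (a i'.succ - a k.succ / v k.succ * v i'.succ)
          = wgPt P i x i'.succ - a i'.succ - (wgPt P i x k.succ - a k.succ) / v k.succ * v i'.succ := by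
        simp only [wgPt, Fin.cons_succ, Fin.tail]
        ring
      rw [e]
      exact h2
    · intro b hne
      have hne' : ¬ ∀ t : ℝ, eval (b + t • Fin.tail v) (wgRR P (wgTline P a v k q1 q2 Dd)) = 0 := by
        rw [← hT]; exact hne
      have hN' : (wgRR P (wgTline P a v k q1 q2 Dd)).totalDegree ≤ 245 * D ^ 2 := by rw [← hT]; exact hN
      have f1 := wg_bad_line_first P (245 * D ^ 2) a v k hvk q1 q2 Dd hq1 hq2 hDd hN' b hne' i
      have f2 := wg_bad_line_second P (245 * D ^ 2) a v k hvk q1 q2 Dd hq1 hq2 hDd hN' b hne' i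
      refine ((measure_mono ?_).trans ((measure_union_le _ _).trans (add_le_add f1 f2))).trans ?_
      · rintro s ⟨hs1, hs2, hs3 | hs3⟩
        · exact Or.inl ⟨hs1, hs2, hs3⟩
        · exact Or.inr ⟨hs1, hs2, hs3⟩
      · rw [← ENNReal.ofReal_add (by positivity) (by positivity)]
        refine ENNReal.ofReal_le_ofReal (le_of_eq ?_)
        rw [hμ0]
        push_cast
        ring
  refine (wgSigma_le P D hP _ hmeas _ hb).trans (le_of_eq ?_)
  rw [ENNReal.ofReal_mul (Nat.cast_nonneg D), ENNReal.ofReal_natCast]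

end Claimed.Agent.R257
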